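import Vale.Agent.P269.WK.Stm
import Vale.Agent.P269.Qrr.MainB
import Vale.Agent.P269.Qrr.Fac
import Vale.Agent.P269.Fg.Unv

/-!
# The dilaton equation from the universal curve and the degree of line bundles on its fibres
-/

set_option linter.unusedSectionVars false

namespace Vale.Agent.P269

open P291Z Set Function Topology Filter

variable {S Λ R J K ι ν κ : Type} [Fintype S] [Fintype Λ] [Fintype R] [Fintype J] [Fintype K]
  [Fintype ι] [DecidableEq ι] [Fintype ν] [Fintype κ]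

namespace DilA

open Ch

variable {ch : Ch ι J} {F : Fam S Λ R J K} {ℓ : R → ι → ℤ} {Z : Set (ch.WF ν κ Λ)}

/-- The universal map. -/
theorem eqv_unv (h : GZ F ℓ Z) : Tq.Eqv (actC F.toWt) F.actT (unv Z) F.cone
    fun x => (x.1.1, fld x.1.2 x.2) := by
  have a : ∀ x ∈ unv Z, _ := fun x hx => (mem_solF.1 (h.sol hx.1)).2 _ hx.2
  refine ⟨fun x hx => (a x hx).2, fun x hx => ?_, fun s hs x hx => ?_⟩
  · have b : Tendsto (fun y => y) (𝓝[unv Z] x) (𝓝 x) := nhdsWithin_le_nhds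
    exact b.fst_nhds.fst_nhds.prodMk_nhds (tendsto_pi_nhds.2 fun j =>
      tendsto_val (h.base _ hx.1).1 b.fst_nhds.snd_nhds b.snd_nhds hx.2
        (eventually_mem_nhdsWithin.mono fun y hy => ⟨hy.2, val_fld ((a y hy).1 j)⟩)
        (val_fld ((a x hx).1 j)))
  · obtain ⟨h1, h2⟩ := isUnitU_iff.1 hs
    refine ⟨(s.1.1, fun r => ∏ i, s.2 i ^ ℓ r i), Prod.isUnit_iff.2 ⟨(Prod.isUnit_iff.1 h1).1,
      Pi.isUnit_iff.2 fun r => (Finset.prod_ne_zero_iff.2 fun i _ => zpow_ne_zero _ (h2 i)).isUnit⟩,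
      Prod.ext rfl (funext fun j => ?_)⟩
    refine (Cv.fld_eq (actC_mem_crv hs hx.2) (((val_fld ((a x hx).1 j)).actF h1).smul h2)).trans ?_
    rw [← mul_assoc, mul_comm (∏ i, s.2 i ^ ch.wd j i)]
    refine congrArg (fun z => _ * z * _) ?_
    simp only [h.wt, ← Finset.prod_zpow, ← zpow_mul, zpow_sum_ne (h2 _), mul_comm]
    exact Finset.prod_comm

theorem evC_eq (h : GZ F ℓ Z) (a : Coch (F.X F.cone)) :
    evC F.cone a = pull (eqv_unv h).qm a :=
  (dif_pos fun z => (eqv_unv h).maps (Quo.out z).2).trans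
    (congrArg (pull · a) (funext (eqv_unv h).qm_out))

theorem eC_eq (h : GZ F ℓ Z) (c : H (F.X F.cone)) : eC F Z c = H.map (eqv_unv h).qm c :=
  (congrArg hcls (evC_eq h _)).trans ((H.map_hcls _ (Mono.DgI.rep_cocycle c)).symm.trans
    (congrArg _ (Mono.DgI.hcls_rep c)))

theorem pshC_smul (e : K → ι → ℕ) (S₀ : Set (ch.WF ν κ Λ)) (z : ℂ) (a : H (ModC F S₀)) :
    pshC F e S₀ (z • a) = z • pshC F e S₀ a :=
  (congrArg _ ((pd (virC F e S₀)).map_smul z a)).trans (map_smul _ _ _)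

theorem sum_χ_m [DecidableEq R] {k D : ℕ} (h : F.BigD k D) (g : ℤ) (n : ℕ) (d : R → ℤ) :
    ∑ o, (F.chart g n d k D).χ o * (F.chart g n d k D).m o = k * (2 * g - 2 + n) := by
  have e : ∀ o, (F.chart g n d k D).m o =
      k * (2 * g - 2 + n + ∑ i, F.θ i * d i) + o.elim 0 d := fun _ => rfl
  simp only [e, mul_add, Finset.sum_add_distrib, ← Finset.sum_mul, Cv.sum_χ g n d h]
  simp [Cv.chart_χ g n d h, Fintype.sum_option, Tgt.hat, Finset.mul_sum, mul_assoc]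

end DilA

/-- The degree of `O(a)` on the fibres of the universal curve. -/
def St.FbD : Prop :=
  ∀ {Λ R J K ν : Type} [Fintype Λ] [Fintype R] [Fintype J] [Fintype K] [Fintype ν] [DecidableEq R]
    (F : Fam Empty Λ R J K) (k : ℕ) (g : ℤ) (d : R → ℤ), F.One k → ∀ᶠ D in atTop,
    ∀ a : Option R → ℤ, Ch.pshC F (F.tdeg (F.sch ν (Fin 0) k D g d)) (F.cy0 ν (Fin 0) k D g d)
      (Ch.oC _ _ a) = ((∑ i, a i * (F.sch ν (Fin 0) k D g d).m i : ℤ) : ℂ) • F.vir (Fin 0) k D g d 0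

theorem St.dil_of (hU : St.UcP) (hW : St.Well) (hF : St.FbD) : St.Dil := by
  intro Λ R J K _ _ _ _ _ F k Θ d j n f h
  obtain ⟨D, h1, h2, h3, h4, h5⟩ := ((hU F k Θ d j f 1 1 h (one_mem _)).and
    ((Qrr.Asm.top_ev hW h Θ d j f).and ((hF (ν := Fin n ⊕ Fin 0) F k (j + 1) d h).and
    ((h.gz (Fin n ⊕ Fin 0) (Fin 0) (j + 1) d).and (F.eventually_bigD k))))).exists
  have hk : (k : ℂ) ≠ 0 := by
    obtain ⟨_, _, -, a⟩ := h.big
    exact Nat.cast_ne_zero.2 (by omega)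
  rw [if_neg one_ne_zero, sub_zero, DilA.eC_eq h4, map_one, mul_one, pow_one] at h1
  rw [← h1, h2, Fam.intC, DilA.pshC_smul, h3, DilA.sum_χ_m h5, smul_smul]
  refine ((Qrr.Asm.inL (F.fsF _ Θ f)).map_smul _ _).trans (congrArg (· * _) ?_)
  simp only [Fintype.card_sum, Fintype.card_fin, Fintype.card_prod, zero_mul, add_zero]
  push_cast
  field_simp
  ring

end Vale.Agent.P269
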