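import Vale.Agent.P269.WK.Pnt
import Vale.Agent.P269.Qrr.MainA
import Vale.Agent.P269.Prj.PresH
import Vale.Agent.P269.Prj.Geo
import Vale.Agent.P269.PA.Main
import Vale.Agent.P269.Asm.PresT
import Vale.Agent.P269.Asm.Prj

/-! The Virasoro constraints of a point. -/

set_option linter.unusedSectionVars false

namespace Vale.Agent.P269

open P291Z Set Function Filter Fock WK PA

theorem Tq.Dim.intg_one {A W : Type} [NormedRing A] [NormedAlgebra ℂ A] [NormedAddCommGroup W]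
    [NormedSpace ℂ W] [FiniteDimensional ℂ A] [FiniteDimensional ℂ W] {act : A → W → W} {S : Set W}
    [Holo.IsAct act univ] [Mono.FP act S] (h : Tq.Dim act S 0) (x : S) [Subsingleton (Quo act S)] :
    Loc.intg (Tq.fnd act S) 1 = 1 := by
  have := (inferInstance : Mono.FP act S).lc
  obtain ⟨φ, a, -⟩ := h.holOrb.slice (Holo.Sp.of act x.1 x.2)
  rw [← hcls_one, Loc.intg_hcls _ cocycle_one, ← one_mul (P291Z.ev _ _)]
  exact (h.isFund.val a (Mono.FP.free _)).2 1 1 cocycle_one (fun _ _ => Subsingleton.elim _ _)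
    (by rw [map_one, ← tau_zero]; exact Orb.locCo_tau)

section vx

variable {R J K : Type} [Fintype R] [Fintype J] [Fintype K] [DecidableEq R] {r : ℕ}
  {F : Fam Empty Empty R J K} {a : Fin (r + 1) → R → ℤ} {θ : Option R → ℤ} {C : Deg.Coh}
  {i : C.H →ₗ[ℂ] H (F.X F.cone)} {i₀ : C.H →ₗ[ℂ] H ((F.proj a θ).X (F.proj a θ).cone)}

theorem PA.vx_isCoh (hF : F.Tg) (hE : (F.proj a θ).Good) (e0 : IsEv C.p (parH _) i₀)
    (h0 : ∀ v, i₀ v = (F.proj a θ).pb F.toWt (fun z => (z.1, z.2 ∘ .inl)) _ (i v))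
    (hc : F.IsCoh C i) (n) : ((F.proj a θ).vx n).IsCoh C
      (((F.proj a θ).rs (vx_sub (F := F) n)).toLinearMap ∘ₗ i₀) := by
  obtain ⟨g, g1, g2, -⟩ := St.presH F _ _ _ _ _ (pres_vx hF n) (tg_abs hF).1 (tg_nice hF)
    (vx_nice hF hE n) (Fam.cp_empty _)
  set iV := ((F.proj a θ).rs (vx_sub (F := F) n)).toLinearMap ∘ₗ i₀
  have e : ∀ v, iV v = g.symm (i v) := fun v => g.eq_symm_apply.2 <|
    (g1 _).trans ((congrArg _ (congrArg _ (h0 _))).trans (pb_rs_pb hF n _))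
  exact ⟨by rw [show ⇑iV = g.symm ∘ i from funext e]; exact g.symm.bijective.comp hc.bij,
    (isEv_map _).comp e0, fun x y => by rw [hc.η, e, e, ← map_mul g.symm, ← g2, g.apply_symm_apply],
    by rw [e, hc.one, map_one]⟩

end vx

section pt

variable {J K : Type} [Fintype J] [Fintype K] [IsEmpty K] [Unique J] {F : K → MvPolynomial J ℂ}
  {d : K → ℕ}

theorem ciF_ne {z} (hz : z ∈ (ciF F d).cone) (j : J) : z.2 j ≠ 0 := fun e =>
  (mem_ciF.1 hz).1 (funext fun j' => Subsingleton.elim j j' ▸ e)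

theorem one_mem_ciF : (0, 1) ∈ (ciF F d).cone := mem_ciF.2 ⟨one_ne_zero, isEmptyElim⟩

theorem subsingleton_ciF : Subsingleton ((ciF F d).X (ciF F d).cone) := by
  have key : ∀ x : (ciF F d).cone, Quo.mk (ciF F d).actT x = Quo.mk _ ⟨_, one_mem_ciF⟩ :=
    fun x => (Quot.sound ⟨(1, fun _ => x.1.2 default), Prod.isUnit_iff.2 ⟨isUnit_one,
      isUnit_pi_iff.2 fun _ => ciF_ne x.2 _⟩, Prod.ext (Subsingleton.elim _ _) (by
        rw [ciF_act]; funext j; simp [Subsingleton.elim j default])⟩).symm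
  exact ⟨by rintro ⟨x⟩ ⟨y⟩; exact (key x).trans (key y).symm⟩

theorem isPt_ciF {C : Deg.Coh} {i} (hc : (ciF F d).IsCoh C i) : IsPt C.fr := by
  have hF := (smCI_of_isEmpty F d).tg
  have := hF.toGood.fp
  have := hF.compact
  have := subsingleton_ciF (F := F) (d := d)
  have : Nonempty ((ciF F d).X (ciF F d).cone) := ⟨Quo.mk _ ⟨_, one_mem_ciF⟩⟩
  have e : ∀ v (z : ℂ), i v = z • 1 → C.fr.η C.fr.one v = z := fun v z e => by
    rw [hc.η, hc.one, one_mul, e, Wt.intX_eq, map_smul,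
      Tq.Dim.intg_one (by simpa using hF.dim) ⟨_, one_mem_ciF⟩, smul_eq_mul, mul_one]
  refine ⟨fun v => hc.bij.1 ?_, e _ _ (hc.one.trans (one_smul _ _).symm)⟩
  obtain ⟨z, hz⟩ := exists_smul_one (i v)
  rw [e v z hz, map_smul, hc.one, hz]

theorem pt_vx {θ k} (hE : ((ciF F d).proj (r := 1) 0 θ).Good)
    (hk : ((ciF F d).proj (r := 1) 0 θ).Big k) (n : Fin 2) :
    (((ciF F d).proj (r := 1) 0 θ).vx n).Pt k := by
  have hF := (smCI_of_isEmpty F d).tg
  refine ⟨⟨vx_nice hF hE n, vx_abs n, ⟨_, (proj_tg hF hE).B_eq⟩, vx_big hk n⟩, ‹_›, ?_,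
    fun β e => ?_⟩
  · rw [ncard_compl, ncard_image_of_injective _ Sum.inr_injective, ncard_compl]
    simp
  · have k := fun z hz => (mem_cone_proj (a := 0) (θ := θ) (z := z) hF.B hF.E hF.zer).1
      (mem_cone_vx (n := n).1 hz).1
    have a := e (.inl default) fun z hz => ciF_ne (k z hz).1 _
    have b := e (.inr n) fun z hz c => (k z hz).2 (funext fun l =>
      if h : l = n then h ▸ c else (mem_cone_vx.1 hz).2 l h)
    funext o
    rcases o with _ | _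
    · simpa [Fam.proj] using b
    · simpa [Fam.proj, ciF, ciK, Tgt.fam] using a

end pt

/-- **The Virasoro constraints of a point.** -/
theorem St.vPoint_of (hL : St.Loc) (hS : St.Spec) (hN : St.Norm) (hR : St.Res) (hP : St.Pres)
    (hW : St.Well) (hD : St.Dil) (hT : St.ProdT) (hU : St.UnQ) : St.VPoint := by
  intro J K _ _ F d hc hd h C i vd hs _ k₀ hk₀ β
  have : IsEmpty K := Finset.univ_eq_empty_iff.1 (Finset.val_eq_zero.1 (Multiset.map_eq_zero.1 hd))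
  obtain ⟨_⟩ := Fintype.card_eq_one_iff_nonempty_unique.1 hc
  have hF := h.tg
  by_cases hβ : β = 0
  swap
  · rw [show (ciF F d).ser0 k₀ _ C.p i β = 0 from funext fun j => by
      rw [Fam.ser0, Fam.serA_eq_zero fun l₁ l₂ => by_contra fun e => ?_, LinearMap.zero_comp]
      · rfl
      rw [Fam.cor_eq] at e
      obtain ⟨⟨m, a, -, b, -⟩, -⟩ := St.supp _ _ _ _ _ _ _ _ hF.nice hk₀ e
      exact hβ (funext fun _ => by
        simpa [ciF, ciK, Tgt.fam] using a.deg_zero b fun _ hz => ciF_ne hz default)]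
    exact virC_zero
  subst hβ
  have hp := isPt_ciF hs.toIsCoh
  have := hp.ev
  have := hF.toGood.fp
  obtain ⟨θ, hE⟩ := hF.exists_proj (r := 1) (a := 0) fun _ => le_rfl
  obtain ⟨k, hk⟩ := hE.toGood.exists_big
  obtain ⟨π, -, LE, -, lE, -, -, pb, -⟩ := St.prjLH _ 0 θ hF one_pos hE.toGood
  obtain ⟨ac, hac⟩ := exists_act hs.toIsCoh
  obtain ⟨w, hw⟩ := exists_li 2
  obtain ⟨i₀, h0, e0⟩ : ∃ i₀ : C.H →ₗ[ℂ] _, (∀ v, i₀ v = ((ciF F d).proj 0 θ).pb (ciF F d).toWt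
      (fun z => (z.1, z.2 ∘ .inl)) _ (i v)) ∧ IsEv C.p (parH _) i₀ :=
    ⟨(H.mapA π).toLinearMap ∘ₗ i, fun v => (pb _).symm, (isEv_map π).comp hs.ev⟩
  obtain ⟨iP, h1⟩ : ∃ iP : (Fin 2 → C.H) →ₗ[ℂ] _, ∀ v, iP v = ∑ l : Fin 2,
      ((ciF F d).proj 0 θ).lc _ 0 (Pi.single none 1) ^ (l : ℕ) * i₀ (v l) :=
    ⟨∑ l : Fin 2, LinearMap.mulLeft ℂ (_ ^ (l : ℕ)) ∘ₗ i₀ ∘ₗ LinearMap.proj l, fun v =>
      LinearMap.sum_apply ..⟩
  choose Cn hC using show ∀ n, ∃ C', Raw (fun j m x => Zv k i₀ w n 0 m j (mp C.fr x)) C' from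
    fun n => by
      have hV := pt_vx hE.toGood hk n
      simp only [Zv, ser0_rs hR hV.nice hV.cp hV.big (hV.exOk_exT _) (vx_sub n), dgV_zero,
        Qrr.Asm.thV_eq]
      exact ⟨_, hV.raw _ _ _ (vx_isCoh hF hE.toGood e0 h0 hs.toIsCoh n) hS hW hN hT hU hD⟩
  rw [← Zv_eq St.selC hF hE.toGood hk (w := w) h0 hR hP hk₀ 0 0]
  refine virC_of_out hp vd (hw.injective.ne zero_ne_one) hC fun ZF e =>
    hL _ 0 θ k C i i₀ iP ac 0 w ZF hF one_pos hE.toGood hk hs.toIsCoh h0 h1 e0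
      (fun v => ?_) hac (fun _ => Wt.lc_zero.symm) (fun _ => .zero) hw e
  rw [h1, h1, map_sum]
  exact Finset.sum_congr rfl fun l _ => by
    rw [Tq.parH_mul, ← lE, Tq.parH_Hev (pow_mem (LE _).2 _), Par.pi_σ, e0]

end Vale.Agent.P269
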