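import Vale.Agent.P269.WK.Stm
import Vale.Agent.P269.Qrr.Bas
import Vale.Agent.P269.Deg.InB

/-! The product formula as a sum over the types of the component of the first marked point. -/

set_option linter.unusedSectionVars false

namespace Vale.Agent.P269

open P291Z Set Function Filter Fock Qrr

variable {S Λ R J K ν κ : Type} [Fintype S] [Fintype Λ] [Fintype R] [Fintype J] [Fintype K]
  [Fintype ν] [Fintype κ] [DecidableEq R]

/-- `c` is the finite sum of the `g a`. -/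
def FSum {α : Type} (g : α → ℂ) (c : ℂ) : Prop := (support g).Finite ∧ c = ∑ᶠ a, g a

theorem FSum.add {α : Type} {g g' : α → ℂ} {c c' : ℂ} (h : FSum g c) (h' : FSum g' c') :
    FSum (fun a => g a + g' a) (c + c') :=
  ⟨(h.1.union h'.1).subset (support_add _ _), by rw [finsum_add_distrib h.1 h'.1, h.2, h'.2]⟩

theorem FSum.mul {α : Type} {g : α → ℂ} {c : ℂ} (h : FSum g c) (z : ℂ) :
    FSum (fun a => z * g a) (z * c) :=
  ⟨h.1.subset (support_mul_subset_right _ _), by rw [h.2, mul_finsum]⟩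

theorem FSum.curry {α : Type} {g : α × ℕ → ℂ} {c : ℂ} (h : FSum g c) {f : α → ℂ}
    (e : ∀ a, ∀ᶠ N in atTop, ∑ n ∈ Finset.range N, g (a, n) = f a) : FSum f c := by
  have k : ∀ a, ∑ᶠ n, g (a, n) = f a := fun a => by
    obtain ⟨b, hb⟩ := (h.1.image Prod.snd).bddAbove
    obtain ⟨N, h1, h2⟩ := ((e a).and (eventually_gt_atTop b)).exists
    rw [← h1]
    exact finsum_eq_sum_of_support_subset _ fun n hn =>
      Finset.mem_coe.2 (Finset.mem_range.2 ((hb ⟨_, hn, rfl⟩).trans_lt h2))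
  refine ⟨(h.1.image Prod.fst).subset fun a ha => by_contra fun c => ha ((k a).symm.trans
    (finsum_eq_zero_of_forall_eq_zero fun n => by_contra fun d => c ⟨_, d, rfl⟩)), ?_⟩
  rw [h.2, finsum_curry _ h.1]
  exact finsum_congr k

namespace Fam

/-- The sum over the values of a locally constant invariant. -/
theorem Iv.fs (hA : St.Add) {F : Fam S Λ R J K} {δ : J → ℕ} {k : ℕ} {g : ℤ} {d : R → ℤ} {u : ν → ℕ}
    {fs : List (Fac F.toWt ν κ)} (h : F.Iv δ k g d u (fun _ => True) fs) {α : Type}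
    {Q : α → AM Λ R J ν κ → Prop} (hQ : ∀ a m m', m.Same m' → Q a m → Q a m')
    (hu : ∀ m, ∃! a, Q a m) (hf : {a | ∃ m, m.Sol F ∧ m.Stable F.θ ∧ m.Typ g d ∧ Q a m}.Finite) :
    FSum (fun a => F.inv k g d (fun n => u n • δ) (Q a) fs)
      (F.inv k g d (fun n => u n • δ) (fun _ => True) fs) := by
  classical
  have h0 : ∀ {P}, F.inv k g d (fun n => u n • δ) P fs ≠ 0 → _ := fun {P} e =>
    (St.supp F δ k g d u P fs h.nice h.big e).1
  have h1 : ∀ s : Finset α, F.Sel k g d (fun n => u n • δ) fun m => ∃ a ∈ s, Q a m := fun s =>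
    .of_same fun _ _ e ⟨a, b, c⟩ => ⟨a, b, hQ _ _ _ e c⟩
  have h2 : ∀ s : Finset α, F.inv k g d (fun n => u n • δ) (fun m => ∃ a ∈ s, Q a m) fs =
      ∑ a ∈ s, F.inv k g d (fun n => u n • δ) (Q a) fs := fun s => by
    induction s using Finset.induction_on with
    | empty => exact by_contra fun e => let ⟨_, _, _, _, _, a, _⟩ := h0 e; Finset.notMem_empty _ a
    | insert a s ha ih =>
      rw [hA F δ k g d u _ _ fs h.nice h.cp h.big (h1 _) (.of_same (hQ a)) h.ok h.dg,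
        Finset.sum_insert ha, ← ih]
      congr 2 <;> refine funext fun m => propext ?_
      · exact ⟨fun e => e.2, fun e => ⟨⟨a, Finset.mem_insert_self _ _, e⟩, e⟩⟩
      · exact ⟨fun ⟨⟨b, c, e⟩, f⟩ => ⟨b, (Finset.mem_insert.1 c).resolve_left fun i => f (i ▸ e), e⟩,
          fun ⟨b, c, e⟩ => ⟨⟨b, Finset.mem_insert_of_mem c, e⟩,
            fun f => ha ((hu m).unique e f ▸ c)⟩⟩
  refine ⟨hf.subset fun a e => h0 e, ?_⟩
  rw [finsum_eq_sum_of_support_subset _ (s := hf.toFinset) fun a e => hf.mem_toFinset.2 (h0 e), ← h2]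
  exact inv_congr h.nice.toInv (fun _ _ _ => id) (h1 _).1 (fun m a b c =>
    iff_of_true trivial ((hu m).exists.imp fun x e => ⟨hf.mem_toFinset.2 ⟨m, a, b, c, e⟩, e⟩)) _

variable {F : Fam Empty Λ R J K} {k : ℕ}

theorem One.iv (h : F.One k) {n : ℕ} {P : AM Λ R J (Fin n ⊕ Fin 0) (Fin 0) → Prop}
    (hP : ∀ m m', m.Same m' → P m → P m') (Θ g d) (f : Fin n → ℕ × H (F.X F.cone)) :
    F.Iv 0 k g d 0 P (F.fsF _ Θ f) :=
  ⟨h.nice, h.cp, h.big, .of_same hP, Wt.fsF_ok Θ f _, fun q => q.elim0⟩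

theorem One.supp (h : F.One k) {n : ℕ} {P Θ d j} {f : Fin n → ℕ × H (F.X F.cone)}
    (e : F.corP k P Θ d j f ≠ 0) : ∃ m, m.Sol F ∧ m.Stable F.θ ∧ m.Typ (j + 1) d ∧ P m :=
  (St.supp F 0 k _ d 0 P _ h.nice h.big e).1

variable {V : Type} [AddCommGroup V] [Module ℂ V] {p : Par ℂ V} {i : V →ₗ[ℂ] H (F.X F.cone)}

theorem One.ser0_cons (h : F.One k) (hS : St.Spec) (hi : IsEv p (parH _) i) {P Θ}
    (he : F.ExOk k ⟨P, Θ, univ, 1⟩) (d j) {n : ℕ} (f : Fin n → ℕ × V) (a v) :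
    F.ser0 k ⟨P, Θ, univ, 1⟩ p i d j (ι _ (Finsupp.single a v) * monF p f) =
      F.corP k (P _ _) Θ d j (Fin.cons (a, i v) (Prod.map id i ∘ f)) := by
  rw [← monF_cons (a, v), h.ser0_monF hS he hi, Fin.comp_cons]; rfl

theorem One.sum_exN (h : F.One k) (hS : St.Spec) (hi : IsEv p (parH _) i) (Θ d j y) :
    ∀ᶠ N in atTop, ∑ n ∈ Finset.range N, F.ser0 k (F.exN n Θ) p i d j y =
      F.ser0 k ⟨fun _ _ m => m.Conn, Θ, univ, 1⟩ p i d j y := by
  induction y using monF_ind with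
  | h n f =>
    filter_upwards [eventually_gt_atTop n] with N hN
    have c : Nat.card (Ch.Mk (Fin n ⊕ Fin 0) (Fin 0)) = n := by simp
    rw [Finset.sum_eq_single n (fun b _ e => ?_) fun e => (e (Finset.mem_range.2 hN)).elim,
      h.ser0_monF hS (h.exOk_conn Θ) hi, Wt.exN, h.ser0_monF hS (h.exOk_exN n Θ) hi]
    · simp only [c, and_true]
    · exact (h.ser0_monF hS (h.exOk_exN b Θ) hi d j f).trans (by_contra fun a =>
        let ⟨_, _, _, _, _, a⟩ := h.supp a; e (a.symm.trans c))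
  | hadd x y hx hy =>
    filter_upwards [hx, hy] with N a b
    simp only [map_add, Finset.sum_add_distrib, a, b]
  | hsmul a x hx =>
    filter_upwards [hx] with N b
    simp only [map_smul, ← Finset.smul_sum, b]

end Fam

theorem ev_tp {V W : Type} [AddCommGroup V] [Module ℂ V] [AddCommGroup W] [Module ℂ W] {p : Par ℂ V}
    {q : Par ℂ W} {E : ℕ → Fock.S p →ₗ[ℂ] ℂ} {C : Fock.S p →ₗ[ℂ] ℂ}
    (h : ∀ y, ∀ᶠ N in atTop, ∑ n ∈ Finset.range N, E n y = C y) (G : Fock.S q →ₗ[ℂ] ℂ) (z) :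
    ∀ᶠ N in atTop, ∑ n ∈ Finset.range N, Deg.tp (E n) G z = Deg.tp C G z := by
  induction z using Deg.InB.ind with
  | h x y => exact (h x).mono fun N e => by simp only [Deg.InB.tp_ap, ← Finset.sum_mul, e]
  | hadd x y hx hy =>
    filter_upwards [hx, hy] with N a b
    simp only [map_add, Finset.sum_add_distrib, a, b]

/-- **The product formula** with a twisting class. -/
theorem St.prodT_of (hQ : St.PrQ) (hA : St.Add) (hS : St.Spec) : St.ProdT := by
  intro Λ R J K _ _ _ _ _ F k V _ _ p i Θ β T Θ₁ Θ₂ h hi hc d j v x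
  refine And.right (a := _) (?_ : FSum _ _)
  induction v using Finsupp.induction_linear with
  | zero => exact ⟨by simp [← Prod.zero_eq_mk], by simp [← Prod.zero_eq_mk]⟩
  | add a b ha hb =>
    simpa only [← Finset.sum_add_distrib, ← map_add, ← add_mul, Prod.mk_add_mk, add_zero]
      using ha.add hb
  | single a v =>
    induction x using monF_ind with
    | hadd x y hx hy => simpa only [← Finset.sum_add_distrib, ← map_add, ← mul_add] using hx.add hy
    | hsmul c x hx =>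
      simpa only [Finset.mul_sum, map_smul, mul_smul_comm, smul_eq_mul] using hx.mul c
    | h n f =>
      rw [Wt.exT, h.ser0_cons hS hi (h.exOk_exT Θ)]
      refine ((h.iv (fun _ _ _ => id) Θ (j + 1) d _).fs hA (α := ((R → ℤ) × ℤ) × ℕ)
        (Q := fun x m => ∃ M : Set _, M.ncard = x.2 ∧ m.CTyp (m.p (mk0 0)) (x.1.2 + 1) x.1.1 M)
        (fun _ _ _ e ⟨M, a, b⟩ => ⟨M, a, e.ctyp b⟩) (fun m => ?_) ?_).curry fun q => ?_
      · obtain ⟨g, d', M, e⟩ := m.exists_ctyp (m.p (mk0 0))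
        refine ⟨((d', g - 1), M.ncard), ⟨M, rfl, by rwa [sub_add_cancel]⟩, fun x ⟨M', a, b⟩ => ?_⟩
        obtain ⟨b, c, rfl⟩ := b.unique e
        exact Prod.ext (Prod.ext c (eq_sub_of_add_eq b)) a.symm
      · refine ((AM.finite_ctyp (ν := Fin (n + 1) ⊕ Fin 0) (κ := Fin 0) h.nice.toGood (j + 1)
          d).image fun x => ((x.2.1, x.1 - 1), x.2.2.ncard)).subset ?_
        rintro x ⟨m, a, b, c, M, e, f⟩
        exact ⟨(_, _, M), ⟨m, a, b, c, _, f⟩, Prod.ext (Prod.ext rfl (add_sub_cancel_right ..)) e⟩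
      · filter_upwards [(eventually_all_finset T).2 fun t _ =>
          ev_tp (h.sum_exN hS hi (Θ₁ t) q.1 q.2) (F.ser0 k (F.exT (Θ₂ t)) p i (d - q.1) (j - q.2))
            (ι _ (Finsupp.single a v, 0) * Fock.map _ (Deg.isEv_diag (p.fs ℕ)) (monF p f))] with N e
        rw [← Finset.sum_congr rfl e, Finset.sum_comm]
        exact Finset.sum_congr rfl fun b _ => hQ F k p i Θ T Θ₁ Θ₂ h hi hc d q.1 j q.2 b f a v

theorem St.prod_of (h : St.ProdT) : St.Prod := fun F k _ _ _ p i hF hk hi d j v x =>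
  (h F k p i 1 {()} (fun _ => 1) (fun _ => 1) (hF.one hF.nice hk) hi cop_one
    d j v x).trans (finsum_congr fun _ => Finset.sum_singleton _ _)

end Vale.Agent.P269
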