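import Vale.Agent.P269.WK.Dil
import Vale.Agent.P269.Qrr.Dom

/-!
# The degree of line bundles on the fibres of the universal curve
-/

namespace Vale.Agent.P269

theorem St.fbD : St.FbD := fun _ _ g d h =>
  (h.nice.sdm h.abs h.big g d).mono fun _ ⟨_, _, _, _, _, a⟩ => a.pshC_oC

theorem St.dil_of' (hU : St.UcP) (hW : St.Well) : St.Dil := St.dil_of hU hW St.fbD

end Vale.Agent.P269
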