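import Vale.Agent.P269.WK.Rearr

/-! Cut-and-join implies the DVV recursion for the top-degree correlators (Mulase-Zhang). -/

namespace Vale.Agent.P269.WK

open Finset

/-- The top-degree part of the correlators. -/
def top (c : ℕ → Multiset ℕ → ℚ) (g : ℕ) (M : Multiset ℕ) : ℚ :=
  if M.sum + 3 = 3 * g + Multiset.card M then c g M else 0

variable {c : ℕ → Multiset ℕ → ℚ}

/-- Quadratic insertion in a cut term. -/
noncomputable def quad {A : Type*} [CommRing A] [Algebra ℚ A] (B : ℕ) (x y : ℕ → A)
    (f : ℕ → ℕ → ℚ) : A := ∑ a ∈ range (B + 1), ∑ b ∈ range (B + 1), f a b • (x a * y b)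

lemma av_quad {A : Type*} [CommRing A] [Algebra ℚ A] (N B : ℕ) (w : ℕ → ℚ) (x y : ℕ → A)
    (f : ℕ → ℕ → ℕ → ℚ) : av N w (fun k => quad B x y fun a b => f a b k) =
      quad B x y fun a b => ∑ k ∈ range (N + 1), w k * f a b k := by
  simp only [av, quad, Finset.smul_sum, Finset.sum_smul, smul_smul]
  rw [Finset.sum_comm]
  exact Finset.sum_congr rfl fun a _ => Finset.sum_comm

lemma sum_gam_gam {A : Type*} [CommRing A] [Algebra ℚ A] (B k : ℕ) (l r : SS →ₐ[ℚ] A) :
    ∑ p ∈ antidiagonal k, ((p.1 : ℚ) * p.2) • (l (Gam B p.1) * r (Gam B p.2)) =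
      quad B (fun a => l (MvPolynomial.X a)) (fun b => r (MvPolynomial.X b))
        fun a b => sq (xi (a + 1) * xi (b + 1)) k := by
  simp only [Gam, Lin, map_sum, map_smul, Finset.sum_mul_sum, Finset.smul_sum, quad, sq_mul, sq_xi,
    Finset.sum_smul, uu_succ, smul_mul_smul_comm, smul_smul]
  rw [Finset.sum_comm]
  refine Finset.sum_congr rfl fun a _ => ?_
  rw [Finset.sum_comm]
  refine Finset.sum_congr rfl fun b _ => Finset.sum_congr rfl fun p _ => ?_
  congr 1; ring

/-- The product of two functionals. -/
noncomputable def W2 (c1 c2 : Multiset ℕ → ℚ) : TensorProduct ℚ SS SS →ₗ[ℚ] ℚ :=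
  TensorProduct.lift ((LinearMap.mul ℚ ℚ).compl₁₂ (Wf c1) (Wf c2))

lemma W2_apply (c1 c2 : Multiset ℕ → ℚ) (x y : SS) :
    W2 c1 c2 (Algebra.TensorProduct.includeLeft (S := ℚ) x * Algebra.TensorProduct.includeRight y) =
      Wf c1 x * Wf c2 y := by
  simp [W2]

lemma prod_split {ι A : Type*} [DecidableEq ι] [CommRing A] [Algebra ℚ A] (l r : SS →ₐ[ℚ] A)
    {s I : Finset ι} (hI : I ⊆ s) (f : ι → SS) :
    ∏ j ∈ s, (if j ∈ I then l (f j) else r (f j)) = l (∏ j ∈ I, f j) * r (∏ j ∈ s \ I, f j) := by
  rw [← Finset.prod_sdiff hI, mul_comm, map_prod, map_prod]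
  congr 1
  · exact Finset.prod_congr rfl fun j hj => if_pos hj
  · exact Finset.prod_congr rfl fun j hj => if_neg (mem_sdiff.mp hj).2

lemma lead_xi_xi (a b : ℕ) :
    Lead (xi (a + 1) * xi (b + 1)) (2 * a + 2 * b + 6) (dd (a + 1) * dd (b + 1)) := by
  have := (lead_xi (a + 1)).mul (lead_xi (b + 1))
  rwa [show 2 * (a + 1) + 1 + (2 * (b + 1) + 1) = 2 * a + 2 * b + 6 by ring] at this

lemma sum_h2 (k : ℕ) (hk : 0 < k) : ∑ p ∈ antidiagonal k, (p.1 : ℚ) * p.2 * h2 p.1 p.2 =
    sq (Polynomial.C (1 / 4) * Polynomial.X ^ 4 - Polynomial.C (1 / 3) * Polynomial.X ^ 3) k := by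
  have hk' : (k : ℚ) ≠ 0 := by exact_mod_cast hk.ne'
  refine mul_left_cancel₀ hk' ?_
  have e : dop (Polynomial.C (1 / 4) * Polynomial.X ^ 4 - Polynomial.C (1 / 3) * Polynomial.X ^ 3) =
      xi 1 * xi 1 := by
    have h4 : (Polynomial.C (1 / 4 : ℚ)) * 4 = 1 := by
      rw [show (4 : Polynomial ℚ) = Polynomial.C 4 from rfl, ← map_mul]; norm_num
    have h3 : (Polynomial.C (1 / 3 : ℚ)) * 3 = 1 := by
      rw [show (3 : Polynomial ℚ) = Polynomial.C 3 from rfl, ← map_mul]; norm_num
    simp only [dop, xi, Polynomial.derivative_sub, Polynomial.derivative_mul,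
      Polynomial.derivative_C, Polynomial.derivative_X_pow, Polynomial.derivative_X,
      Polynomial.derivative_one, zero_mul, zero_add, sub_zero, mul_one, Nat.cast_ofNat, map_ofNat]
    linear_combination (Polynomial.X ^ 2 * (Polynomial.X - 1)) *
      (Polynomial.X ^ 3 * h4 - Polynomial.X ^ 2 * h3)
  rw [sq, ← coeff_eul, eul_ev, e, ← sq, sq_mul, Finset.mul_sum]
  refine Finset.sum_congr rfl fun p hp => ?_
  rw [← mem_antidiagonal.mp hp, sq_xi, sq_xi, uu_succ, uu_succ]
  have := add_mul_h2 p.1 p.2
  push_cast
  linear_combination (p.1 * p.2 : ℚ) * this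

variable {ι : Type*} [Fintype ι] [DecidableEq ι]

/-- The DVV recursion (Virasoro constraints of a point) for the top-degree correlators follows
from the cut-and-join equation. `dd a = (2a-1)!!`. -/
theorem dvv (hc : Dim c) (g : ℕ) (i0 : ι) (d : ι → ℕ)
    (hst : 3 ≤ 2 * g + Fintype.card ι) (hne : ¬(g = 0 ∧ Fintype.card ι = 3))
    (hd : ∑ i, d i + 3 = 3 * g + Fintype.card ι)
    (hCJ : ∀ μ : ι → ℕ, (∀ i, 0 < μ i) → CJ (HH c) g μ) :
    dd (d i0 + 1) * (∏ j ∈ univ.erase i0, dd (d j)) * top c g (univ.val.map d) =
      ∑ j ∈ univ.erase i0, (if d i0 + d j = 0 then 0 else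
        dd (d i0 + d j) * (∏ l ∈ (univ.erase i0).erase j, dd (d l)) *
          top c g ((d i0 + d j - 1) ::ₘ ((univ.erase i0).erase j).val.map d)) +
      1 / 2 * (∏ j ∈ univ.erase i0, dd (d j)) * ∑ a ∈ range (d i0 - 1),
        dd (a + 1) * dd (d i0 - 2 - a + 1) *
        ((if g = 0 then 0 else
            top c (g - 1) (a ::ₘ (d i0 - 2 - a) ::ₘ (univ.erase i0).val.map d)) +
          ∑ h ∈ antidiagonal g, ∑ I ∈ (univ.erase i0).powerset,
            top c h.1 (a ::ₘ I.val.map d) *
              top c h.2 ((d i0 - 2 - a) ::ₘ (univ.erase i0 \ I).val.map d)) +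
      (if g = 1 ∧ Fintype.card ι = 1 then 1 / 8 else 0) := by
  set n := Fintype.card ι with hn
  set k := d i0 with hk
  set A := 3 * g + n + 1 with hA
  set N := 4 * A + 6 with hN
  -- exponents and weights
  let m : ι → ℕ := fun j => if j = i0 then 2 * d j + 1 else 2 * d j
  let lo : ι → ℕ := fun j => if j = i0 then d j + 1 else d j
  have hw : ∀ j, ∃ w, IsW N (m j + 1) w := fun j => exists_weight N (m j + 1) (by omega)
  choose w hw using hw
  have hm0 : m i0 = 2 * k + 1 := if_pos rfl
  have hm1 : ∀ j, j ≠ i0 → m j = 2 * d j := fun j hj => if_neg hj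
  have hl0 : lo i0 = k + 1 := if_pos rfl
  have hl1 : ∀ j, j ≠ i0 → lo j = d j := fun j hj => if_neg hj
  have hdle : ∀ j, d j ≤ ∑ i, d i := fun j => Finset.single_le_sum (fun _ _ => Nat.zero_le _)
    (mem_univ j)
  have hcard : ∀ i : ι, (univ.erase i).card + 1 = n := fun i => by
    rw [Finset.card_erase_add_one (mem_univ i), Finset.card_univ]
  have hcard2 : ∀ i : ι, ∀ j ∈ univ.erase i, ((univ.erase i).erase j).card + 2 = n :=
    fun i j hj => by rw [← hcard i, ← Finset.card_erase_add_one hj]
  have hsum : ∀ s : Finset ι, (s.val.map lo).sum = ∑ j ∈ s, d j + if i0 ∈ s then 1 else 0 := by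
    intro s
    have : ∀ j, lo j = d j + if j = i0 then 1 else 0 := fun j => by
      simp only [lo]; split_ifs <;> rfl
    change ∑ j ∈ s, lo j = _
    simp only [this, Finset.sum_add_distrib, Finset.sum_ite_eq']
  have hs1 : ∀ i, ∑ j ∈ univ.erase i, d j + d i = ∑ j, d j := fun i =>
    Finset.sum_erase_add _ _ (mem_univ i)
  have hs2 : ∀ i, ∀ j ∈ univ.erase i,
      ∑ l ∈ (univ.erase i).erase j, d l + d j + d i = ∑ j, d j := fun i j hj => by
    rw [Finset.sum_erase_add _ _ hj, hs1]
  -- the averaged insertions
  let th : ι → ℕ → ℚ := fun j a => (xi a).coeff (m j + 1)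
  have hΘ : ∀ j, av N (w j) (Gam A) = Lin A (th j) := by
    intro j
    have := av_lin N A (w j) (fun a k => uu a k)
    refine this.trans ?_
    unfold Lin
    refine Finset.sum_congr rfl fun a ha => ?_
    have ha' := mem_range.mp ha
    simp only [← sq_xi]
    rw [(hw j).2 _ ((lead_xi a).1.trans (by omega))]
  have hLd : ∀ g' (s : Finset ι), Ld c g' (∏ j ∈ s, Lin A (th j)) (∏ j ∈ s, th j (lo j))
      (s.val.map lo) := by
    intro g' s
    refine Ld_prod hc g' s th lo (fun j _ => ?_) (fun j _ a ha => ?_)
    · have := hdle j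
      by_cases hj : j = i0
      · subst hj; omega
      · rw [hl1 j hj]; omega
    · refine (lead_xi a).zero ?_
      by_cases hj : j = i0
      · subst hj; omega
      · rw [hl1 j hj] at ha; rw [hm1 j hj]; omega
  have hth : ∀ s : Finset ι, i0 ∉ s → ∏ j ∈ s, th j (lo j) = ∏ j ∈ s, dd (d j) := by
    intro s hs
    refine Finset.prod_congr rfl fun j hj => ?_
    have hj' : j ≠ i0 := fun h => hs (h ▸ hj)
    simp only [th, hl1 j hj', hm1 j hj']
    exact (lead_xi (d j)).2
  have hlo : ∀ s : Finset ι, i0 ∉ s → s.val.map lo = s.val.map d := by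
    intro s hs
    exact Multiset.map_congr rfl fun j hj => hl1 j fun h => hs (h ▸ hj)
  have hi0 : i0 ∉ univ.erase i0 := notMem_erase _ _
  -- term 0
  have T0 : Tst N w (fun μ => Wf (c g) (∏ i, Gam A (μ i))) = 0 := by
    rw [Tst_prod N w (Wf (c g)) fun _ => Gam A]
    simp only [hΘ]
    have := hLd g univ 0 (by rw [hsum]; simp; omega)
    rw [mon_zero, one_mul] at this
    rw [this, hc g _ (by rw [zero_add, hsum]; simp; omega), mul_zero]
  -- eta terms
  have T1 : ∀ i, Tst N w (fun μ => Wf (c g) (Lin A (fun a => sq (eta a) (μ i)) *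
      ∏ j ∈ univ.erase i, Gam A (μ j))) = if i = i0 then
        dd (k + 1) * (∏ j ∈ univ.erase i0, dd (d j)) * top c g (univ.val.map d) else 0 := by
    intro i
    rw [Tst_one N w (Wf (c g)) i (fun k => Lin A fun a => sq (eta a) k) fun _ => Gam A, av_lin]
    simp only [hΘ]
    have e : (Lin A fun a => ∑ k ∈ range (N + 1), w i k * sq (eta a) k) =
        Lin A fun a => (eta a).coeff (m i + 1) := by
      unfold Lin
      refine Finset.sum_congr rfl fun a ha => ?_
      have ha' := mem_range.mp ha
      simp only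
      rw [(hw i).2 _ ((lead_eta a).1.trans (by omega))]
    have h1 := hcard i
    have h2 := hs1 i
    have := (hLd g (univ.erase i)).lin hc (A := A) (l := d i)
      (f := fun a => (eta a).coeff (m i + 1)) (by have := hdle i; omega) (fun a ha => by
        refine (lead_eta a).zero ?_
        by_cases hj : i = i0
        · subst hj; omega
        · rw [hm1 i hj]; omega) 0 (by
        simp only [Multiset.card_cons, Multiset.card_map, Finset.card_val, Multiset.sum_cons,
          hsum, Multiset.card_zero, Multiset.sum_zero]; omega)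
    rw [mon_zero, one_mul, zero_add] at this
    rw [e, this]
    split_ifs with hi
    · subst hi
      rw [hth _ hi0, hlo _ hi0, hm0, (lead_eta k).2, top, if_pos (by simpa using hd)]
      congr 2
      rw [← Multiset.map_cons, ← Finset.insert_val_of_notMem hi0, Finset.insert_erase (mem_univ _)]
    · rw [hc g _ (by
        simp only [Multiset.card_cons, Multiset.card_map, Finset.card_val, Multiset.sum_cons,
          hsum, mem_erase, mem_univ, and_true, ne_eq, Ne.symm hi, not_false_eq_true, if_true]
        omega), mul_zero]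
  -- join terms
  let J : ι → ℚ := fun j => if k + d j = 0 then 0 else
    dd (k + d j) * (∏ l ∈ (univ.erase i0).erase j, dd (d l)) *
      top c g ((k + d j - 1) ::ₘ ((univ.erase i0).erase j).val.map d)
  have T2 : ∀ i, ∀ j ∈ univ.erase i, Tst N w (fun μ => Wf (c g)
      (Lin A (fun a => jt (xi (a + 1)) (μ i) (μ j)) * ∏ l ∈ (univ.erase i).erase j, Gam A (μ l))) =
      (if i = i0 then J j else 0) + (if j = i0 then J i else 0) := by
    intro i j hj
    have hji : j ≠ i := ne_of_mem_erase hj
    rw [Tst_two N w (Wf (c g)) i j hji (fun p q => Lin A fun a => jt (xi (a + 1)) p q)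
      fun _ => Gam A]
    simp only [hΘ]
    have e : (∑ p ∈ range (N + 1), ∑ q ∈ range (N + 1),
        (w i p * w j q) • Lin A fun a => jt (xi (a + 1)) p q) =
        Lin A fun a => (xi (a + 1)).coeff (m i + m j) - (xi (a + 1)).coeff (m i + m j + 1) := by
      simp only [Lin, Finset.smul_sum, smul_smul]
      rw [Finset.sum_congr rfl fun p _ => Finset.sum_comm, Finset.sum_comm]
      refine Finset.sum_congr rfl fun a ha => ?_
      have ha' := mem_range.mp ha
      simp only [← Finset.sum_smul]
      rw [jt_test (xi (a + 1)) (by rw [sq_xi]; simp [uu]) N _ _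
        (by have := (lead_xi (a + 1)).1; omega) (hw i) (hw j)]
    have h1 := hcard2 i j hj
    have h2 := hs2 i j hj
    have hm : 2 * (d i + d j) ≤ m i + m j := by
      simp only [m]; split_ifs <;> omega
    have := (hLd g ((univ.erase i).erase j)).lin hc (A := A) (l := d i + d j - 1)
      (f := fun a => (xi (a + 1)).coeff (m i + m j) - (xi (a + 1)).coeff (m i + m j + 1))
      (by omega) (fun a ha => by
        rw [(lead_xi (a + 1)).zero (by omega), (lead_xi (a + 1)).zero (by omega), sub_zero]) 0 (by
        simp only [Multiset.card_cons, Multiset.card_map, Finset.card_val, Multiset.sum_cons,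
          hsum, Multiset.card_zero, Multiset.sum_zero]; omega)
    rw [mon_zero, one_mul, zero_add] at this
    rw [e, this]
    have key : ∀ i j, j ∈ univ.erase i → i = i0 → ∀ s, s = (univ.erase i).erase j →
        ((xi (d i + d j - 1 + 1)).coeff (m i + m j) -
          (xi (d i + d j - 1 + 1)).coeff (m i + m j + 1)) * (∏ l ∈ s, th l (lo l)) *
          c g ((d i + d j - 1) ::ₘ s.val.map lo) = J j := by
      intro i j hj hi s hs
      subst hi hs
      have h0 : i ∉ (univ.erase i).erase j := fun h => hi0 (mem_of_mem_erase h)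
      have h1 := hcard2 i j hj
      have h2 := hs2 i j hj
      have hs : (((univ.erase i).erase j).val.map d).sum = ∑ l ∈ (univ.erase i).erase j, d l := rfl
      rw [hth _ h0, hlo _ h0, hm0, hm1 j (ne_of_mem_erase hj)]
      simp only [J]
      split_ifs with h
      · rw [hc g _ (by
          simp only [Multiset.card_cons, Multiset.card_map, Finset.card_val, Multiset.sum_cons,
            hs]; omega), mul_zero]
      · rw [show k + d j - 1 + 1 = k + d j by omega, (lead_xi (k + d j)).zero
          (m := 2 * k + 1 + 2 * d j + 1) (by omega), sub_zero,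
          show 2 * k + 1 + 2 * d j = 2 * (k + d j) + 1 by ring, (lead_xi (k + d j)).2, top,
          if_pos (by
          simp only [Multiset.card_cons, Multiset.card_map, Finset.card_val, Multiset.sum_cons,
            hs]; omega)]
    by_cases hi : i = i0
    · rw [if_pos hi, if_neg (by rw [← hi]; exact hji), add_zero]
      exact key i j hj hi _ rfl
    · rw [if_neg hi, zero_add]
      by_cases hj0 : j = i0
      · rw [if_pos hj0, add_comm (d i), add_comm (m i)]
        exact key j i (mem_erase.mpr ⟨hji.symm, mem_univ _⟩) hj0 _ Finset.erase_right_comm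
      · rw [if_neg hj0, hc g _ (by
          simp only [Multiset.card_cons, Multiset.card_map, Finset.card_val, Multiset.sum_cons,
            hsum, mem_erase, mem_univ, ne_eq, Ne.symm hi, Ne.symm hj0,
            not_false_eq_true, if_true, and_self]
          omega), mul_zero]
  -- the quadratic insertion
  have hq : ∀ {R : Type} [CommRing R] [Algebra ℚ R] (x y : ℕ → R) (i : ι),
      av N (w i) (fun k => quad A x y fun a b => sq (xi (a + 1) * xi (b + 1)) k) =
        quad A x y fun a b => (xi (a + 1) * xi (b + 1)).coeff (m i + 1) := by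
    intro R _ _ x y i
    rw [av_quad]
    unfold quad
    refine Finset.sum_congr rfl fun a ha => Finset.sum_congr rfl fun b hb => ?_
    have ha' := mem_range.mp ha
    have hb' := mem_range.mp hb
    simp only
    rw [(hw i).2 _ ((lead_xi_xi a b).1.trans (by omega))]
  have hab : ∀ F : ℕ → ℕ → ℚ, (∑ a ∈ range (A + 1), ∑ b ∈ range (A + 1),
      if a + b + 2 = k then F a b else 0) = ∑ a ∈ range (k - 1), F a (k - 2 - a) := by
    intro F
    have hk' := hdle i0
    rw [← Finset.sum_subset (s₁ := range (k - 1)) (s₂ := range (A + 1))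
      (Finset.range_subset_range.mpr (by omega))]
    · refine Finset.sum_congr rfl fun a ha => ?_
      have ha' := mem_range.mp ha
      rw [Finset.sum_eq_single (k - 2 - a), if_pos (by omega)]
      · intro b _ hb; rw [if_neg (by omega)]
      · intro h; exact absurd (mem_range.mpr (by omega)) h
    · intro a _ ha
      have : ¬ a < k - 1 := by simpa using ha
      exact Finset.sum_eq_zero fun b _ => if_neg (by omega)
  -- genus reduction terms
  have T3 : ∀ i, Tst N w (fun μ => ∑ p ∈ antidiagonal (μ i), (p.1 : ℚ) * p.2 *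
      (if g = 0 then 0 else HH c (g - 1) (p.1 ::ₘ p.2 ::ₘ (univ.erase i).val.map μ))) =
      if i = i0 then ((∏ j ∈ univ.erase i0, dd (d j)) * ∑ a ∈ range (k - 1),
        dd (a + 1) * dd (k - 2 - a + 1) * (if g = 0 then 0 else
          top c (g - 1) (a ::ₘ (k - 2 - a) ::ₘ (univ.erase i0).val.map d)) +
        if g = 1 ∧ n = 1 then 1 / 4 else 0) else 0 := by
    intro i
    have h1 := hcard i
    have h2 := hs1 i
    by_cases hg : g = 0
    · simp only [hg, if_true, mul_zero, Finset.sum_const_zero, zero_ne_one, false_and, if_false,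
        add_zero, ite_self]
      exact map_zero (Tst N w)
    by_cases h11 : g = 1 ∧ n = 1
    · have he : univ.erase i = ∅ := Finset.card_eq_zero.mp (by omega)
      have hi : i = i0 := by
        by_contra hi
        have : i0 ∈ univ.erase i := mem_erase.mpr ⟨Ne.symm hi, mem_univ _⟩
        rw [he] at this; exact absurd this (notMem_empty _)
      subst hi
      rw [he] at h2
      have hk1 : k = 1 := by simp only [Finset.sum_empty] at h2; omega
      rw [if_pos rfl, if_pos h11, hk1, he]
      simp only [Nat.sub_self, range_zero, Finset.sum_empty, mul_zero, zero_add]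
      have hT := Tst_one N w (LinearMap.id : ℚ →ₗ[ℚ] ℚ) i (fun k =>
        sq (Polynomial.C (1 / 4) * Polynomial.X ^ 4 - Polynomial.C (1 / 3) * Polynomial.X ^ 3) k)
        fun _ _ => 1
      simp only [he, Finset.prod_empty, mul_one, LinearMap.id_apply, av, smul_eq_mul] at hT
      rw [(hw i).2 _ (by
        refine (Polynomial.natDegree_sub_le _ _).trans (max_le ?_ ?_) <;>
        refine (Polynomial.natDegree_C_mul_le _ _).trans (by simp; omega)), hm0, hk1] at hT
      refine Eq.trans (Tst_congr N w (fun j => (hw j).1) fun μ hμ => ?_) (hT.trans ?_)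
      · rw [← sum_h2 _ (hμ i)]
        refine Finset.sum_congr rfl fun p _ => ?_
        simp [h11.1, HH, HS, HU, WK.h2]
      · simp [Polynomial.coeff_X_pow]
    have hT := Tst_one N w (Wf (c (g - 1))) i (fun k => quad A MvPolynomial.X MvPolynomial.X
      fun a b => sq (xi (a + 1) * xi (b + 1)) k) fun _ => Gam A
    rw [hq] at hT
    simp only [hΘ] at hT
    refine Eq.trans (Tst_congr N w (fun j => (hw j).1) fun μ _ => ?_) (hT.trans ?_)
    · have := sum_gam_gam A (μ i) (AlgHom.id ℚ SS) (AlgHom.id ℚ SS)
      simp only [AlgHom.id_apply] at this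
      rw [← this, Finset.sum_mul, map_sum]
      refine Finset.sum_congr rfl fun p _ => ?_
      rw [if_neg hg, HH, HU_stable (by
        simp only [Multiset.card_cons, Multiset.card_map, Finset.card_val]; omega), add_zero,
        HS_eq hc (A := A)
        (by simp only [Multiset.card_cons, Multiset.card_map, Finset.card_val]; omega)
        (by simp only [Multiset.card_cons, Multiset.card_map, Finset.card_val]; omega),
        Multiset.map_cons, Multiset.map_cons, Multiset.prod_cons, Multiset.prod_cons,
        Multiset.map_map, smul_mul_assoc, map_smul, smul_eq_mul, mul_assoc (Gam A p.1)]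
      rfl
    · simp only [if_neg hg, if_neg h11, add_zero, quad, Finset.sum_mul, map_sum, smul_mul_assoc,
        map_smul, smul_eq_mul]
      have hv : ∀ a b, (xi (a + 1) * xi (b + 1)).coeff (m i + 1) *
          Wf (c (g - 1)) (MvPolynomial.X a * MvPolynomial.X b * ∏ j ∈ univ.erase i, Lin A (th j)) =
          if i = i0 ∧ a + b + 2 = k then (∏ j ∈ univ.erase i0, dd (d j)) *
            (dd (a + 1) * dd (b + 1) * top c (g - 1) (a ::ₘ b ::ₘ (univ.erase i0).val.map d))
          else 0 := by
        intro a b
        by_cases hz : 2 * a + 2 * b + 6 < m i + 1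
        · rw [(lead_xi_xi a b).zero hz, zero_mul, if_neg]
          rintro ⟨rfl, h⟩; omega
        have hmi : 2 * d i ≤ m i := by simp only [m]; split_ifs <;> omega
        have hcond : d i ≤ a + b + 2 + if i0 ∈ univ.erase i then 1 else 0 := by
          by_cases hi : i = i0
          · subst hi; omega
          · rw [if_pos (mem_erase.mpr ⟨Ne.symm hi, mem_univ _⟩)]; omega
        have := hLd (g - 1) (univ.erase i) (a ::ₘ b ::ₘ 0) (by
          simp only [Multiset.card_cons, Multiset.card_map, Finset.card_val, Multiset.sum_cons,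
            hsum, Multiset.card_zero, Multiset.sum_zero]; omega)
        rw [mon_cons, mon_cons, mon_zero, mul_one] at this
        rw [this, Multiset.cons_add, Multiset.cons_add, zero_add]
        split_ifs with h
        · obtain ⟨rfl, h⟩ := h
          have hs : ((univ.erase i).val.map d).sum = ∑ l ∈ univ.erase i, d l := rfl
          rw [hth _ hi0, hlo _ hi0, hm0, show 2 * k + 1 + 1 = 2 * a + 2 * b + 6 by omega,
            (lead_xi_xi a b).2, top, if_pos (by
            simp only [Multiset.card_cons, Multiset.card_map, Finset.card_val, Multiset.sum_cons,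
              hs]; omega)]
          ring
        · rw [hc _ _ (by
            simp only [Multiset.card_cons, Multiset.card_map, Finset.card_val, Multiset.sum_cons,
              hsum]
            by_cases hi : i = i0
            · subst hi
              have : a + b + 2 ≠ k := fun h' => h ⟨rfl, h'⟩
              omega
            · rw [if_pos (mem_erase.mpr ⟨Ne.symm hi, mem_univ _⟩)]
              rw [hm1 i hi] at hz
              omega), mul_zero, mul_zero]
      simp only [hv]
      by_cases hi : i = i0
      · simp only [hi, true_and, if_true]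
        rw [hab, Finset.mul_sum]
      · simp [hi]
  -- splitting terms
  have T4 : ∀ i, ∀ h ∈ antidiagonal g, ∀ I ∈ (univ.erase i).powerset,
      Tst N w (fun μ => ∑ p ∈ antidiagonal (μ i), (p.1 : ℚ) * p.2 *
        (HS c h.1 (p.1 ::ₘ I.val.map μ) * HS c h.2 (p.2 ::ₘ (univ.erase i \ I).val.map μ))) =
      if i = i0 then (∏ j ∈ univ.erase i0, dd (d j)) * ∑ a ∈ range (k - 1),
        dd (a + 1) * dd (k - 2 - a + 1) * (top c h.1 (a ::ₘ I.val.map d) *
          top c h.2 ((k - 2 - a) ::ₘ (univ.erase i \ I).val.map d)) else 0 := by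
    intro i h hh I hI
    have h1 := hcard i
    have h2 := hs1 i
    have hg := mem_antidiagonal.mp hh
    have hI' := mem_powerset.mp hI
    have e2 := Finset.card_sdiff_add_card_eq_card hI'
    have topz : ∀ g' a (K : Finset ι), ¬ 3 ≤ 2 * g' + (K.card + 1) →
        top c g' (a ::ₘ K.val.map d) = 0 := by
      intro g' a K hK
      rw [top, if_neg]
      simp only [Multiset.card_cons, Multiset.card_map, Finset.card_val]; omega
    have HSz : ∀ g' a (K : Finset ι) (μ : ι → ℕ), ¬ 3 ≤ 2 * g' + (K.card + 1) →
        HS c g' (a ::ₘ K.val.map μ) = 0 := by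
      intro g' a K μ hK
      rw [HS, if_neg]
      simpa using hK
    by_cases s1 : 3 ≤ 2 * h.1 + (I.card + 1); swap
    · simp only [topz _ _ _ s1, HSz _ _ _ _ s1, zero_mul, mul_zero, Finset.sum_const_zero, ite_self]
      exact map_zero (Tst N w)
    by_cases s2 : 3 ≤ 2 * h.2 + ((univ.erase i \ I).card + 1); swap
    · simp only [topz _ _ _ s2, HSz _ _ _ _ s2, mul_zero, Finset.sum_const_zero, ite_self]
      exact map_zero (Tst N w)
    let l : SS →ₐ[ℚ] TensorProduct ℚ SS SS := Algebra.TensorProduct.includeLeft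
    let r : SS →ₐ[ℚ] TensorProduct ℚ SS SS := Algebra.TensorProduct.includeRight
    have hW : ∀ x y, W2 (c h.1) (c h.2) (l x * r y) = Wf (c h.1) x * Wf (c h.2) y :=
      W2_apply _ _
    have hT := Tst_one N w (W2 (c h.1) (c h.2)) i (fun k => quad A (fun a => l (MvPolynomial.X a))
      (fun b => r (MvPolynomial.X b)) fun a b => sq (xi (a + 1) * xi (b + 1)) k)
      fun j k => if j ∈ I then l (Gam A k) else r (Gam A k)
    have hav : ∀ j, av N (w j) (fun k => if j ∈ I then l (Gam A k) else r (Gam A k)) =
        if j ∈ I then l (Lin A (th j)) else r (Lin A (th j)) := by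
      intro j
      rw [← hΘ]
      split_ifs <;> simp only [av, map_sum, map_smul]
    rw [hq] at hT
    simp only [hav] at hT
    rw [prod_split l r hI'] at hT
    refine Eq.trans (Tst_congr N w (fun j => (hw j).1) fun μ _ => ?_) (hT.trans ?_)
    · rw [← sum_gam_gam A (μ i) l r, prod_split l r hI' fun j => Gam A (μ j), Finset.sum_mul,
        map_sum]
      refine Finset.sum_congr rfl fun p _ => ?_
      rw [HS_eq hc (A := A)
        (by simp only [Multiset.card_cons, Multiset.card_map, Finset.card_val]; omega)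
        (by simp only [Multiset.card_cons, Multiset.card_map, Finset.card_val]; omega),
        HS_eq hc (A := A)
        (by simp only [Multiset.card_cons, Multiset.card_map, Finset.card_val]; omega)
        (by simp only [Multiset.card_cons, Multiset.card_map, Finset.card_val]; omega),
        Multiset.map_cons, Multiset.prod_cons, Multiset.map_cons, Multiset.prod_cons,
        Multiset.map_map, Multiset.map_map, smul_mul_assoc, map_smul, smul_eq_mul,
        mul_mul_mul_comm (l _), ← map_mul, ← map_mul, hW]
      rfl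
    · simp only [quad, Finset.sum_mul, map_sum, smul_mul_assoc, map_smul, smul_eq_mul]
      have hv : ∀ a b, (xi (a + 1) * xi (b + 1)).coeff (m i + 1) *
          W2 (c h.1) (c h.2) (l (MvPolynomial.X a) * r (MvPolynomial.X b) *
            (l (∏ j ∈ I, Lin A (th j)) * r (∏ j ∈ univ.erase i \ I, Lin A (th j)))) =
          if i = i0 ∧ a + b + 2 = k then (∏ j ∈ univ.erase i0, dd (d j)) *
            (dd (a + 1) * dd (b + 1) * (top c h.1 (a ::ₘ I.val.map d) *
              top c h.2 (b ::ₘ (univ.erase i \ I).val.map d)))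
          else 0 := by
        intro a b
        by_cases hz : 2 * a + 2 * b + 6 < m i + 1
        · rw [(lead_xi_xi a b).zero hz, zero_mul, if_neg]
          rintro ⟨rfl, h⟩; omega
        rw [mul_mul_mul_comm, ← map_mul, ← map_mul, hW]
        have hL : ∀ g' a (K : Finset ι), 3 * g' + 1 + K.card ≤ a + (K.val.map lo).sum + 3 →
            Wf (c g') (MvPolynomial.X a * ∏ j ∈ K, Lin A (th j)) =
              (∏ j ∈ K, th j (lo j)) * top c g' (a ::ₘ K.val.map lo) := by
          intro g' a K hK
          have := hLd g' K (a ::ₘ 0) (by simpa using hK)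
          rw [mon_cons, mon_zero, mul_one] at this
          rw [this, Multiset.cons_add, zero_add, top]
          split_ifs with h'
          · rfl
          · rw [hc _ _ (by
              simp only [Multiset.card_cons, Multiset.card_map, Finset.card_val,
                Multiset.sum_cons] at h' ⊢; omega)]
        have hZ : ∀ g' a (K : Finset ι), 3 * g' + 1 + K.card < a + (K.val.map lo).sum + 3 →
            top c g' (a ::ₘ K.val.map lo) = 0 := by
          intro g' a K hK
          rw [top, if_neg]
          simp only [Multiset.card_cons, Multiset.card_map, Finset.card_val, Multiset.sum_cons]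
          omega
        have hsp : (I.val.map lo).sum + ((univ.erase i \ I).val.map lo).sum =
            ((univ.erase i).val.map lo).sum := by
          change ∑ j ∈ I, lo j + ∑ j ∈ univ.erase i \ I, lo j = ∑ j ∈ univ.erase i, lo j
          rw [add_comm, Finset.sum_sdiff hI']
        rw [hsum (univ.erase i)] at hsp
        split_ifs with h'
        · obtain ⟨rfl, h'⟩ := h'
          have n1 : i ∉ I := fun h => hi0 (hI' h)
          have n2 : i ∉ univ.erase i \ I := fun h => hi0 (mem_sdiff.mp h).1
          rw [if_neg hi0] at hsp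
          rw [← hlo _ n1, ← hlo _ n2]
          rcases lt_trichotomy (3 * h.1 + 1 + I.card) (a + (I.val.map lo).sum + 3) with h3 | h3 | h3
          · rw [hL _ _ _ h3.le, hZ _ _ _ h3]; simp
          · rw [hL _ _ _ h3.le, hL _ _ _ (by omega), hth _ n1, hth _ n2, hm0,
              show 2 * k + 1 + 1 = 2 * a + 2 * b + 6 by omega, (lead_xi_xi a b).2,
              ← Finset.prod_sdiff hI']
            ring
          · have h4 : 3 * h.2 + 1 + (univ.erase i \ I).card <
                b + ((univ.erase i \ I).val.map lo).sum + 3 := by omega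
            rw [hL _ _ _ h4.le, hZ _ _ _ h4]; simp
        · have hbig : 3 * g + n + 2 ≤
              a + b + (I.val.map lo).sum + ((univ.erase i \ I).val.map lo).sum + 6 := by
            by_cases hi : i = i0
            · subst hi
              have : a + b + 2 ≠ k := fun h'' => h' ⟨rfl, h''⟩
              omega
            · rw [if_pos (mem_erase.mpr ⟨Ne.symm hi, mem_univ _⟩)] at hsp
              rw [hm1 i hi] at hz
              omega
          by_cases h3 : 3 * h.1 + 1 + I.card < a + (I.val.map lo).sum + 3
          · rw [hL _ _ _ h3.le, hZ _ _ _ h3]; simp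
          · have h4 : 3 * h.2 + 1 + (univ.erase i \ I).card <
                b + ((univ.erase i \ I).val.map lo).sum + 3 := by omega
            rw [hL _ _ _ h4.le, hZ _ _ _ h4]; simp
      simp only [hv]
      by_cases hi : i = i0
      · simp only [hi, true_and, if_true]
        rw [hab, Finset.mul_sum]
      · simp [hi]
  -- assembling
  have main := Tst_congr N w (fun j => (hw j).1) fun μ hμ =>
    (hCJ μ hμ).stable hc hst hne (A := A) le_rfl
  have lin : ∀ {α : Type _} (s : Finset α) (F : α → (ι → ℕ) → ℚ),
      Tst N w (fun μ => ∑ a ∈ s, F a μ) = ∑ a ∈ s, Tst N w (F a) := by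
    intro α s F
    rw [← map_sum]; congr 1; ext μ; simp
  have lin' : ∀ {α : Type} (s : Finset α) (F : α → (ι → ℕ) → ℚ),
      Tst N w (fun μ => ∑ a ∈ s, F a μ) = ∑ a ∈ s, Tst N w (F a) := by
    intro α s F
    rw [← map_sum]; congr 1; ext μ; simp
  have add : ∀ F G : (ι → ℕ) → ℚ, Tst N w (fun μ => F μ + G μ) = Tst N w F + Tst N w G :=
    fun F G => map_add (Tst N w) F G
  have smul : ∀ (r : ℚ) (F : (ι → ℕ) → ℚ), Tst N w (fun μ => r * F μ) = r * Tst N w F :=
    fun r F => map_smul (Tst N w) r F
  have T34 : ∀ i, Tst N w (fun μ => ∑ p ∈ antidiagonal (μ i), (p.1 : ℚ) * p.2 *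
      ((if g = 0 then 0 else HH c (g - 1) (p.1 ::ₘ p.2 ::ₘ (univ.erase i).val.map μ)) +
        ∑ h ∈ antidiagonal g, ∑ I ∈ (univ.erase i).powerset,
          HS c h.1 (p.1 ::ₘ I.val.map μ) * HS c h.2 (p.2 ::ₘ (univ.erase i \ I).val.map μ))) =
      if i = i0 then (∏ j ∈ univ.erase i0, dd (d j)) * ∑ a ∈ range (k - 1),
        dd (a + 1) * dd (k - 2 - a + 1) *
        ((if g = 0 then 0 else
            top c (g - 1) (a ::ₘ (k - 2 - a) ::ₘ (univ.erase i0).val.map d)) +
          ∑ h ∈ antidiagonal g, ∑ I ∈ (univ.erase i0).powerset,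
            top c h.1 (a ::ₘ I.val.map d) *
              top c h.2 ((k - 2 - a) ::ₘ (univ.erase i0 \ I).val.map d)) +
        (if g = 1 ∧ n = 1 then 1 / 4 else 0) else 0 := by
    intro i
    have e : (fun μ : ι → ℕ => ∑ p ∈ antidiagonal (μ i), (p.1 : ℚ) * p.2 *
      ((if g = 0 then 0 else HH c (g - 1) (p.1 ::ₘ p.2 ::ₘ (univ.erase i).val.map μ)) +
        ∑ h ∈ antidiagonal g, ∑ I ∈ (univ.erase i).powerset,
          HS c h.1 (p.1 ::ₘ I.val.map μ) * HS c h.2 (p.2 ::ₘ (univ.erase i \ I).val.map μ))) =
      fun μ : ι → ℕ => ∑ p ∈ antidiagonal (μ i), (p.1 : ℚ) * p.2 *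
        (if g = 0 then 0 else HH c (g - 1) (p.1 ::ₘ p.2 ::ₘ (univ.erase i).val.map μ)) +
        ∑ h ∈ antidiagonal g, ∑ I ∈ (univ.erase i).powerset,
          ∑ p ∈ antidiagonal (μ i), (p.1 : ℚ) * p.2 * (HS c h.1 (p.1 ::ₘ I.val.map μ) *
            HS c h.2 (p.2 ::ₘ (univ.erase i \ I).val.map μ)) := by
      ext μ
      simp only [mul_add, Finset.sum_add_distrib, Finset.mul_sum]
      congr 1
      rw [Finset.sum_comm]
      exact Finset.sum_congr rfl fun h _ => Finset.sum_comm
    rw [e, add, lin', T3, Finset.sum_congr rfl fun h hh => (lin _ _).trans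
      (Finset.sum_congr rfl fun I hI => T4 i h hh I hI)]
    by_cases hi : i = i0
    · subst hi
      simp only [if_true, mul_add, Finset.sum_add_distrib, Finset.mul_sum]
      rw [add_right_comm]
      congr 2
      symm
      rw [Finset.sum_comm]
      exact Finset.sum_congr rfl fun h _ => Finset.sum_comm
    · simp [hi]
  rw [add, add, smul, smul, smul, lin, lin, lin, T0] at main
  simp only [lin, T1, T34] at main
  rw [Finset.sum_congr rfl fun i _ => Finset.sum_congr rfl fun j hj => T2 i j hj] at main
  have hJ : ∑ i, ∑ j ∈ univ.erase i, ((if i = i0 then J j else 0) + (if j = i0 then J i else 0)) =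
      2 * ∑ j ∈ univ.erase i0, J j := by
    simp only [Finset.sum_add_distrib]
    rw [two_mul]
    congr 1
    · rw [Finset.sum_eq_single i0]
      · simp
      · intro i _ hi; simp [hi]
      · simp
    · simp only [Finset.sum_ite_eq', mem_erase, mem_univ, and_true]
      rw [← Finset.sum_erase_add _ _ (mem_univ i0)]
      simp only [ne_eq, not_true_eq_false, if_false, add_zero]
      exact Finset.sum_congr rfl fun i hi => if_pos (ne_of_mem_erase hi).symm
  rw [hJ, Finset.sum_ite_eq', Finset.sum_ite_eq', if_pos (mem_univ _), if_pos (mem_univ _)] at main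
  have e8 : (if g = 1 ∧ n = 1 then (1 / 8 : ℚ) else 0) =
      1 / 2 * (if g = 1 ∧ n = 1 then 1 / 4 else 0) := by split_ifs <;> norm_num
  rw [e8]
  linear_combination main

end Vale.Agent.P269.WK
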