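import Vale.Agent.P269.WK.Def
import Vale.Agent.P269.WK.DVV

/-! The DVV recursion in terms of multisets. -/

namespace Vale.Agent.P269.WK

open Finset

namespace CdvP

variable {c : ℕ → Multiset ℕ → ℚ} {t : Multiset ℕ → ℂ}

lemma exists_fin (k : ℕ) (x : Multiset ℕ) :
    ∃ (n : ℕ) (d : Fin (n + 1) → ℕ), d 0 = k ∧ (univ.erase 0).val.map d = x := by
  refine ⟨x.toList.length, Fin.cons k x.toList.get, rfl, ?_⟩
  have e := congrArg (fun s : Finset (Fin (x.toList.length + 1)) =>
    s.val.map (Fin.cons k x.toList.get : Fin (x.toList.length + 1) → ℕ))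
    (insert_erase (mem_univ (0 : Fin (x.toList.length + 1))))
  simp only [insert_val_of_notMem (notMem_erase _ _), Multiset.map_cons, Fin.univ_val_map,
    List.ofFn_succ, Fin.cons_zero, Fin.cons_succ, List.ofFn_get, ← Multiset.cons_coe,
    Multiset.coe_toList] at e
  exact (Multiset.cons_inj_right k).1 e

lemma c000 (hc : Dim c) (h : CJ (HH c) 0 fun _ : Fin 3 => 1) : c 0 {0, 0, 0} = 1 := by
  have e1 : HH c 0 (univ.val.map fun _ : Fin 3 => 1) = c 0 {0, 0, 0} := by
    have := Ld_prod hc 0 (univ : Finset (Fin 3)) (A := 3) (fun _ a => uu a 1) (fun _ => 0)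
      (fun _ _ => by omega) (fun _ _ _ h => by omega) 0 (by simp)
    rw [HH, HU_stable (by simp), HS, if_pos (by simp), add_zero, Multiset.map_map]
    simpa [mon_zero, uu, Gam, pow_succ, mul_assoc] using this
  have e2 : ∀ i : Fin 3, ∀ j ∈ univ.erase i,
      HH c 0 ((1 + 1) ::ₘ ((univ.erase i).erase j).val.map fun _ => 1) = 2 / 3 := fun i j hj => by
    have : ((univ.erase i).erase j).val.map (fun _ => 1) = {1} := by
      rw [Multiset.map_const', ← card_def, card_erase_of_mem hj, card_erase_of_mem (mem_univ _)]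
      rfl
    rw [this]
    simp [HH, HS, HU, uu]
    norm_num
  rw [CJ, e1, sum_congr rfl fun i _ => sum_congr rfl fun j hj => by rw [e2 i j hj]] at h
  generalize c 0 {0, 0, 0} = u at h ⊢
  simp [Finset.Nat.antidiagonal_succ, card_erase_of_mem] at h
  linarith

variable (ht : ∀ g x, x.sum + 3 = 3 * g + Multiset.card x → t x = c g x)
  (ht0 : ∀ x, (∀ g, x.sum + 3 ≠ 3 * g + Multiset.card x) → t x = 0)

include ht in
lemma top_eq {g : ℕ} {y : Multiset ℕ} (h : y.sum + 3 = 3 * g + Multiset.card y) :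
    (top c g y : ℂ) = t y := by rw [top, if_pos h, ht g y h]

lemma top_ne {g : ℕ} {y : Multiset ℕ} (h : y.sum + 3 ≠ 3 * g + Multiset.card y) :
    (top c g y : ℂ) = 0 := by rw [top, if_neg h, Rat.cast_zero]

include ht ht0 in
lemma top_mul {g : ℕ} {y z : Multiset ℕ}
    (h : y.sum + z.sum + 6 = 3 * g + Multiset.card y + Multiset.card z) :
    ∑ q ∈ antidiagonal g, (top c q.1 y : ℂ) * top c q.2 z = t y * t z := by
  by_cases h1 : ∀ g, y.sum + 3 ≠ 3 * g + Multiset.card y
  · rw [ht0 y h1, zero_mul]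
    exact sum_eq_zero fun q _ => by rw [top_ne (h1 _), zero_mul]
  by_cases h2 : ∀ g, z.sum + 3 ≠ 3 * g + Multiset.card z
  · rw [ht0 z h2, mul_zero]
    exact sum_eq_zero fun q _ => by rw [top_ne (h2 _), mul_zero]
  push Not at h1 h2
  obtain ⟨g1, h1⟩ := h1
  obtain ⟨g2, h2⟩ := h2
  rw [sum_eq_single (g1, g2), top_eq ht h1, top_eq ht h2]
  · intro q hq hne
    have := mem_antidiagonal.1 hq
    rw [top_ne fun h3 => hne (Prod.ext (by omega) (by omega)), zero_mul]
  · exact fun h3 => absurd (mem_antidiagonal.2 (by omega)) h3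

include ht0 in
lemma none (k : ℕ) (x : Multiset ℕ) (h : ∀ g, k + x.sum + 3 ≠ 3 * g + (Multiset.card x + 1)) :
    dd (k + 1) • t (k ::ₘ x) = dvL t k x +
    (1 / 2 : ℚ) • ∑ a ∈ range (k - 1), (dd (a + 1) * dd (k - 2 - a + 1)) •
      cv (fun y => t (a ::ₘ y)) (fun y => t ((k - 2 - a) ::ₘ y)) x +
    (if k = 1 ∧ x = 0 then 1 / 8 else 0) + if k = 0 ∧ x = {0, 0} then 1 else 0 := by
  rw [ht0 _ (by simpa using h), dvL, s1_eq_zero, sum_eq_zero, sum_eq_zero, if_neg, if_neg]
  · simp
  · rintro ⟨rfl, rfl⟩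
    exact h 0 (by simp)
  · rintro ⟨rfl, rfl⟩
    exact h 1 (by simp)
  · intro a ha
    have := mem_range.1 ha
    rw [cv, s2_eq_zero, smul_zero]
    rintro y z rfl
    by_cases h1 : ∀ g, (a ::ₘ y).sum + 3 ≠ 3 * g + Multiset.card (a ::ₘ y)
    · rw [ht0 _ h1, zero_mul]
    · rw [ht0 ((k - 2 - a) ::ₘ z) fun g2 h2 => h1 fun g1 h3 => h (g1 + g2) ?_, mul_zero]
      simp only [Multiset.sum_cons, Multiset.card_cons, Multiset.sum_add, Multiset.card_add] at *
      omega
  · intro a ha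
    have := mem_range.1 ha
    rw [ht0 _ fun g h2 => h (g + 1) ?_, smul_zero]
    simp only [Multiset.sum_cons, Multiset.card_cons] at h2
    omega
  · rintro m ν rfl
    split_ifs with h1
    · rfl
    · rw [ht0 _ fun g h2 => h g ?_, smul_zero]
      simp only [Multiset.sum_cons, Multiset.card_cons] at h2 ⊢
      omega

end CdvP

open CdvP in
theorem cdv_of_cj {c : ℕ → Multiset ℕ → ℚ} (hc : Dim c)
    (hCJ : ∀ g n (μ : Fin (n + 1) → ℕ), (∀ i, 0 < μ i) → CJ (HH c) g μ) {t : Multiset ℕ → ℂ}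
    (ht : ∀ g x, x.sum + 3 = 3 * g + Multiset.card x → t x = c g x)
    (ht0 : ∀ x, (∀ g, x.sum + 3 ≠ 3 * g + Multiset.card x) → t x = 0) : CDV t := by
  intro k x
  by_cases h : ∀ g, k + x.sum + 3 ≠ 3 * g + (Multiset.card x + 1)
  · exact none ht0 k x h
  push Not at h
  obtain ⟨g, h⟩ := h
  by_cases h3 : g = 0 ∧ Multiset.card x + 1 = 3
  · obtain ⟨rfl, h3⟩ := h3
    obtain rfl : k = 0 := by omega
    obtain ⟨a, b, rfl⟩ := Multiset.card_eq_two.1 (show Multiset.card x = 2 by omega)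
    have hab : a + b = 0 := by simpa using h
    obtain rfl : a = 0 := by omega
    obtain rfl : b = 0 := by omega
    rw [ht 0 _ (by simp), show (0 ::ₘ {0, 0} : Multiset ℕ) = {0, 0, 0} from rfl,
      c000 hc (hCJ 0 2 _ fun _ => one_pos), dvL, s1_eq_zero]
    · simp [dd]
    · intro m ν e
      have : m ∈ ({0, 0} : Multiset ℕ) := e ▸ Multiset.mem_cons_self m ν
      exact if_pos (by simpa using this)
  obtain ⟨n, d, rfl, rfl⟩ := exists_fin k x
  have hn : Multiset.card ((univ.erase 0).val.map d) = n := by simp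
  have hu : univ.val.map d = d 0 ::ₘ (univ.erase 0).val.map d := by
    rw [← Multiset.map_cons, ← insert_val_of_notMem (notMem_erase _ _), insert_erase (mem_univ _)]
  have hs : ∑ i, d i = d 0 + ((univ.erase 0).val.map d).sum :=
    (add_sum_erase _ _ (mem_univ _)).symm
  rw [hn] at h h3
  have key := congrArg (Rat.cast : ℚ → ℂ) (dvv hc g 0 d (by rw [Fintype.card_fin]; omega)
    (by rwa [Fintype.card_fin]) (by rw [Fintype.card_fin, hs, h]) (hCJ g n))
  have hP : ((∏ j ∈ univ.erase 0, dd (d j) : ℚ) : ℂ) ≠ 0 :=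
    Rat.cast_ne_zero.2 (prod_ne_zero_iff.2 fun j _ => dd_ne _)
  have e0 := top_eq ht (g := g) (y := univ.val.map d) (by rw [hu]; simpa [hn] using h)
  have e1 : ((∑ j ∈ univ.erase 0, (if d 0 + d j = 0 then 0 else
      dd (d 0 + d j) * (∏ l ∈ (univ.erase 0).erase j, dd (d l)) *
        top c g ((d 0 + d j - 1) ::ₘ ((univ.erase 0).erase j).val.map d)) : ℚ) : ℂ) =
      (∏ j ∈ univ.erase 0, dd (d j) : ℚ) * s1 ((univ.erase 0).val.map d) fun m ν =>
        if d 0 + m = 0 then 0 else (dd (d 0 + m) / dd m) • t ((d 0 + m - 1) ::ₘ ν) := by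
    rw [s1_val, mul_sum, Rat.cast_sum]
    refine sum_congr rfl fun j hj => ?_
    split_ifs with h1
    · simp
    · have h4 : ((univ.erase 0).val.map d).sum =
          d j + (((univ.erase 0).erase j).val.map d).sum := (add_sum_erase _ _ hj).symm
      have h5 := card_erase_add_one hj
      have h6 : ((dd (d j) : ℚ) : ℂ) ≠ 0 := Rat.cast_ne_zero.2 (dd_ne _)
      rw [Rat.cast_mul, top_eq ht, ← mul_prod_erase _ _ hj, Rat.smul_def]
      · push_cast
        field_simp
      · simp only [Multiset.sum_cons, Multiset.card_cons, Multiset.card_map, card_val] at hn ⊢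
        omega
  have e2 : ((∑ a ∈ range (d 0 - 1), dd (a + 1) * dd (d 0 - 2 - a + 1) *
      ((if g = 0 then 0 else top c (g - 1) (a ::ₘ (d 0 - 2 - a) ::ₘ (univ.erase 0).val.map d)) +
        ∑ h ∈ antidiagonal g, ∑ I ∈ (univ.erase 0).powerset, top c h.1 (a ::ₘ I.val.map d) *
          top c h.2 ((d 0 - 2 - a) ::ₘ (univ.erase 0 \ I).val.map d)) : ℚ) : ℂ) =
      ∑ a ∈ range (d 0 - 1), (dd (a + 1) * dd (d 0 - 2 - a + 1)) •
        t (a ::ₘ (d 0 - 2 - a) ::ₘ (univ.erase 0).val.map d) +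
      ∑ a ∈ range (d 0 - 1), (dd (a + 1) * dd (d 0 - 2 - a + 1)) •
        cv (fun y => t (a ::ₘ y)) (fun y => t ((d 0 - 2 - a) ::ₘ y)) ((univ.erase 0).val.map d) := by
    rw [← sum_add_distrib, Rat.cast_sum]
    refine sum_congr rfl fun a ha => ?_
    have := mem_range.1 ha
    rw [← smul_add, Rat.smul_def, Rat.cast_mul, Rat.cast_add, sum_comm, cv, s2_val, Rat.cast_sum]
    refine congrArg _ (congrArg₂ _ ?_ (sum_congr rfl fun I hI => ?_))
    · split_ifs with h1
      · rw [ht0 _ fun g' h2 => ?_, Rat.cast_zero]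
        simp only [Multiset.sum_cons, Multiset.card_cons, hn] at h2
        omega
      · refine top_eq ht ?_
        simp only [Multiset.sum_cons, Multiset.card_cons, hn]
        omega
    · have h4 : ((univ.erase 0 \ I).val.map d).sum + (I.val.map d).sum =
          ((univ.erase 0).val.map d).sum := sum_sdiff (mem_powerset.1 hI)
      have h5 := card_sdiff_add_card_eq_card (mem_powerset.1 hI)
      push_cast
      refine top_mul ht ht0 ?_
      simp only [Multiset.sum_cons, Multiset.card_cons, Multiset.card_map, card_val] at hn ⊢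
      omega
  have e3 : ((if g = 1 ∧ Fintype.card (Fin (n + 1)) = 1 then 1 / 8 else 0 : ℚ) : ℂ) =
      (∏ j ∈ univ.erase 0, dd (d j) : ℚ) *
        if d 0 = 1 ∧ (univ.erase 0).val.map d = 0 then 1 / 8 else 0 := by
    rw [Fintype.card_fin]
    by_cases h1 : n = 0
    · subst h1
      have h2 : (univ.erase 0 : Finset (Fin (0 + 1))) = ∅ := rfl
      rw [h2] at h ⊢
      simp only [empty_val, Multiset.map_zero, Multiset.sum_zero] at h
      by_cases h4 : g = 1
      · rw [if_pos ⟨h4, rfl⟩, if_pos ⟨by omega, rfl⟩]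
        simp
      · rw [if_neg fun h5 => h4 h5.1, if_neg fun h5 => h4 (by omega)]
        simp
    · rw [if_neg fun h5 => h1 (by omega), if_neg fun h5 => h1 (by rw [← hn, h5.2]; rfl)]
      simp
  have e4 : ¬(d 0 = 0 ∧ (univ.erase 0).val.map d = {0, 0}) := fun h4 => by
    rw [h4.2] at h hn
    simp at h hn
    omega
  rw [Rat.cast_add, Rat.cast_add, Rat.cast_mul, Rat.cast_mul, Rat.cast_mul, Rat.cast_mul, e0, e1, e2,
    e3, hu] at key
  rw [if_neg e4, dvL, Rat.smul_def, Rat.smul_def, Rat.smul_def]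
  refine mul_left_cancel₀ hP ?_
  linear_combination key

end Vale.Agent.P269.WK
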