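import Vale.Agent.P269.WK.Def

/-! Connected and disconnected series. -/

namespace Vale.Agent.P269.WK

open Finset PowerSeries

namespace ConP

section gen

variable {I : Type*} {A : Type*} [CommRing A]

lemma cv_add (f f' g : Multiset I → A) (μ : Multiset I) :
    cv (fun x => f x + f' x) g μ = cv f g μ + cv f' g μ := by
  simp only [cv, add_mul, s2_add]

lemma cv_mul (c : A) (f g : Multiset I → A) (μ : Multiset I) :
    cv (fun x => c * f x) g μ = c * cv f g μ := by
  simp only [cv, mul_s2, mul_assoc]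

lemma cv_sum {α : Type*} (s : Finset α) (f : α → Multiset I → A) (g : Multiset I → A)
    (μ : Multiset I) : cv (fun x => ∑ a ∈ s, f a x) g μ = ∑ a ∈ s, cv (f a) g μ := by
  simp only [cv, sum_mul, s2_sum]

lemma cv_smul [Algebra ℚ A] (c : ℚ) (f g : Multiset I → A) (μ : Multiset I) :
    cv (fun x => c • f x) g μ = c • cv f g μ := by
  simp only [cv, smul_s2, smul_mul_assoc]

lemma cv_ite (p : Prop) [Decidable p] (f f' g : Multiset I → A) (μ : Multiset I) :
    cv (fun x => if p then f x else f' x) g μ = if p then cv f g μ else cv f' g μ := by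
  split_ifs <;> rfl

lemma cv_nil (g : Multiset I → A) (μ : Multiset I) : cv (fun _ => 0) g μ = 0 := by
  simp [cv]

lemma s2_left' {M : Type*} [AddCommMonoid M] [DecidableEq I] (μ : Multiset I) (F : Multiset I → M) :
    s2 μ (fun x y => if x = 0 then F y else 0) = F μ :=
  (s2_congr fun x y _ => by by_cases h : x = 0 <;> simp [h]).trans (s2_left μ F)

lemma cv_one [DecidableEq I] (c : A) (g : Multiset I → A) (μ : Multiset I) :
    cv (fun x => if x = 0 then c else 0) g μ = c * g μ := by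
  simp only [cv, ite_mul, zero_mul]
  exact s2_left' μ fun y => c * g y

variable {E H : Multiset I → A} (hp : ∀ k μ, E (k ::ₘ μ) = cv (fun y => H (k ::ₘ y)) E μ)
include hp

lemma two (a b : I) (μ : Multiset I) : E (a ::ₘ b ::ₘ μ) = cv (fun y => H (a ::ₘ b ::ₘ y) +
    cv (fun x => H (a ::ₘ x)) (fun x => H (b ::ₘ x)) y) E μ := by
  rw [hp, cv_cons, cv_add, funext (hp b), ← cv_assoc]

lemma der (D : A →+ A) (hD : ∀ u v, D (u * v) = D u * v + u * D v) (h0 : H 0 = 0)
    (h0' : D (E 0) = 0) (μ : Multiset I) : D (E μ) = cv (fun x => D (H x)) E μ := by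
  induction μ using Multiset.strongInductionOn with
  | ih μ ih =>
    rcases Multiset.empty_or_exists_mem μ with rfl | ⟨k, hk⟩
    · rw [cv_zero, h0, h0', map_zero, zero_mul]
    · obtain ⟨ν, rfl⟩ := Multiset.exists_cons_of_mem hk
      have e : D (cv (fun y => H (k ::ₘ y)) E ν) = cv (fun y => D (H (k ::ₘ y))) E ν +
          cv (fun y => H (k ::ₘ y)) (fun y => D (E y)) ν := by
        simp only [cv, map_s2, hD, s2_add]
      rw [hp, e, cv_cons, funext (hp k), cv_congr (fun _ _ => rfl) fun x hx =>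
        ih x (hx.trans_lt (Multiset.lt_cons_self ν k)), ← cv_assoc, ← cv_assoc,
        cv_comm fun y => H (k ::ₘ y)]

end gen

lemma al_cons (l : ℕ) (h : Multiset Sy → ℂ⟦X⟧) (s : Sy) :
    (fun z => al l h (s ::ₘ z)) =
      al l (fun z => h (s ::ₘ z)) + (X * C (ph l s : ℂ) : ℂ⟦X⟧) • h := by
  funext z
  simp only [al, s1_cons, Pi.add_apply, Pi.smul_apply, smul_eq_mul, mul_add, mul_assoc,
    Multiset.cons_swap s, ← smul_eq_C_mul, Rat.cast_smul_eq_qsmul]
  abel

lemma al_cv (l : ℕ) (f h : Multiset Sy → ℂ⟦X⟧) :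
    al l (cv f h) = cv (fun z => f (.inr l ::ₘ z)) h + cv f (al l h) := by
  funext z
  have e := s2_s1' z fun s x y => X * (ph l s • (f x * h y))
  rw [al, cv_cons]
  simp only [al, cv, Pi.add_apply, mul_add, s2_add, mul_smul_comm, smul_s2, mul_s1, mul_s2,
    mul_left_comm _ (X : ℂ⟦X⟧)] at e ⊢
  rw [e]
  abel

/-- attaching an edge as a linear map -/
noncomputable def alL (l : ℕ) : (Multiset Sy → ℂ⟦X⟧) →ₗ[ℂ⟦X⟧] (Multiset Sy → ℂ⟦X⟧) where
  toFun := al l
  map_add' f h := funext fun z => by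
    simp only [al, Pi.add_apply, smul_add, s1_add, mul_add]
    abel
  map_smul' c f := funext fun z => by
    simp only [al, Pi.smul_apply, smul_eq_mul, RingHom.id_apply, mul_add, mul_s1, mul_smul_comm,
      mul_left_comm c]

lemma GG_der {g gc : Multiset Sy → ℂ⟦X⟧} (hp : ∀ s z, g (s ::ₘ z) = cv (fun y => gc (s ::ₘ y)) g z)
    (s : Sy) (μ : Multiset ℕ) : (fun z => GG g μ (s ::ₘ z)) =
      s2 μ (fun x y => cv (fun z => gc (s ::ₘ (z + x.map .inr))) (GG g y)) +
        s1 μ fun l ν => (X * C (ph l s : ℂ) : ℂ⟦X⟧) • GG g ν := by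
  induction μ using Multiset.induction_on with
  | empty => simpa using funext (hp s)
  | cons l μ ih =>
    have e := congrArg (alL l) ih
    rw [map_add, map_s2, map_s1] at e
    simp only [map_smul] at e
    simp only [show ∀ f, alL l f = al l f from fun _ => rfl] at e
    rw [GG_cons, al_cons, e, s2_cons, s1_cons]
    simp only [al_cv, s2_add, GG_cons, Multiset.map_cons, Multiset.add_cons,
      Multiset.cons_add]
    abel

lemma HU_cons (k : ℕ) (y : Multiset ℕ) (u : ℂ⟦X⟧) :
    (HU 0 (k ::ₘ y) • X ^ Multiset.card y) * u = (if y = 0 then c1 k • u else 0) +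
      if Multiset.card y = 1 then (X * C (h2 y.sum k : ℂ)) * u else 0 := by
  rcases Nat.lt_trichotomy (Multiset.card y) 1 with h | h | h
  · obtain rfl := Multiset.card_eq_zero.1 (Nat.lt_one_iff.1 h)
    simp [HU, c1]
  · obtain ⟨l, rfl⟩ := Multiset.card_eq_one.1 h
    have e : HU 0 (k ::ₘ {l}) = h2 l k := by simp [HU, h2, mul_comm, add_comm]
    simp only [e, Multiset.card_singleton, Multiset.singleton_ne_zero, if_false, if_true, zero_add,
      pow_one, Multiset.sum_singleton, mul_comm X, ← smul_eq_C_mul, Rat.cast_smul_eq_qsmul]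
  · rw [HU_stable (by rw [Multiset.card_cons]; omega), zero_smul, zero_mul, if_neg h.ne',
      if_neg (by rintro rfl; simp at h), add_zero]

lemma s1_deg {M : Type*} [AddCommGroup M] [Module ℚ M] (f : Multiset ℕ → M) (μ : Multiset ℕ) :
    (((μ.sum : ℕ) : ℚ) - Multiset.card μ) • f μ = s1 μ fun k ν => ((k : ℚ) - 1) • f (k ::ₘ ν) := by
  rw [s1_congr (F := fun (k : ℕ) ν => ((k : ℚ) - 1) • f (k ::ₘ ν))
    (G := fun (k : ℕ) _ => ((k : ℚ) - 1) • f μ) fun k ν e => by rw [e]]
  generalize f μ = v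
  induction μ using Multiset.induction_on with
  | empty => simp
  | cons a μ ih =>
    rw [s1_cons, ← ih, ← add_smul, Multiset.sum_cons, Multiset.card_cons]
    push_cast
    ring_nf

lemma two_zero (y : Multiset ℕ) : (if y = {0, 0} then 1 else 0 : ℂ) =
    1 / 2 * s1 y fun a ν => s1 ν fun b ν' =>
      if a = 0 ∧ b = 0 then if ν' = 0 then 1 else 0 else 0 := by
  split_ifs with h
  · subst h
    simp only [Multiset.insert_eq_cons, ← Multiset.cons_zero, s1_cons, s1_zero]
    norm_num
  · rw [s1_eq_zero fun a ν e => s1_eq_zero fun b ν' e' => ?_, mul_zero]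
    split_ifs with h1 h2
    · obtain ⟨rfl, rfl⟩ := h1
      subst h2 e' e
      exact absurd rfl h
    · rfl
    · rfl

end ConP

open ConP

theorem GG_prod {g gc : Multiset Sy → ℂ⟦X⟧}
    (hp : ∀ s z, g (s ::ₘ z) = cv (fun y => gc (s ::ₘ y)) g z) (k : ℕ) (μ : Multiset ℕ) :
    GG g (k ::ₘ μ) 0 = cv (fun y => gc ((k ::ₘ y).map .inr) + HU 0 (k ::ₘ y) • X ^ Multiset.card y)
      (fun ν => GG g ν 0) μ := by
  have e := congrArg (Pi.evalAddMonoidHom _ 0) (GG_der hp (.inr k) μ)
  rw [map_add, map_s2, map_s1] at e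
  simp only [Pi.evalAddMonoidHom_apply, cv_zero, zero_add, Pi.smul_apply, smul_eq_mul, ph] at e
  rw [GG_cons, al, e, s1_zero, mul_zero, add_zero, cv_add]
  simp only [cv, HU_cons, s2_add, Multiset.map_cons]
  rw [s2_left' μ fun y => c1 k • GG g y 0, s2_one]
  simp only [Multiset.sum_singleton]
  abel

theorem ccj_of_dcj {E H : Multiset ℕ → ℂ⟦X⟧} (h0 : H 0 = 0) (hE : E 0 ≠ 0)
    (hp : ∀ k μ, E (k ::ₘ μ) = cv (fun y => H (k ::ₘ y)) E μ) (h : DCJ E) : CCJ H := by
  have h1 : th (E 0) = 0 := by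
    have := h 0 (Multiset.notMem_zero 0)
    simp only [cutF, joinF, s1_zero, smul_zero, mul_zero, Multiset.sum_zero,
      Multiset.card_zero, sub_self, zero_smul, zero_add, two_mul, ← two_smul ℂ] at this
    exact (smul_eq_zero.1 this).resolve_left two_ne_zero
  have h2 : ∀ x, th (E x) = cv (fun x => th (H x)) E x :=
    der hp ⟨⟨th, by simp [th]⟩, fun u v => by simp [th, mul_add]⟩ th_mul h0 h1
  intro μ hμ
  refine sub_eq_zero.1 (cv_cancel (f := fun x => (((x.sum : ℕ) : ℚ) - Multiset.card x) • H x +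
    2 * th (H x) - (cutF H x + quadF H x + X * joinF H x)) hE μ fun x hx => ?_)
  have e1 : cv (fun x => (((x.sum : ℕ) : ℚ) - Multiset.card x) • H x) E x =
      (((x.sum : ℕ) : ℚ) - Multiset.card x) • E x := by
    simp only [s1_deg, cv_s1, cv_smul, hp]
  have e2 : cv (fun x => cutF H x + quadF H x) E x = cutF E x := by
    simp only [cutF, quadF, ← smul_add, ← s1_add, ← sum_add_distrib, cv_smul, cv_s1, cv_sum,
      two hp]
  have e3 : cv (joinF H) E x = joinF E x := by
    unfold joinF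
    simp only [cv_smul, cv_s1, hp]
  have e4 := h x fun h0 => hμ (Multiset.mem_of_le hx h0)
  simp only [sub_eq_add_neg _ (_ + X * _), ← neg_one_mul (_ + X * _)]
  rw [cv_add, cv_mul, cv_add, cv_add, cv_mul, cv_mul, e1, e2, e3, ← h2, e4]
  ring

theorem ddv_of_cdv {t z : Multiset ℕ → ℂ}
    (hp : ∀ k x, z (k ::ₘ x) = cv (fun y => t (k ::ₘ y)) z x) (h : CDV t) : DDV z := by
  intro k x
  rw [hp, ← cv_smul, funext (h k), cv_add, cv_add]
  congr 1
  · congr 1
    · simp only [dvL, add_assoc, ← smul_add, ← sum_add_distrib]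
      simp only [two hp]
      rw [cv_add]
      simp only [cv_smul, cv_s1, cv_sum, cv_ite, cv_nil, hp]
    · simp only [ite_and, cv_ite, cv_nil, cv_one]
  · simp only [ite_and (k = 0), two_zero, cv_ite, cv_nil, cv_mul, cv_s1, cv_one, one_mul]

end Vale.Agent.P269.WK
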