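import Vale.Agent.P269.WK.Def
import Mathlib.Algebra.MvPolynomial.Derivation

/-! The classical limit: the filtration generated by negative power sums. -/

namespace Vale.Agent.P269.WK

open Finset

namespace ClP

open PowerSeries

/-- The span of the monomials with a property. -/
noncomputable def Sp (p : Multiset ℕ → Prop) : Submodule ℚ SS :=
  Submodule.span ℚ (mon '' {x | p x})

section span

variable {p q r : Multiset ℕ → Prop} {P Q : SS}

lemma mon_mem {x : Multiset ℕ} (h : p x) : mon x ∈ Sp p := Submodule.subset_span ⟨x, h, rfl⟩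

lemma Sp_mono (h : ∀ x, p x → q x) (hP : P ∈ Sp p) : P ∈ Sp q :=
  Submodule.span_mono (Set.image_mono h) hP

lemma Sp_mul (h : ∀ x y, p x → q y → r (x + y)) (hP : P ∈ Sp p) (hQ : Q ∈ Sp q) :
    P * Q ∈ Sp r := by
  have e := Submodule.mul_mem_mul hP hQ
  rw [Sp, Sp, Submodule.span_mul_span] at e
  refine Submodule.span_mono ?_ e
  rintro _ ⟨_, ⟨x, hx, rfl⟩, _, ⟨y, hy, rfl⟩, rfl⟩
  exact ⟨x + y, h x y hx hy, mon_add x y⟩

lemma Sp_ext {φ ψ : SS →ₗ[ℚ] ℂ} (h : ∀ x, p x → φ (mon x) = ψ (mon x)) (hP : P ∈ Sp p) :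
    φ P = ψ P :=
  LinearMap.eqOn_span (by rintro _ ⟨x, hx, rfl⟩; exact h x hx) hP

lemma Wc_zero {f : Multiset ℕ → ℂ} (h : ∀ x, p x → f x = 0) (hP : P ∈ Sp p) : Wc f P = 0 :=
  Sp_ext (ψ := 0) (fun x hx => by rw [Wc_mon, h x hx]; rfl) hP

lemma mon_one (k : ℕ) : mon {k} = MvPolynomial.X k := by simp [mon]

end span

/-- Series whose coefficients lie in such spans. -/
noncomputable def Se (p : ℕ → Multiset ℕ → Prop) : Submodule ℚ SS⟦X⟧ where
  carrier := {B | ∀ k, coeff k B ∈ Sp (p k)}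
  add_mem' ha hb k := by rw [map_add]; exact add_mem (ha k) (hb k)
  zero_mem' k := by rw [map_zero]; exact zero_mem _
  smul_mem' c _ h k := Submodule.smul_mem _ c (h k)

lemma Se_mul {p q r : ℕ → Multiset ℕ → Prop} {A B : SS⟦X⟧}
    (h : ∀ a b x y, p a x → q b y → r (a + b) (x + y)) (hA : A ∈ Se p) (hB : B ∈ Se q) :
    A * B ∈ Se r := fun k => by
  rw [coeff_mul]
  exact sum_mem fun a ha => Sp_mul (mem_antidiagonal.1 ha ▸ h a.1 a.2) (hA _) (hB _)

/-- The series `∑ k u_k y^k`. -/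
noncomputable def φ : SS⟦X⟧ := mk fun k => (k : ℚ) • MvPolynomial.X k

/-- The Euler operator. -/
noncomputable def θ (B : SS⟦X⟧) : SS⟦X⟧ := mk fun k => (k : ℚ) • coeff k B

/-- Its inverse. -/
noncomputable def ti (B : SS⟦X⟧) : SS⟦X⟧ := mk fun k => (k : ℚ)⁻¹ • coeff k B

lemma θ_mul (A B : SS⟦X⟧) : θ (A * B) = θ A * B + A * θ B := by
  ext1 k
  simp only [θ, coeff_mk, coeff_mul, map_add, smul_sum, ← sum_add_distrib]
  refine sum_congr rfl fun p hp => ?_
  rw [← mem_antidiagonal.1 hp, smul_mul_assoc, mul_smul_comm, Nat.cast_add, add_smul]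

lemma θ_one : θ 1 = 0 := by
  ext1 k
  rcases k with _ | k <;> simp [θ, coeff_one]

lemma θ_ti {B : SS⟦X⟧} (h : coeff 0 B = 0) : θ (ti B) = B := by
  ext1 k
  rcases eq_or_ne k 0 with rfl | hk
  · simp only [θ, coeff_mk, h, Nat.cast_zero, zero_smul]
  · simp only [θ, ti, coeff_mk, smul_smul, mul_inv_cancel₀ (Nat.cast_ne_zero.2 hk : (k : ℚ) ≠ 0),
      one_smul]

/-- The derivation with prescribed values on the variables. -/
noncomputable def dl (B : SS⟦X⟧) : Derivation ℚ SS SS :=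
  MvPolynomial.mkDerivation ℚ fun k => coeff k B

lemma dl_X (B : SS⟦X⟧) (k : ℕ) : dl B (MvPolynomial.X k) = coeff k B :=
  MvPolynomial.mkDerivation_X _ _ _

lemma dl_mul (B : SS⟦X⟧) (P Q : SS) : dl B (P * Q) = dl B P * Q + P * dl B Q := by
  rw [Derivation.leibniz, smul_eq_mul, smul_eq_mul]; ring

lemma dl_mon (B : SS⟦X⟧) (ν : Multiset ℕ) :
    dl B (mon ν) = s1 ν fun k ν' => coeff k B * mon ν' := by
  induction ν using Multiset.induction_on with
  | empty => rw [mon_zero, s1_zero, Derivation.map_one_eq_zero]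
  | cons a ν ih =>
    rw [mon_cons, dl_mul, dl_X, s1_cons, ih, mul_s1]
    exact congrArg _ (s1_congr fun k ν' _ => by rw [mon_cons]; ring)

/-- The derivation acting on the coefficients. -/
noncomputable def dc (B A : SS⟦X⟧) : SS⟦X⟧ := mk fun k => dl B (coeff k A)

lemma dc_mul (B A A' : SS⟦X⟧) : dc B (A * A') = dc B A * A' + A * dc B A' := by
  ext1 k
  simp only [dc, coeff_mk, coeff_mul, map_add, map_sum, ← sum_add_distrib, dl_mul]

lemma dc_one (B : SS⟦X⟧) : dc B 1 = 0 := by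
  ext1 k
  rcases k with _ | k <;> simp [dc, coeff_one]

lemma dc_φ (B : SS⟦X⟧) : dc B φ = θ B := by
  ext1 k
  simp only [dc, φ, θ, coeff_mk, Derivation.map_smul, dl_X]

lemma leib_pow {δ : SS⟦X⟧ → SS⟦X⟧} (h : ∀ f g, δ (f * g) = δ f * g + f * δ g) (n : ℕ) :
    δ (φ ^ (n + 1)) = ((n : ℚ) + 1) • (δ φ * φ ^ n) := by
  induction n with
  | zero => simp
  | succ n ih =>
    rw [pow_succ, h, ih, smul_mul_assoc, Nat.cast_succ, add_smul ((n : ℚ) + 1), one_smul,
      mul_assoc, ← pow_succ, mul_comm (φ ^ (n + 1))]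

lemma coeff_high (f : SS⟦X⟧) {k n : ℕ} (h : k < n) : coeff k (f * φ ^ n) = 0 :=
  X_pow_dvd_iff.1 (dvd_mul_of_dvd_right (pow_dvd_pow_of_dvd (X_dvd_iff.2 (by
    rw [← coeff_zero_eq_constantCoeff_apply, φ, coeff_mk, Nat.cast_zero, zero_smul])) n) f) k h

/-- The coefficient of `y ^ k` in `f * exp (k φ)`. -/
noncomputable def Λ (k : ℕ) (f : SS⟦X⟧) : SS :=
  ∑ n ∈ range (k + 3), ((k : ℚ) ^ n / n.factorial) • coeff k (f * φ ^ n)

lemma Λ_shift {δ : SS⟦X⟧ → SS⟦X⟧} (h : ∀ f g, δ (f * g) = δ f * g + f * δ g) (h1 : δ 1 = 0)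
    (k : ℕ) (f : SS⟦X⟧) :
    ∑ n ∈ range (k + 3), ((k : ℚ) ^ n / n.factorial) • coeff k (f * δ (φ ^ n)) =
      (k : ℚ) • Λ k (f * δ φ) := by
  rw [sum_range_succ', pow_zero φ, h1, mul_zero, map_zero, smul_zero, add_zero, Λ,
    sum_range_succ _ (k + 2), coeff_high _ (by omega), smul_zero, add_zero, smul_sum]
  refine sum_congr rfl fun n _ => ?_
  rw [leib_pow h, mul_smul_comm, coeff_smul, smul_smul, smul_smul, mul_assoc f]
  congr 1
  have : (n.factorial : ℚ) ≠ 0 := by positivity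
  rw [Nat.factorial_succ]
  push_cast
  field_simp
  ring

lemma Λ_θ (k : ℕ) (f : SS⟦X⟧) : Λ k (θ f) = (k : ℚ) • Λ k (f * (1 - θ φ)) := by
  have e1 : Λ k (f * (1 - θ φ)) = Λ k f - Λ k (f * θ φ) := by
    simp only [Λ, mul_sub, sub_mul, mul_one, map_sub, smul_sub, sum_sub_distrib]
  rw [e1, smul_sub, ← Λ_shift θ_mul θ_one, Λ, Λ, smul_sum, ← sum_sub_distrib]
  refine sum_congr rfl fun n _ => ?_
  rw [smul_comm (k : ℚ), ← smul_sub, eq_sub_iff_add_eq.2 (θ_mul f (φ ^ n)).symm, map_sub, θ,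
    coeff_mk]

lemma dl_Λ (B : SS⟦X⟧) (k : ℕ) : dl B (Λ k 1) = (k : ℚ) • Λ k (θ B) := by
  rw [← dc_φ, ← one_mul (dc B φ), ← Λ_shift (dc_mul B) (dc_one B), Λ, map_sum]
  exact sum_congr rfl fun n _ => by rw [Derivation.map_smul, one_mul, one_mul, dc, coeff_mk]

/-- The series which give the negative power sums. -/
noncomputable def F : ℕ → SS⟦X⟧
  | 0 => φ
  | j + 1 => ti (F j * (1 - θ φ))

lemma θ_F (j : ℕ) : θ (F (j + 1)) = F j * (1 - θ φ) := by
  refine θ_ti ?_
  have : coeff 0 (F j) = 0 := by cases j <;> simp only [F, φ, ti, coeff_mk, Nat.cast_zero,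
    inv_zero, zero_smul]
  rw [coeff_zero_eq_constantCoeff_apply] at this ⊢
  rw [map_mul, this, zero_mul]

/-- The new variables. -/
noncomputable def U (k : ℕ) : SS := (k : ℚ)⁻¹ ^ 2 • Λ k 1

lemma dl_U (a k : ℕ) : dl (F (a + 1)) (U k) = (k : ℚ)⁻¹ ^ a • U k := by
  rcases eq_or_ne k 0 with rfl | hk
  · simp [U]
  have hk' : (k : ℚ)⁻¹ * k = 1 := inv_mul_cancel₀ (Nat.cast_ne_zero.2 hk)
  have e : ∀ j, (k : ℚ) • Λ k (θ (F (j + 1))) = (k : ℚ)⁻¹ ^ j • Λ k 1 := fun j => by
    induction j with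
    | zero =>
      have e1 := Λ_θ k 1
      have e2 : Λ k (1 * (1 - θ φ)) = Λ k 1 - Λ k (θ φ) := by
        simp only [Λ, sub_mul, one_mul, map_sub, smul_sub, sum_sub_distrib]
      have e3 : Λ k 0 = 0 := by simp [Λ]
      rw [θ_one, e3, e2] at e1
      have e4 := congrArg ((k : ℚ)⁻¹ • ·) e1
      simp only [smul_smul, hk', one_smul, smul_zero] at e4
      rw [θ_F, F, ← Λ_θ, pow_zero, one_smul, sub_eq_zero.1 e4.symm]
    | succ j ih =>
      rw [θ_F, ← Λ_θ, pow_succ', mul_smul, ← ih, smul_smul, hk', one_smul]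
  rw [U, Derivation.map_smul, dl_Λ, e, smul_comm]

/-- The new monomials. -/
noncomputable def UU (ν : Multiset ℕ) : SS := (ν.map U).prod

lemma UU_cons (k : ℕ) (ν : Multiset ℕ) : UU (k ::ₘ ν) = U k * UU ν := by simp [UU]

lemma dl_UU (a : ℕ) (ν : Multiset ℕ) :
    dl (F (a + 1)) (UU ν) = (ν.map fun k : ℕ => (k : ℚ)⁻¹ ^ a).sum • UU ν := by
  induction ν using Multiset.induction_on with
  | empty => simp [UU]
  | cons k ν ih =>
    rw [UU_cons, dl_mul, dl_U, ih, Multiset.map_cons, Multiset.sum_cons, add_smul, smul_mul_assoc,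
      mul_smul_comm]

lemma pt_add {a b : ℕ} {x y : Multiset ℕ} (hx : x ∈ Pt a) (hy : y ∈ Pt b) : x + y ∈ Pt (a + b) := by
  simp only [mem_Pt, Multiset.sum_add, Multiset.mem_add, not_or] at hx hy ⊢
  exact ⟨by omega, hx.2, hy.2⟩

lemma pow_mem (n : ℕ) : φ ^ n ∈ Se fun k x => x ∈ Pt k ∧ Multiset.card x = n := by
  induction n with
  | zero =>
    intro k
    rw [pow_zero, coeff_one]
    split_ifs with h
    · rw [← mon_zero, h]
      exact mon_mem ⟨by simp [mem_Pt], rfl⟩
    · exact zero_mem _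
  | succ n ih =>
    rw [pow_succ]
    refine Se_mul (q := fun k x => x ∈ Pt k ∧ Multiset.card x = 1)
      (fun a b x y hx hy => ⟨pt_add hx.1 hy.1, by rw [Multiset.card_add, hx.2, hy.2]⟩) ih fun k => ?_
    rw [φ, coeff_mk]
    rcases eq_or_ne k 0 with rfl | hk
    · rw [Nat.cast_zero, zero_smul]
      exact zero_mem _
    · rw [← mon_one]
      exact Submodule.smul_mem _ _ (mon_mem ⟨by simp [mem_Pt, hk.symm], rfl⟩)

lemma UU_mem {ν : Multiset ℕ} : UU ν ∈ Sp (· ∈ Pt ν.sum) := by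
  induction ν using Multiset.induction_on with
  | empty =>
    rw [show UU 0 = mon 0 by simp [UU, mon]]
    exact mon_mem (by simp [mem_Pt])
  | cons k ν ih =>
    rw [UU_cons, Multiset.sum_cons]
    refine Sp_mul (fun x y => pt_add) (Submodule.smul_mem _ _ (sum_mem fun n _ =>
      Submodule.smul_mem _ _ ?_)) ih
    rw [one_mul]
    exact Sp_mono (fun x hx => hx.1) (pow_mem n k)

/-- Long monomials. -/
noncomputable abbrev Hi (n : ℕ) : Submodule ℚ SS := Sp fun x => n ≤ Multiset.card x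

lemma Hi_mul {a b c : ℕ} {P Q : SS} (hP : P ∈ Hi a) (hQ : Q ∈ Hi b) (h : c ≤ a + b) :
    P * Q ∈ Hi c :=
  Sp_mul (fun x y hx hy => by rw [Multiset.card_add]; omega) hP hQ

/-- The cut operator. -/
noncomputable def K : Derivation ℚ SS SS := dl ((1 / 2 : ℚ) • φ ^ 2)

lemma K_X (k : ℕ) : K (MvPolynomial.X k) ∈ Hi 2 := by
  rw [K, dl_X, coeff_smul]
  exact Submodule.smul_mem _ _ (Sp_mono (fun x hx => hx.2.ge) (pow_mem 2 k))

lemma U_mem {k : ℕ} (hk : k ≠ 0) : U k - MvPolynomial.X k - K (MvPolynomial.X k) ∈ Hi 3 := by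
  have hk' : (k : ℚ) ≠ 0 := Nat.cast_ne_zero.2 hk
  have e1 : (k : ℚ)⁻¹ ^ 2 * (k ^ 2 / (2 : ℕ).factorial) = 1 / 2 := by
    rw [Nat.factorial_two]
    field_simp
    norm_num
  have e2 : (k : ℚ)⁻¹ ^ 2 * (k / (1 : ℕ).factorial * k) = 1 := by
    rw [Nat.factorial_one]
    field_simp
    norm_num
  have e3 : coeff k φ = (k : ℚ) • MvPolynomial.X k := coeff_mk _ _
  have e : U k - MvPolynomial.X k - K (MvPolynomial.X k) = (k : ℚ)⁻¹ ^ 2 • ∑ n ∈ range k,
      ((k : ℚ) ^ (n + 3) / (n + 3).factorial) • coeff k (φ ^ (n + 3)) := by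
    rw [U, Λ, sum_range_succ', sum_range_succ', sum_range_succ', K, dl_X, coeff_smul]
    simp only [one_mul, zero_add, pow_zero, pow_one, coeff_one, if_neg hk, smul_zero, add_zero,
      smul_add, smul_smul, e3, one_add_one_eq_two, e1, e2, one_smul]
    abel
  rw [e]
  exact Submodule.smul_mem _ _ (sum_mem fun n _ => Submodule.smul_mem _ _
    (Sp_mono (fun x hx => by have := hx.2; omega) (pow_mem (n + 3) k)))

lemma UU_exp {ν : Multiset ℕ} (h : 0 ∉ ν) : K (mon ν) ∈ Hi (Multiset.card ν + 1) ∧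
    UU ν - mon ν - K (mon ν) ∈ Hi (Multiset.card ν + 2) := by
  induction ν using Multiset.induction_on with
  | empty => simp [UU, mon_zero]
  | cons k ν ih =>
    rw [Multiset.mem_cons, not_or] at h
    obtain ⟨h1, h2⟩ := ih h.2
    have h3 := U_mem (Ne.symm h.1)
    have h4 := K_X k
    have h5 : MvPolynomial.X k ∈ Hi 1 := mon_one k ▸ mon_mem (by simp)
    have h6 : mon ν ∈ Hi (Multiset.card ν) := mon_mem le_rfl
    rw [UU_cons, mon_cons, K, dl_mul, ← K, Multiset.card_cons]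
    refine ⟨add_mem (Hi_mul h4 h6 (by omega)) (Hi_mul h5 h1 (by omega)), ?_⟩
    have e := add_mem (add_mem (add_mem (Hi_mul (c := Multiset.card ν + 1 + 2) h5 h2 (by omega))
      (Hi_mul h4 h1 (by omega))) (add_mem (Hi_mul h4 h2 (by omega)) (Hi_mul h3 h6 (by omega))))
      (add_mem (Hi_mul h3 h1 (by omega)) (Hi_mul h3 h2 (by omega)))
    refine Eq.mp (congrArg (· ∈ Hi _) ?_) e
    ring

lemma Wc_K (f : Multiset ℕ → ℂ) (ν : Multiset ℕ) : Wc f (K (mon ν)) = cutF f ν := by
  rw [K, dl_mon, map_s1, cutF, smul_s1]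
  refine s1_congr fun k ν' _ => ?_
  rw [coeff_smul, smul_mul_assoc, map_smul, pow_two, coeff_mul, sum_mul, map_sum]
  refine congrArg _ (sum_congr rfl fun p _ => ?_)
  rw [φ, coeff_mk, coeff_mk, smul_mul_smul_comm, smul_mul_assoc, map_smul, mul_assoc, ← mon_cons,
    ← mon_cons, Wc_mon]

/-- The powers of `u_1 y`. -/
noncomputable def w (n : ℕ) : SS⟦X⟧ := monomial n (mon (Multiset.replicate n 1))

lemma w_mem (n : ℕ) : w n ∈ Se fun _ x => Multiset.card x ≤ n := fun k => by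
  rw [w, coeff_monomial]
  split_ifs
  · exact mon_mem (by simp)
  · exact zero_mem _

lemma F_top (j : ℕ) : ∃ c : ℚ, c ≠ 0 ∧
    F j - c • w (j + 1) ∈ Se fun _ x => Multiset.card x ≤ j + 1 ∧ x.count 1 < j + 1 := by
  have h0 : ∀ g : ℕ → ℚ, g 1 = 1 → mk (fun k => g k • MvPolynomial.X k) - w 1 ∈
      Se fun _ x => Multiset.card x ≤ 1 ∧ x.count 1 < 1 := fun g hg k => by
    rw [map_sub, w, coeff_monomial, coeff_mk]
    split_ifs with h
    · rw [h, hg, one_smul, Multiset.replicate_one, mon_one, sub_self]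
      exact zero_mem _
    · rw [sub_zero, ← mon_one]
      exact Submodule.smul_mem _ _ (mon_mem ⟨by simp, by simp [Ne.symm h]⟩)
  induction j with
  | zero => exact ⟨1, one_ne_zero, by rw [one_smul]; exact h0 _ Nat.cast_one⟩
  | succ j ih =>
    obtain ⟨c, hc, h⟩ := ih
    have h1 : θ φ - w 1 ∈ Se fun _ x => Multiset.card x ≤ 1 ∧ x.count 1 < 1 := by
      have := h0 (fun k => k * k) (by simp)
      simpa only [θ, φ, coeff_mk, smul_smul] using this
    have h2 : θ φ ∈ Se fun _ x => Multiset.card x ≤ 1 := by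
      rw [← sub_add_cancel (θ φ) (w 1)]
      exact add_mem (fun k => Sp_mono (fun x hx => hx.1) (h1 k)) (w_mem 1)
    have h3 : F j * (1 - θ φ) + c • w (j + 2) ∈
        Se fun _ x => Multiset.card x ≤ j + 2 ∧ x.count 1 < j + 2 := by
      have e : w (j + 2) = w (j + 1) * w 1 := by
        rw [w, w, w, monomial_mul_monomial, ← mon_add, ← Multiset.replicate_add]
      have e2 : F j * (1 - θ φ) + c • w (j + 2) = (F j - c • w (j + 1)) + c • w (j + 1) -
          (F j - c • w (j + 1)) * θ φ - c • (w (j + 1) * (θ φ - w 1)) := by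
        rw [e, ← smul_mul_assoc, ← smul_mul_assoc]
        ring
      rw [e2]
      refine sub_mem (sub_mem (add_mem (fun k => Sp_mono (fun x hx => by omega) (h k))
        (Submodule.smul_mem _ _ fun k => Sp_mono (fun x hx => ?_) (w_mem _ k)))
        (Se_mul (fun _ _ x y hx hy => ?_) h h2))
        (Submodule.smul_mem _ _ (Se_mul (fun _ _ x y hx hy => ?_) (w_mem _) h1))
      · have := Multiset.count_le_card 1 x
        omega
      · have := Multiset.count_le_card 1 y
        rw [Multiset.card_add, Multiset.count_add]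
        omega
      · have := Multiset.count_le_card 1 x
        rw [Multiset.card_add, Multiset.count_add]
        omega
    refine ⟨-(((j + 2 : ℕ) : ℚ)⁻¹ * c), neg_ne_zero.2 (mul_ne_zero (by positivity) hc), fun k => ?_⟩
    have e : coeff k (F (j + 1) - -(((j + 2 : ℕ) : ℚ)⁻¹ * c) • w (j + 1 + 1)) =
        (k : ℚ)⁻¹ • coeff k (F j * (1 - θ φ) + c • w (j + 2)) := by
      rw [neg_smul, sub_neg_eq_add, map_add, map_add, F, ti, coeff_mk, smul_add, coeff_smul,
        coeff_smul, w, coeff_monomial, smul_smul]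
      split_ifs with hk
      · rw [hk]
      · rw [smul_zero, smul_zero]
    rw [e]
    exact Submodule.smul_mem _ _ (h3 k)

/-- The change of variables on functions. -/
noncomputable def En : (Multiset ℕ → ℂ) →ₗ[ℂ] Multiset ℕ → ℂ where
  toFun f ν := Wc f (UU ν)
  map_add' f g := funext fun ν => LinearMap.congr_fun
    (SS_ext (φ := Wc (f + g)) (ψ := Wc f + Wc g) fun x => by simp [Wc_mon]) _
  map_smul' c f := funext fun ν => LinearMap.congr_fun
    (SS_ext (φ := Wc (c • f)) (ψ := c • Wc f) fun x => by simp [Wc_mon]) _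

lemma En_apply (f : Multiset ℕ → ℂ) (ν : Multiset ℕ) : En f ν = Wc f (UU ν) := rfl

lemma En_congr {d : ℕ} {f g : Multiset ℕ → ℂ} (h : ∀ x ∈ Pt d, f x = g x) {ν : Multiset ℕ}
    (hν : ν ∈ Pt d) : En f ν = En g ν := by
  rw [En_apply, En_apply]
  exact Sp_ext (fun x hx => by rw [Wc_mon, Wc_mon, h x ((mem_Pt.1 hν).1 ▸ hx)]) UU_mem

lemma En_op (a : ℕ) (g : Multiset ℕ → ℂ) (ν : Multiset ℕ) :
    (((ν.map fun k : ℕ => (k : ℚ)⁻¹ ^ a).sum : ℚ) : ℂ) * En g ν =
      En (fun x => Wc g (dl (F (a + 1)) (mon x))) ν := by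
  have e := LinearMap.congr_fun (SS_ext (φ := Wc fun x => Wc g (dl (F (a + 1)) (mon x)))
    (ψ := Wc g ∘ₗ (dl (F (a + 1))).toLinearMap)
    fun x => by rw [Wc_mon, LinearMap.comp_apply, Derivation.coeFn_coe]) (UU ν)
  rw [En_apply, En_apply, e, LinearMap.comp_apply, Derivation.coeFn_coe, dl_UU, map_smul,
    Rat.smul_def]

/-- The evaluation at `u_1 = 1`, `u_k = 0` otherwise. -/
noncomputable def ε : SS →ₐ[ℚ] ℚ := MvPolynomial.aeval fun k => if k = 1 then 1 else 0

lemma ε_U (k : ℕ) : ε (U k) = c1 k := by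
  have e : map (ε : SS →+* ℚ) φ = X := by
    ext n
    rw [coeff_map, φ, coeff_mk, coeff_X]
    rcases eq_or_ne n 1 with rfl | h
    · simp [ε]
    · simp [ε, h]
  have e2 : ∀ n, ε (coeff k (1 * φ ^ n)) = if k = n then 1 else 0 := fun n => by
    rw [one_mul, ← coeff_X_pow, ← e, ← map_pow, coeff_map]
    rfl
  simp only [U, Λ, map_smul, map_sum, e2, smul_eq_mul, mul_ite, mul_one, mul_zero, sum_ite_eq,
    mem_range, if_pos (show k < k + 3 by omega), c1, uu, add_zero]
  split_ifs with h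
  · simp [h]
  · rw [inv_pow, inv_mul_eq_div]

lemma En_base {d : ℕ} {μ ν : Multiset ℕ} (hμ : μ ∈ Pt d) (h1 : ∀ k ∈ μ, k = 1) (hν : ν ∈ Pt d) :
    (((ν.map c1).prod : ℚ) : ℂ) = En (Pi.single μ 1) ν := by
  have e : (ν.map c1).prod = ε (UU ν) := by
    rw [UU, map_multiset_prod, Multiset.map_map]
    exact congrArg _ (Multiset.map_congr rfl fun k _ => (ε_U k).symm)
  have one : ∀ {x : Multiset ℕ}, x ∈ Pt d → (∀ k ∈ x, k = 1) → x = Multiset.replicate d 1 :=
    fun {x} hx h => by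
      have e1 := Multiset.eq_replicate_card.2 h
      have e2 := (mem_Pt.1 hx).1
      rw [e1, Multiset.sum_replicate, smul_eq_mul, mul_one] at e2
      rwa [e2] at e1
  rw [e, En_apply]
  refine Eq.trans rfl
    (Sp_ext (φ := Algebra.linearMap ℚ ℂ ∘ₗ ε.toLinearMap) (fun x hx => ?_) (UU_mem (ν := ν)))
  rw [(mem_Pt.1 hν).1] at hx
  have e3 : ε (mon x) = (x.map fun k => if k = 1 then (1 : ℚ) else 0).prod := by
    rw [mon, map_multiset_prod, Multiset.map_map]
    exact congrArg _ (Multiset.map_congr rfl fun k _ => by simp [ε])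
  rw [Wc_mon, LinearMap.comp_apply, AlgHom.toLinearMap_apply, e3, Pi.single_apply]
  split_ifs with h
  · rw [Multiset.prod_eq_one (by
      simp only [Multiset.mem_map]
      rintro _ ⟨k, hk, rfl⟩
      exact if_pos (h1 k (h ▸ hk))), Algebra.linearMap_apply, map_one]
  · rw [Multiset.prod_eq_zero, map_zero]
    by_contra h0
    refine h ((one hx fun k hk => ?_).trans (one hμ h1).symm)
    by_contra h2
    exact h0 (Multiset.mem_map.2 ⟨k, hk, if_neg h2⟩)

lemma top_val {a : ℕ} {c : ℚ} (h : F (a + 1) - c • w (a + 2) ∈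
      Se fun _ x => Multiset.card x ≤ a + 2 ∧ x.count 1 < a + 2) {μ ν : Multiset ℕ}
    (hν : Multiset.card ν < Multiset.card μ + 1 ∨ ν.count 1 ≤ μ.count 1) :
    Wc (Pi.single (Multiset.replicate (a + 2) 1 + μ) (1 : ℂ) : Multiset ℕ → ℂ)
      (dl (F (a + 1)) (mon ν)) = s1 ν fun k ν' => if k = a + 2 ∧ ν' = μ then (c : ℂ) else 0 := by
  rw [dl_mon, map_s1]
  refine s1_congr fun k ν' e => ?_
  rw [← sub_add_cancel (F (a + 1)) (c • w (a + 2)), map_add, add_mul, map_add,
    Wc_zero (p := fun x => x ≠ Multiset.replicate (a + 2) 1 + μ)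
      (fun x hx => Pi.single_eq_of_ne hx _)
      (Sp_mul (q := (· = ν')) (fun x y hx hy e' => ?_) (h k) (mon_mem rfl)),
    zero_add, coeff_smul, smul_mul_assoc, map_smul, w, coeff_monomial]
  · by_cases hk : k = a + 2
    · rw [if_pos hk, ← mon_add, Wc_mon, Pi.single_apply]
      simp [hk]
    · simp [hk]
  · subst hy e
    have e1 := congrArg Multiset.card e'
    have e2 := congrArg (Multiset.count 1) e'
    have e3 := Multiset.count_le_count_cons 1 k y
    simp only [Multiset.card_add, Multiset.count_add, Multiset.card_replicate,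
      Multiset.count_replicate_self, Multiset.card_cons] at e1 e2 hν
    omega

end ClP

open ClP in
theorem classical (d : ℕ) (G : ℕ → Submodule ℂ (Multiset ℕ → ℂ)) (mono : Monotone G)
    (ext : ∀ r f g, f ∈ G r → (∀ μ ∈ Pt d, f μ = g μ) → g ∈ G r)
    (base : (fun μ : Multiset ℕ => (((μ.map c1).prod : ℚ) : ℂ)) ∈ G 0)
    (op : ∀ r a f, f ∈ G r → (fun μ : Multiset ℕ =>
      (((μ.map fun k : ℕ => (k : ℚ)⁻¹ ^ a).sum : ℚ) : ℂ) * f μ) ∈ G (r + a + 1))
    {μ : Multiset ℕ} (hμ : μ ∈ Pt d) : ∃ v ∈ G (d - Multiset.card μ),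
      (∀ ν ∈ Pt d, Multiset.card μ ≤ Multiset.card ν → v ν = if ν = μ then 1 else 0) ∧
      ∀ ν ∈ Pt d, Multiset.card ν + 1 = Multiset.card μ →
        v ν = cutF (Pi.single μ (1 : ℂ) : Multiset ℕ → ℂ) ν := by
  have le : ∀ {x}, x ∈ Pt d → Multiset.card x ≤ d := fun hx =>
    (mem_Pt.1 hx).1 ▸ card_le_sum (mem_Pt.1 hx).2
  have key : ∀ n, ∀ μ ∈ Pt d, d - μ.count 1 = n →
      En (Pi.single μ 1) ∈ G (d - Multiset.card μ) := fun n => by
    induction n using Nat.strong_induction_on with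
    | _ n ih =>
      intro μ hμ hn
      by_cases h1 : ∀ k ∈ μ, k = 1
      · exact mono (Nat.zero_le _) (ext _ _ _ base fun ν hν => En_base hμ h1 hν)
      obtain ⟨k, hk, h2⟩ : ∃ k ∈ μ, k ≠ 1 := by simpa using h1
      have h0 : k ≠ 0 := fun e => (mem_Pt.1 hμ).2 (e ▸ hk)
      obtain ⟨a, rfl⟩ : ∃ a, k = a + 2 := ⟨k - 2, by omega⟩
      obtain ⟨μ', rfl⟩ := Multiset.exists_cons_of_mem hk
      obtain ⟨c, hc, hF⟩ := F_top (a + 1)
      have hc1 : ((a + 2) ::ₘ μ').count 1 = μ'.count 1 := Multiset.count_cons_of_ne h2.symm _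
      have hg : Multiset.replicate (a + 2) 1 + μ' ∈ Pt d := by
        simp only [mem_Pt, Multiset.sum_cons, Multiset.mem_cons, Multiset.sum_add,
          Multiset.sum_replicate, Multiset.mem_add, Multiset.mem_replicate] at hμ ⊢
        simp only [not_or] at hμ ⊢
        exact ⟨by simpa using hμ.1, by simp, hμ.2.2⟩
      have l1 := le hg
      have l2 := Multiset.count_le_card 1 μ'
      rw [Multiset.card_add, Multiset.card_replicate] at l1
      have g1 := op _ a _ (ih _ (by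
        rw [Multiset.count_add, Multiset.count_replicate_self]
        omega) _ hg rfl)
      rw [show d - Multiset.card (Multiset.replicate (a + 2) 1 + μ') + a + 1 =
        d - Multiset.card ((a + 2) ::ₘ μ') by
          rw [Multiset.card_add, Multiset.card_replicate, Multiset.card_cons]
          omega] at g1
      obtain ⟨h, hh⟩ : ∃ h : Multiset ℕ → ℂ, h = fun ν =>
        Wc (Pi.single (Multiset.replicate (a + 2) 1 + μ') (1 : ℂ) : Multiset ℕ → ℂ)
          (dl (F (a + 1)) (mon ν)) := ⟨_, rfl⟩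
      have g2 : En (∑ ν ∈ Pt d, h ν • (Pi.single ν 1 : Multiset ℕ → ℂ)) ∈
          G (d - Multiset.card ((a + 2) ::ₘ μ')) := by
        refine ext _ _ _ g1 fun ν hν => ?_
        rw [En_op, ← hh]
        exact En_congr (fun x hx => by simp [Finset.sum_apply, Pi.single_apply, hx]) hν
      rw [map_sum, ← add_sum_erase _ _ hμ] at g2
      have g3 := (Submodule.add_mem_iff_left _ (sum_mem fun ν hν => ?_)).1 g2
      · rw [map_smul] at g3
        refine (Submodule.smul_mem_iff _ ?_).1 g3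
        rw [hh]
        simp only
        rw [top_val hF (Or.inr hc1.le), s1_congr (G := fun k _ => if k = a + 2 then (c : ℂ) else 0),
          s1_fst]
        · rw [Finset.sum_multiset_map_count, sum_eq_single (a + 2) (fun b _ hb => by simp [hb])
            fun e => absurd (Multiset.mem_toFinset.2 hk) e, if_pos rfl, nsmul_eq_mul]
          exact mul_ne_zero (Nat.cast_ne_zero.2 (Multiset.count_ne_zero.2 hk))
            (Rat.cast_ne_zero.2 hc)
        · intro k ν' e
          refine if_congr (and_iff_left_of_imp ?_) rfl rfl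
          rintro rfl
          exact (Multiset.cons_inj_right _).1 e
      · obtain ⟨hne, hν⟩ := mem_erase.1 hν
        rw [map_smul]
        by_cases hb : Multiset.card ν < Multiset.card μ' + 1 ∨ ν.count 1 ≤ μ'.count 1
        · have : h ν = 0 := by
            rw [hh]
            simp only
            rw [top_val hF hb]
            refine s1_eq_zero fun k ν' e => if_neg ?_
            rintro ⟨rfl, rfl⟩
            exact hne e.symm
          rw [this, zero_smul]
          exact zero_mem _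
        · have l3 := le hν
          have l4 := Multiset.count_le_card 1 ν
          refine Submodule.smul_mem _ _ (mono ?_ (ih _ (by omega) ν hν rfl))
          rw [Multiset.card_cons]
          omega
  have val : ∀ ν ∈ Pt d, Multiset.card μ ≤ Multiset.card ν + 1 → En (Pi.single μ 1) ν =
      (Pi.single μ 1 : Multiset ℕ → ℂ) ν + Wc (Pi.single μ 1 : Multiset ℕ → ℂ) (K (mon ν)) :=
    fun ν hν h => by
      have e := Wc_zero (f := (Pi.single μ 1 : Multiset ℕ → ℂ))
        (fun x hx => Pi.single_eq_of_ne (by rintro rfl; omega) _) (UU_exp (mem_Pt.1 hν).2).2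
      rwa [map_sub, map_sub, Wc_mon, sub_sub, sub_eq_zero, ← En_apply] at e
  refine ⟨_, key _ μ hμ rfl, fun ν hν h => ?_, fun ν hν h => ?_⟩
  · rw [val ν hν (by omega), Wc_zero (fun x hx => Pi.single_eq_of_ne (by rintro rfl; omega) _)
      (UU_exp (mem_Pt.1 hν).2).1, add_zero, Pi.single_apply]
  · rw [val ν hν h.ge, Wc_K, Pi.single_eq_of_ne (by rintro rfl; omega), zero_add]

end Vale.Agent.P269.WK
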