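import Mathlib.Algebra.BigOperators.Finprod
import Mathlib.Data.Complex.Basic
import Mathlib.LinearAlgebra.Pi
import Mathlib.Tactic

/-! Isotropic lattices in spaces of Laurent series (Birkhoff factorisation). -/

namespace Vale.Agent.P269.WK

open Finset

variable {I : Type} [Fintype I] [DecidableEq I]

/-- `f : ℤ → I → ℂ` is the series `∑ f a s^a`. -/
structure Lat (ℓ : I → ℕ) (Cut : (I → ℂ) →ₗ[ℂ] I → ℂ) (L : Submodule ℂ (ℤ → I → ℂ)) : Prop where
  bdd : ∀ f ∈ L, ∃ A : ℤ, ∀ a, A < a → f a = 0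
  sh : ∀ f ∈ L, (fun a => f (a - 1)) ∈ L
  der : ∀ f ∈ L, (fun a : ℤ => ((a : ℂ) - 1) • f (a - 1)) ∈ L
  par : ∀ f ∈ L, (fun (a : ℤ) μ => (-1 : ℂ) ^ (a + ℓ μ) * f a μ) ∈ L
  cl : ∀ μ, ∃ f ∈ L, (∀ (a : ℤ) ν, (ℓ ν : ℤ) < a + ℓ μ → f a ν = 0) ∧
    (∀ ν, ℓ μ ≤ ℓ ν → f ((ℓ ν : ℤ) - ℓ μ) ν = if ν = μ then 1 else 0) ∧
    ∀ ν, ℓ ν + 1 = ℓ μ → f (-1) ν = Cut (Pi.single μ 1) ν

namespace LatP

variable {ℓ : I → ℕ} {w : I → ℂ} {Cut Join : (I → ℂ) →ₗ[ℂ] I → ℂ} {L L' : Submodule ℂ (ℤ → I → ℂ)}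

/-- The normalised element with constant term `e_μ`. -/
structure Nm (ℓ : I → ℕ) (Cut : (I → ℂ) →ₗ[ℂ] I → ℂ) (L : Submodule ℂ (ℤ → I → ℂ)) (μ : I)
    (f : ℤ → I → ℂ) : Prop where
  mem : f ∈ L
  pos : ∀ a, 0 < a → f a = 0
  zero : f 0 = Pi.single μ 1
  wt : ∀ (a : ℤ) ν, (ℓ ν : ℤ) < a + ℓ μ → f a ν = 0
  cut : ∀ ν, ℓ ν + 1 = ℓ μ → f (-1) ν = Cut (Pi.single μ 1) ν

omit [Fintype I] in
lemma sh_pow (hL : Lat ℓ Cut L) {f : ℤ → I → ℂ} (hf : f ∈ L) (A : ℕ) :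
    (fun a => f (a - A)) ∈ L := by
  induction A with
  | zero => simpa using hf
  | succ A ih => simpa only [Nat.cast_succ, sub_sub, add_comm] using hL.sh _ ih

lemma exists_nm (hL : Lat ℓ Cut L) (μ : I) : ∃ f, Nm ℓ Cut L μ f := by
  obtain ⟨B, hB⟩ := (Set.finite_range ℓ).bddAbove
  replace hB : ∀ ν, ℓ ν ≤ B := fun ν => hB ⟨ν, rfl⟩
  induction h : B - ℓ μ using Nat.strong_induction_on generalizing μ with | _ n ih => ?_
  have hY : ∀ ν, ∃ f, ℓ μ < ℓ ν → Nm ℓ Cut L ν f := fun ν => by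
    by_cases c : ℓ μ < ℓ ν
    · exact (ih _ (by have := hB ν; omega) ν rfl).imp fun _ a _ => a
    · exact ⟨0, fun a => (c a).elim⟩
  choose Y hY using hY
  obtain ⟨f₀, m₀, w₀, t₀, c₀⟩ := hL.cl μ
  let P : (ℤ → I → ℂ) → Prop := fun f => f ∈ L ∧ ∀ (a : ℤ) ν, (ℓ ν : ℤ) ≤ a + ℓ μ → f a ν = f₀ a ν
  have step : ∀ (A : ℕ) f, P f → (∀ a, (A : ℤ) < a → f a = 0) → ∃ g, P g ∧
      (∀ a, (A : ℤ) < a → g a = 0) ∧ ∀ ν, g A ν = if A = 0 ∧ ν = μ then 1 else 0 := by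
    intro A f hf h0
    have hT : ∀ ν ∈ univ.filter fun ν => A + ℓ μ < ℓ ν, A + ℓ μ < ℓ ν ∧ Nm ℓ Cut L ν (Y ν) :=
      fun ν hν => ⟨(mem_filter.1 hν).2, hY ν (by have := (mem_filter.1 hν).2; omega)⟩
    have k : ∀ (a : ℤ) ν, (ℓ ν : ℤ) ≤ a + ℓ μ →
        ∑ x with A + ℓ μ < ℓ x, f A x * Y x (a - A) ν = 0 := fun a ν c => sum_eq_zero fun x hx => by
      rw [(hT x hx).2.wt _ _ (by have := (hT x hx).1; omega), mul_zero]
    refine ⟨f - ∑ ν with A + ℓ μ < ℓ ν, f A ν • fun a => Y ν (a - A), ⟨sub_mem hf.1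
      (sum_mem fun ν hν => L.smul_mem _ (sh_pow hL (hT ν hν).2.mem A)), fun a ν c => ?_⟩,
      fun a c => ?_, fun ν => ?_⟩
    · simp only [Pi.sub_apply, Finset.sum_apply, Pi.smul_apply, smul_eq_mul, k a ν c, hf.2 a ν c,
        sub_zero]
    · rw [Pi.sub_apply, h0 a c, Finset.sum_apply, sum_eq_zero fun ν hν => by
        rw [Pi.smul_apply, (hT ν hν).2.pos _ (by omega), smul_zero], sub_zero]
    simp only [Pi.sub_apply, Finset.sum_apply, Pi.smul_apply, smul_eq_mul]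
    rcases lt_trichotomy (ℓ ν) (A + ℓ μ) with c | c | c
    · rw [k _ _ (by omega), hf.2 _ _ (by omega), w₀ _ _ (by omega), sub_zero, if_neg]
      rintro ⟨rfl, rfl⟩
      omega
    · rw [k _ _ (by omega), hf.2 _ _ (by omega), sub_zero, show (A : ℤ) = ℓ ν - ℓ μ by omega,
        t₀ ν (by omega)]
      exact if_congr ⟨fun e => ⟨by subst e; omega, e⟩, And.right⟩ rfl rfl
    · rw [sum_congr rfl fun x hx => by rw [sub_self, (hT x hx).2.zero], sum_eq_single ν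
        (fun x _ e => by simp [e.symm]) (by simp [c]), if_neg (by rintro ⟨rfl, rfl⟩; omega)]
      simp
  have down : ∀ A : ℕ, A ≤ B → ∃ f, P f ∧ ∀ a, (A : ℤ) < a → f a = 0 := fun A hA => by
    induction hA using Nat.decreasingInduction with
    | self => exact ⟨f₀, ⟨m₀, fun _ _ _ => rfl⟩, fun a c => funext fun ν =>
        w₀ a ν (by have := hB ν; omega)⟩
    | of_succ A _ ih =>
      obtain ⟨f, a, b⟩ := ih
      obtain ⟨g, a, b, c⟩ := step _ f a b
      refine ⟨g, a, fun x hx => ?_⟩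
      rcases eq_or_lt_of_le (show ((A + 1 : ℕ) : ℤ) ≤ x by omega) with rfl | e
      exacts [funext fun ν => (c ν).trans (if_neg (by simp)), b x e]
  obtain ⟨f, a, b⟩ := down 0 B.zero_le
  obtain ⟨g, a, b, c⟩ := step _ f a b
  exact ⟨g, a.1, b, funext fun ν => (c ν).trans (by simp [Pi.single_apply]),
    fun x ν e => (a.2 x ν e.le).trans (w₀ x ν e),
    fun ν e => (a.2 _ ν (by omega)).trans (c₀ ν e)⟩

end LatP

open LatP in
theorem lat_main {ℓ : I → ℕ} {w : I → ℂ} (hw : ∀ μ, w μ ≠ 0) {Cut Join : (I → ℂ) →ₗ[ℂ] I → ℂ}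
    (hC : ∀ μ ν, Cut (Pi.single μ 1) ν ≠ 0 → ℓ ν + 1 = ℓ μ)
    (adj : ∀ f g, ∑ μ, w μ * (Cut f μ * g μ) = ∑ μ, w μ * (f μ * Join g μ))
    {L L' : Submodule ℂ (ℤ → I → ℂ)} (hL : Lat ℓ Cut L) (hL' : Lat ℓ Cut L')
    (iso : ∀ f ∈ L, ∀ g ∈ L', ∀ n : ℤ, n < 0 →
      ∑ᶠ a : ℤ, (-1 : ℂ) ^ (n - a) * ∑ μ, w μ * (f a μ * g (n - a) μ) = 0)
    {f : ℤ → I → ℂ} (hf : f ∈ L) (h0 : ∀ a, 0 < a → f a = 0) (r : ℕ) :
    ((r : ℂ) + 1) • f (-(r : ℤ) - 1) = Cut (f (-r)) + Join (f (-r)) := by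
  choose Y hY using exists_nm hL
  choose Y' hY' using exists_nm hL'
  have uniq : ∀ f ∈ L, (∀ a, 0 ≤ a → f a = 0) → f (-1) = 0 := fun f hf h => funext fun ν => by
    have := iso f hf _ (hY' ν).mem (-1) (by omega)
    rw [finsum_eq_single _ (-1) fun a e => by
      rcases lt_or_gt_of_ne e with c | c
      · simp [(hY' ν).pos (-1 - a) (by omega)]
      · simp [h a (by omega)]] at this
    simpa [(hY' ν).zero, Pi.single_apply, hw] using this
  have hC' : ∀ μ ν, ℓ ν + 1 ≠ ℓ μ → Cut (Pi.single μ 1) ν = 0 := fun μ ν e =>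
    by_contra fun c => e (hC μ ν c)
  have hM : ∀ μ, Y μ (-1) = Cut (Pi.single μ 1) + Join (Pi.single μ 1) := fun μ => funext fun ν => by
    have a := adj (Pi.single ν 1) (Pi.single μ 1)
    have b := iso _ (hY μ).mem _ (hY' ν).mem (-1) (by omega)
    rw [finsum_eq_sum_of_support_subset (s := {0, -1}) _ fun a e => by
      by_contra c
      simp only [coe_insert, coe_singleton, Set.mem_insert_iff, Set.mem_singleton_iff] at c
      rcases lt_or_ge 0 a with d | d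
      · simp [(hY μ).pos a d] at e
      · simp [(hY' ν).pos (-1 - a) (by omega)] at e, sum_pair (by decide)] at b
    simp only [(hY μ).zero, (hY' ν).zero, sub_zero, sub_self, Pi.single_apply, ite_mul, mul_ite,
      one_mul, mul_one, zero_mul, mul_zero, sum_ite_eq', mem_univ, if_true, zpow_zero, zpow_neg,
      zpow_one, inv_neg, inv_one] at a b
    refine mul_left_cancel₀ (hw ν) ?_
    rw [Pi.add_apply, mul_add, ← a]
    rcases lt_trichotomy (ℓ ν) (ℓ μ) with c | c | c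
    · rw [hC' ν μ (by omega), mul_zero, add_zero]
      rcases eq_or_ne (ℓ ν + 1) (ℓ μ) with d | d
      · rw [(hY μ).cut ν d]
      · rw [(hY μ).wt _ _ (by omega), hC' μ ν d]
    · have := congrFun (uniq _ (sub_mem (hL.par _ (hY μ).mem)
        (L.smul_mem ((-1 : ℂ) ^ (ℓ μ : ℤ)) (hY μ).mem)) fun a e => funext fun x => by
          rcases eq_or_lt_of_le e with rfl | e
          · by_cases d : x = μ <;> simp [(hY μ).zero, d]
          · simp [(hY μ).pos a e]) ν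
      simp only [Pi.sub_apply, Pi.smul_apply, smul_eq_mul, c, Pi.zero_apply,
        zpow_add₀ (neg_ne_zero.2 (one_ne_zero' ℂ)), zpow_neg, zpow_one, inv_neg, inv_one] at this
      have e : Y μ (-1) ν = 0 := mul_left_cancel₀
        (zpow_ne_zero (ℓ μ : ℤ) (neg_ne_zero.2 (one_ne_zero' ℂ))) (by
          linear_combination (-1 / 2) * this)
      rw [e, hC' ν μ (by omega), hC' μ ν (by omega), mul_zero, mul_zero, add_zero]
    · rw [hC' μ ν (by omega), mul_zero, zero_add]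
      rcases eq_or_ne (ℓ μ + 1) (ℓ ν) with d | d
      · linear_combination b + w μ * (hY' ν).cut μ d
      · rw [(hY' ν).wt _ _ (by omega)] at b
        rw [hC' ν μ d]
        linear_combination b
  induction r generalizing f with
  | zero =>
    have := uniq _ (sub_mem hf (sum_mem (t := univ) fun μ _ => L.smul_mem (f 0 μ) (hY μ).mem))
      fun a e => by
        rcases eq_or_lt_of_le e with rfl | e
        · simp only [Pi.sub_apply, Finset.sum_apply, Pi.smul_apply, (hY _).zero]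
          exact sub_eq_zero.2 (pi_eq_sum_univ' _)
        · simp [h0 a e, (hY _).pos a e]
    simp only [Pi.sub_apply, Finset.sum_apply, Pi.smul_apply, hM, sub_eq_zero, smul_add,
      sum_add_distrib, ← map_smul, ← map_sum, ← pi_eq_sum_univ'] at this
    simpa using this
  | succ r ih =>
    have := ih (hL.der f hf) fun a e => by
      rcases eq_or_lt_of_le (show 1 ≤ a from e) with rfl | e
      · simp
      · simp [h0 (a - 1) (by omega)]
    simp only [map_smul, ← smul_add, smul_smul] at this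
    rw [show -((r + 1 : ℕ) : ℤ) = -(r : ℤ) - 1 by omega]
    refine smul_right_injective _ (neg_ne_zero.2 (r.cast_add_one_ne_zero (R := ℂ))) ?_
    push_cast at this ⊢
    rw [smul_smul, neg_add', ← this]
    congr 1
    ring

end Vale.Agent.P269.WK
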