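import Vale.Agent.P269.WK.Vx
import Vale.Agent.P269.WK.Lat
import Vale.Agent.P269.WK.Cl
import Mathlib.RingTheory.PowerSeries.Expand

/-! The disconnected cut-and-join equation from the bilinear relation. -/

namespace Vale.Agent.P269.WK

open Finset PowerSeries

namespace DcjP

/-- The coefficient of `X ^ e` in `u (X ^ 2)`. -/
noncomputable def db (e : ℤ) : ℂ⟦X⟧ →ₗ[ℂ] ℂ := cz e ∘ₗ (expand 2 two_ne_zero).toLinearMap

lemma db_neg {e : ℤ} (h : e < 0) (u : ℂ⟦X⟧) : db e u = 0 := by simp [db, cz_neg h]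

lemma db_two (e : ℤ) (u : ℂ⟦X⟧) : db (2 * e) u = cz e u := by
  rcases lt_or_ge e 0 with h | h
  · rw [db_neg (by omega), cz_neg h]; rfl
  · lift e to ℕ using h
    rw [db, show (2 * e : ℤ) = (2 * e : ℕ) by push_cast; rfl, cz_nat, cz_nat]
    exact coeff_expand_mul 2 two_ne_zero u e

lemma db_odd {e : ℤ} (h : Odd e) (u : ℂ⟦X⟧) : db e u = 0 := by
  rcases lt_or_ge e 0 with h0 | h0
  · exact db_neg h0 u
  · lift e to ℕ using h0
    rw [db, cz_nat]
    exact coeff_expand_of_not_dvd 2 two_ne_zero u (by obtain ⟨k, hk⟩ := h; omega)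

lemma db_X (e : ℤ) (u : ℂ⟦X⟧) : db (e + 2) (X * u) = db e u := by
  rcases Int.even_or_odd' e with ⟨k, rfl | rfl⟩
  · rw [show 2 * k + 2 = 2 * (k + 1) by ring, db_two, db_two, cz_X_mul, add_sub_cancel_right]
  · rw [db_odd ⟨k + 1, by ring⟩, db_odd ⟨k, rfl⟩]

lemma cz_th (e : ℤ) (u : ℂ⟦X⟧) : cz e (th u) = e * cz e u := by
  rcases lt_or_ge e 0 with h | h
  · simp [cz_neg h]
  · lift e to ℕ using h
    simp [coeff_th]

lemma db_th (e : ℤ) (u : ℂ⟦X⟧) : db e (2 * th u) = e * db e u := by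
  rcases Int.even_or_odd' e with ⟨k, rfl | rfl⟩
  · rw [two_mul (th u), map_add, db_two, db_two, cz_th]
    push_cast
    ring
  · rw [db_odd ⟨k, rfl⟩, db_odd ⟨k, rfl⟩, mul_zero]

lemma db_sign (e a : ℤ) (u : ℂ⟦X⟧) :
    (-1 : ℂ) ^ a * db (e - a) u = (-1) ^ e * db (e - a) u := by
  rcases Int.even_or_odd (e - a) with h | h
  · rw [show e = e - a + a by ring, zpow_add₀ (by norm_num), h.neg_one_zpow, one_mul,
      sub_add_cancel]
  · rw [db_odd h, mul_zero, mul_zero]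

lemma cz_conv {e e' n A : ℤ} (h : e ≤ A) (h' : e' ≤ A) (u v : ℂ⟦X⟧) :
    ∑ a ∈ Icc (n - A) A, cz (e - a) u * cz (e' - (n - a)) v = cz (e + e' - n) (u * v) := by
  rcases lt_or_ge (e + e' - n) 0 with h0 | h0
  · rw [cz_neg h0]
    refine sum_eq_zero fun a _ => ?_
    rcases lt_or_ge (e - a) 0 with h1 | h1
    · simp [cz_neg h1]
    · simp [cz_neg (show e' - (n - a) < 0 by omega)]
  · obtain ⟨N, hN⟩ := Int.eq_ofNat_of_zero_le h0
    rw [hN, cz_nat, coeff_mul]
    symm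
    refine sum_of_injOn (fun p => e - p.1) (fun p hp q hq hpq => ?_) (fun p hp => ?_)
      (fun a _ ha => ?_) fun p hp => ?_
    · have h1 := mem_antidiagonal.1 hp
      have h2 := mem_antidiagonal.1 hq
      dsimp only at hpq
      exact Prod.ext (by omega) (by omega)
    · have h1 := mem_antidiagonal.1 hp
      exact mem_Icc.2 ⟨by dsimp only; omega, by dsimp only; omega⟩
    · rcases lt_or_ge (e - a) 0 with h1 | h1
      · simp [cz_neg h1]
      rcases lt_or_ge (e' - (n - a)) 0 with h2 | h2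
      · simp [cz_neg h2]
      exact absurd ⟨((e - a).toNat, (e' - (n - a)).toNat), mem_antidiagonal.2 (by omega),
        by dsimp only; omega⟩ ha
    · have h1 := mem_antidiagonal.1 hp
      rw [show e - (e - p.1) = p.1 by ring, show e' - (n - (e - p.1)) = p.2 by omega, cz_nat, cz_nat]

lemma db_conv {e e' n A : ℤ} (h : e ≤ A) (h' : e' ≤ A) (u v : ℂ⟦X⟧) :
    ∑ a ∈ Icc (n - A) A, (-1 : ℂ) ^ (n - a) * (db (e - a) u * db (e' - (n - a)) v) =
      (-1) ^ e' * db (e + e' - n) (u * v) := by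
  have e1 : db (e + e' - n) (u * v) =
      ∑ a ∈ Icc (n - A) A, db (e - a) u * db (e' - (n - a)) v := by
    simp only [db, LinearMap.comp_apply, AlgHom.toLinearMap_apply, map_mul]
    exact (cz_conv h h' _ _).symm
  rw [e1, mul_sum]
  exact sum_congr rfl fun a _ => by rw [mul_left_comm, db_sign, mul_left_comm]

section maps

variable {M N Φ : Type*} [AddCommGroup M] [Module ℚ M] [AddCommGroup N] [Module ℚ N]
  [FunLike Φ M N] [AddMonoidHomClass Φ M N]

lemma map_cutF (φ : Φ) (f : Multiset ℕ → M) (μ : Multiset ℕ) :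
    φ (cutF f μ) = cutF (fun ν => φ (f ν)) μ := by
  simp only [cutF, map_rat_smul, map_s1, map_sum]

lemma map_joinF (φ : Φ) (f : Multiset ℕ → M) (μ : Multiset ℕ) :
    φ (joinF f μ) = joinF (fun ν => φ (f ν)) μ := by
  simp only [joinF, map_rat_smul, map_s1]

lemma cutF_zero (μ : Multiset ℕ) : cutF (fun _ => (0 : M)) μ = 0 := by simp [cutF]

end maps

variable {d : ℕ}

/-- Extension by zero. -/
noncomputable def ex (d : ℕ) (μ : Multiset ℕ) : (Pt d → ℂ) →ₗ[ℂ] ℂ :=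
  if h : μ ∈ Pt d then LinearMap.proj (⟨μ, h⟩ : Pt d) else 0

lemma ex_mem {μ : Multiset ℕ} (h : μ ∈ Pt d) (v : Pt d → ℂ) : ex d μ v = v ⟨μ, h⟩ := by
  rw [ex, dif_pos h]; rfl

/-- The cut operator. -/
noncomputable def Cut (d : ℕ) : (Pt d → ℂ) →ₗ[ℂ] Pt d → ℂ :=
  LinearMap.pi fun ν => cutF (ex d) ν.1

/-- The join operator. -/
noncomputable def Join (d : ℕ) : (Pt d → ℂ) →ₗ[ℂ] Pt d → ℂ :=
  LinearMap.pi fun ν => joinF (ex d) ν.1

lemma Cut_apply (v : Pt d → ℂ) (ν : Pt d) : Cut d v ν = cutF (fun μ => ex d μ v) ν.1 :=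
  map_cutF (LinearMap.evalAddMonoidHom v) (ex d) ν.1

lemma Join_apply (v : Pt d → ℂ) (ν : Pt d) : Join d v ν = joinF (fun μ => ex d μ v) ν.1 :=
  map_joinF (LinearMap.evalAddMonoidHom v) (ex d) ν.1

lemma Cut_single (μ ν : Pt d) :
    Cut d (Pi.single μ 1) ν = cutF (Pi.single μ.1 (1 : ℂ) : Multiset ℕ → ℂ) ν.1 := by
  rw [Cut_apply]
  refine cutF_congr ν.2 fun x hx _ => ?_
  rw [ex_mem hx, Pi.single_apply, Pi.single_apply]
  exact if_congr Subtype.ext_iff rfl rfl

lemma Cut_card (μ ν : Pt d) (h : Cut d (Pi.single μ 1) ν ≠ 0) :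
    Multiset.card ν.1 + 1 = Multiset.card μ.1 := by
  by_contra h1
  refine h ?_
  rw [Cut_single, ← cutF_zero ν.1]
  exact cutF_congr ν.2 fun x _ hx => Pi.single_eq_of_ne (fun e => h1 (by rw [← hx, e])) _

lemma adj (f g : Pt d → ℂ) : ∑ μ : Pt d, (wg μ.1 : ℂ) * (Cut d f μ * g μ) =
    ∑ μ : Pt d, (wg μ.1 : ℂ) * (f μ * Join d g μ) := by
  have := cut_join d (fun μ => ex d μ f) fun μ => ex d μ g
  rw [← sum_coe_sort, ← sum_coe_sort (Pt d)] at this
  simpa only [Cut_apply, Join_apply, Rat.smul_def, ex_mem (Subtype.prop _)] using this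

lemma card_le (μ : Pt d) : Multiset.card μ.1 ≤ d :=
  (card_le_sum (mem_Pt.1 μ.2).2).trans (mem_Pt.1 μ.2).1.le

variable {f fc g : Multiset ℕ → ℂ⟦X⟧}

/-- The exponent of a generator. -/
def ee (d c : ℕ) (x : Multiset ℕ) (l : ℕ) : ℤ := c + x.sum - d + l + 2 * Multiset.card x

/-- The generators of the lattice. -/
noncomputable def gen (d : ℕ) (f : Multiset ℕ → ℂ⟦X⟧) (x : Multiset ℕ) (c : ℕ) (a : ℤ) (μ : Pt d) :
    ℂ := db (ee d c x (Multiset.card μ.1) - a) (hv f x μ.1)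

/-- The lattice. -/
noncomputable def LL (d : ℕ) (f : Multiset ℕ → ℂ⟦X⟧) : Submodule ℂ (ℤ → Pt d → ℂ) :=
  Submodule.span ℂ {F | ∃ x c, F = gen d f x c}

lemma gen_mem (x : Multiset ℕ) (c : ℕ) : gen d f x c ∈ LL d f := Submodule.subset_span ⟨x, c, rfl⟩

lemma ee_le (c : ℕ) (x : Multiset ℕ) (μ : Pt d) :
    ee d c x (Multiset.card μ.1) ≤ c + x.sum + 2 * Multiset.card x := by
  have := card_le μ
  unfold ee
  omega

/-- Reindexing and multiplication. -/
def op (κ : ℤ → Pt d → ℂ) (t : ℤ → ℤ) : (ℤ → Pt d → ℂ) →ₗ[ℂ] ℤ → Pt d → ℂ where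
  toFun F a μ := κ a μ * F (t a) μ
  map_add' _ _ := funext₂ fun _ _ => mul_add _ _ _
  map_smul' _ _ := funext₂ fun _ _ => mul_left_comm _ _ _

lemma map_mem (κ : ℤ → Pt d → ℂ) (t : ℤ → ℤ)
    (h : ∀ x c, (fun a μ => κ a μ * gen d f x c (t a) μ) ∈ LL d f)
    {F : ℤ → Pt d → ℂ} (hF : F ∈ LL d f) : (fun a μ => κ a μ * F (t a) μ) ∈ LL d f :=
  (Submodule.span_le (p := (LL d f).comap (op κ t))).2 (by rintro _ ⟨x, c, rfl⟩; exact h x c) hF

lemma bdd {F : ℤ → Pt d → ℂ} (hF : F ∈ LL d f) : ∃ A : ℤ, ∀ a, A < a → F a = 0 := by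
  induction hF using Submodule.span_induction with
  | mem F h =>
    obtain ⟨x, c, rfl⟩ := h
    exact ⟨c + x.sum + 2 * Multiset.card x, fun a ha => funext fun μ =>
      db_neg (by have := ee_le c x μ; omega) _⟩
  | zero => exact ⟨0, fun _ _ => rfl⟩
  | add F G _ _ h1 h2 =>
    obtain ⟨A, h1⟩ := h1
    obtain ⟨B, h2⟩ := h2
    exact ⟨max A B, fun a ha => by
      rw [Pi.add_apply, h1 a (by omega), h2 a (by omega), add_zero]⟩
  | smul c F _ h => exact h.imp fun A h a ha => by rw [Pi.smul_apply, h a ha, smul_zero]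

lemma gen_sh (x : Multiset ℕ) (c : ℕ) (a : ℤ) : gen d f x c (a - 1) = gen d f x (c + 1) a :=
  funext fun μ => congrArg (db · _) (by unfold ee; push_cast; ring)

lemma sh {F : ℤ → Pt d → ℂ} (hF : F ∈ LL d f) : (fun a => F (a - 1)) ∈ LL d f := by
  simpa only [one_mul] using map_mem (fun _ _ => 1) (fun a => a - 1)
    (fun x c => by simpa only [one_mul, gen_sh] using gen_mem x (c + 1)) hF

lemma der (h : Vx f fc) {F : ℤ → Pt d → ℂ} (hF : F ∈ LL d f) :
    (fun a : ℤ => ((a : ℂ) - 1) • F (a - 1)) ∈ LL d f := by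
  obtain ⟨κ, hκ⟩ := h.hv_dil
  refine map_mem (fun a _ => (a : ℂ) - 1) (fun a => a - 1) (fun x c => ?_) hF
  have : (fun (a : ℤ) μ => ((a : ℂ) - 1) * gen d f x c (a - 1) μ) =
      ((c : ℂ) + x.sum - d + Multiset.card x + κ) • gen d f x (c + 1) - gen d f (1 ::ₘ x) c := by
    funext a μ
    have e1 : ee d c (1 ::ₘ x) (Multiset.card μ.1) - a =
        ee d (c + 1) x (Multiset.card μ.1) - a + 2 := by
      simp only [ee, Multiset.sum_cons, Multiset.card_cons]
      push_cast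
      ring
    change _ = _ * gen d f x (c + 1) a μ - gen d f _ c a μ
    rw [gen_sh, gen, gen, hκ, e1, db_X, map_add, db_th, map_smul, ee, smul_eq_mul]
    generalize x.sum = t
    push_cast
    ring
  rw [this]
  exact sub_mem (Submodule.smul_mem _ _ (gen_mem _ _)) (gen_mem _ _)

lemma par {F : ℤ → Pt d → ℂ} (hF : F ∈ LL d f) :
    (fun (a : ℤ) μ => (-1 : ℂ) ^ (a + Multiset.card μ.1) * F a μ) ∈ LL d f := by
  refine map_mem (fun a μ => (-1 : ℂ) ^ (a + Multiset.card μ.1)) (fun a => a) (fun x c => ?_) hF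
  have : (fun (a : ℤ) (μ : Pt d) => (-1 : ℂ) ^ (a + Multiset.card μ.1) * gen d f x c a μ) =
      (-1 : ℂ) ^ (ee d c x 0) • gen d f x c := by
    funext a μ
    have := db_sign (ee d c x (Multiset.card μ.1) + Multiset.card μ.1) (a + Multiset.card μ.1)
      (hv f x μ.1)
    rw [add_sub_add_right_eq_sub, show ee d c x (Multiset.card μ.1) + Multiset.card μ.1 =
      ee d c x 0 + 2 * Multiset.card μ.1 by unfold ee; push_cast; ring,
      zpow_add₀ (by norm_num) (ee d c x 0), (even_two_mul _).neg_one_zpow, mul_one] at this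
    exact this
  rw [this]
  exact Submodule.smul_mem _ _ (gen_mem _ _)

/-- The top parts of the elements of weight at most `r`. -/
def GT (d : ℕ) (f : Multiset ℕ → ℂ⟦X⟧) (r : ℕ) : Submodule ℂ (Multiset ℕ → ℂ) where
  carrier := {v | ∃ F ∈ LL d f, (∀ (a : ℤ) (ν : Pt d), r - d + Multiset.card ν.1 < a → F a ν = 0) ∧
    ∀ ν : Pt d, v ν.1 = F (r - d + Multiset.card ν.1) ν}
  zero_mem' := ⟨0, zero_mem _, fun _ _ _ => rfl, fun _ => rfl⟩
  add_mem' := by
    rintro v w ⟨F, h1, h2, h3⟩ ⟨G, k1, k2, k3⟩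
    exact ⟨F + G, add_mem h1 k1, fun a ν h => by simp [h2 a ν h, k2 a ν h],
      fun ν => by simp [h3, k3]⟩
  smul_mem' := by
    rintro c v ⟨F, h1, h2, h3⟩
    exact ⟨c • F, Submodule.smul_mem _ _ h1, fun a ν h => by simp [h2 a ν h], fun ν => by simp [h3]⟩

lemma GT_mono : Monotone (GT d f) := monotone_nat_of_le_succ fun r => by
  rintro v ⟨F, h1, h2, h3⟩
  refine ⟨_, sh h1, fun a ν h => h2 _ ν (by push_cast at h; omega), fun ν => ?_⟩
  rw [h3]
  exact congrArg (F · ν) (by push_cast; ring)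

lemma GT_card (h : Vx f fc) {r : ℕ} {v : Multiset ℕ → ℂ} (hv : v ∈ GT d f r) :
    (fun μ => Multiset.card μ * v μ) ∈ GT d f (r + 1) := by
  obtain ⟨F, h1, h2, h3⟩ := hv
  refine ⟨_, sub_mem (der h h1) (Submodule.smul_mem _ ((r : ℂ) - d) (sh h1)), fun a ν h => ?_,
    fun ν => ?_⟩
  · simp [h2 (a - 1) ν (by push_cast at h; omega)]
  · simp only [h3, Pi.sub_apply, Pi.smul_apply, smul_eq_mul]
    rw [show ((r + 1 : ℕ) : ℤ) - d + Multiset.card ν.1 - 1 = r - d + Multiset.card ν.1 by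
      push_cast; ring]
    push_cast
    ring

lemma GT_clf (h : Vx f fc) {x : Multiset ℕ} (hx : ∀ m ∈ x, 2 ≤ m) (i : ℕ) :
    (fun μ => (Multiset.card μ : ℂ) ^ i * clf f x μ) ∈ GT d f (x.sum + i) := by
  induction i with
  | zero =>
    refine ⟨_, gen_mem x 0, fun a ν ha => ?_, fun ν => ?_⟩
    · rw [gen]
      rcases Int.even_or_odd' (ee d 0 x (Multiset.card ν.1) - a) with ⟨k, hk | hk⟩
      · rw [hk, db_two]
        rcases lt_or_ge k 0 with h0 | h0
        · simp [cz_neg h0]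
        · lift k to ℕ using h0
          rw [cz_nat, h.low hx _ (by unfold ee at hk; omega)]
      · exact db_odd ⟨k, hk⟩ _
    · rw [gen, show ee d 0 x (Multiset.card ν.1) - (((x.sum + 0 : ℕ) : ℤ) - d + Multiset.card ν.1) =
        2 * Multiset.card x by unfold ee; push_cast; ring, db_two, cz_nat]
      exact one_mul _
  | succ i ih => simpa only [pow_succ', mul_assoc, add_assoc] using GT_card h ih

/-- The span of the classical parts. -/
noncomputable def GS (d : ℕ) (f : Multiset ℕ → ℂ⟦X⟧) (r : ℕ) : Submodule ℂ (Multiset ℕ → ℂ) :=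
  Submodule.span ℂ {v | (∀ μ ∈ Pt d, v μ = 0) ∨ ∃ x i, (∀ m ∈ x, 2 ≤ m) ∧ x.sum + i ≤ r ∧
    v = fun μ => (Multiset.card μ : ℂ) ^ i * clf f x μ}

lemma GS_le (h : Vx f fc) (r : ℕ) : GS d f r ≤ GT d f r := Submodule.span_le.2 <| by
  rintro v (hv | ⟨x, i, hx, hi, rfl⟩)
  · exact ⟨0, zero_mem _, fun _ _ _ => rfl, fun ν => hv _ ν.2⟩
  · exact GT_mono hi (GT_clf h hx i)

lemma GS_op (h : Vx f fc) (r a : ℕ) (v : Multiset ℕ → ℂ) (hv : v ∈ GS d f r) :
    (fun μ : Multiset ℕ => (((μ.map fun k : ℕ => (k : ℚ)⁻¹ ^ a).sum : ℚ) : ℂ) * v μ) ∈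
      GS d f (r + a + 1) := by
  refine (Submodule.span_le (p := (GS d f (r + a + 1)).comap (LinearMap.mulLeft ℂ
    fun μ : Multiset ℕ => (((μ.map fun k : ℕ => (k : ℚ)⁻¹ ^ a).sum : ℚ) : ℂ)))).2 ?_ hv
  rintro v (hv | ⟨x, i, hx, hi, rfl⟩)
  · exact Submodule.subset_span (.inl fun μ hμ => by simp [hv μ hμ])
  rcases Nat.eq_zero_or_pos a with rfl | ha
  · exact Submodule.subset_span (.inr ⟨x, i + 1, hx, by omega, funext fun μ => by
      simp [pow_succ', mul_assoc]⟩)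
  have e : (LinearMap.mulLeft ℂ fun μ : Multiset ℕ =>
      (((μ.map fun k : ℕ => (k : ℚ)⁻¹ ^ a).sum : ℚ) : ℂ))
      (fun μ => (Multiset.card μ : ℂ) ^ i * clf f x μ) = (-1 : ℂ) ^ (a + 1) •
        ((fun μ => (Multiset.card μ : ℂ) ^ i * clf f ((a + 1) ::ₘ x) μ) -
          s1 x fun m ν μ => (Multiset.card μ : ℂ) ^ i * clf f ((a + m) ::ₘ ν) μ) := by
    funext μ
    have e1 := map_s1 (Pi.evalAddMonoidHom (fun _ : Multiset ℕ => ℂ) μ) x
      fun m ν μ => (Multiset.card μ : ℂ) ^ i * clf f ((a + m) ::ₘ ν) μ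
    simp only [Pi.evalAddMonoidHom_apply, ← mul_s1] at e1
    simp only [LinearMap.mulLeft_apply, Pi.mul_apply, Pi.smul_apply, Pi.sub_apply, smul_eq_mul, e1]
    rw [mul_left_comm, h.cl_op hx ha]
    ring
  rw [SetLike.mem_coe, Submodule.mem_comap, e]
  refine Submodule.smul_mem _ _ (sub_mem (Submodule.subset_span (.inr ⟨_, i, ?_, ?_, rfl⟩))
    (multiset_sum_mem _ fun v hv => ?_))
  · exact fun m hm => (Multiset.mem_cons.1 hm).elim (fun e => by omega) (hx m)
  · rw [Multiset.sum_cons]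
    omega
  · obtain ⟨m, hm, rfl⟩ := Multiset.mem_map.1 hv
    have := hx m hm
    have e2 := Multiset.sum_erase hm
    refine Submodule.subset_span (.inr ⟨_, i, fun k hk => (Multiset.mem_cons.1 hk).elim
      (fun e => by omega) fun hk => hx k (Multiset.mem_of_mem_erase hk), ?_, rfl⟩)
    rw [Multiset.sum_cons]
    omega

lemma lat (h : Vx f fc) : Lat (fun μ : Pt d => Multiset.card μ.1) (Cut d) (LL d f) where
  bdd _ := bdd
  sh _ := sh
  der _ := der h
  par _ := par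
  cl μ := by
    obtain ⟨v, hv, h1, h2⟩ := classical d (GS d f)
      (fun r r' hr => Submodule.span_mono fun v hv => hv.imp_right fun ⟨x, i, a1, a2, a3⟩ =>
        ⟨x, i, a1, a2.trans hr, a3⟩)
      (fun r v w hv e => by
        rw [← add_sub_cancel v w]
        exact add_mem hv (Submodule.subset_span (.inl fun μ hμ => by simp [e μ hμ])))
      (Submodule.subset_span (.inr ⟨0, 0, by simp, le_rfl, funext fun μ => by simp [h.cl_zero]⟩))
      (GS_op h) μ.2
    obtain ⟨F, k1, k2, k3⟩ := GS_le h _ hv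
    have := card_le μ
    refine ⟨F, k1, fun a ν ha => k2 a ν (by omega), fun ν hν => ?_, fun ν hν => ?_⟩
    · rw [show (Multiset.card ν.1 : ℤ) - Multiset.card μ.1 =
        (d - Multiset.card μ.1 : ℕ) - d + Multiset.card ν.1 by omega, ← k3, h1 _ ν.2 hν]
      exact if_congr Subtype.ext_iff.symm rfl rfl
    · rw [show (-1 : ℤ) = (d - Multiset.card μ.1 : ℕ) - d + Multiset.card ν.1 by omega, ← k3,
        h2 _ ν.2 hν, Cut_single]

/-- The truncated pairing. -/
noncomputable def pr (d : ℕ) (n A : ℤ) (F G : ℤ → Pt d → ℂ) : ℂ :=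
  ∑ a ∈ Icc (n - A) A, (-1 : ℂ) ^ (n - a) * ∑ μ : Pt d, (wg μ.1 : ℂ) * (F a μ * G (n - a) μ)

lemma pr_gen (hb : Bil f g) {n : ℤ} (hn : n < 0) (x y : Multiset ℕ) (c c' : ℕ) :
    ∀ᶠ A in Filter.atTop, pr d n A (gen d f x c) (gen d g y c') = 0 := by
  filter_upwards [Filter.eventually_ge_atTop (c + x.sum + 2 * Multiset.card x : ℤ),
    Filter.eventually_ge_atTop (c' + y.sum + 2 * Multiset.card y : ℤ)] with A h1 h2
  have e1 : pr d n A (gen d f x c) (gen d g y c') = (-1) ^ ee d c' y 0 * ∑ μ : Pt d,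
      (wg μ.1 * (-1) ^ Multiset.card μ.1) • db (c + c' + x.sum + y.sum - n - 2 * d +
        2 * (Multiset.card x + Multiset.card y + Multiset.card μ.1)) (hv f x μ.1 * hv g y μ.1) := by
    simp only [pr, mul_sum]
    rw [sum_comm]
    refine sum_congr rfl fun μ _ => ?_
    simp only [mul_left_comm _ (wg μ.1 : ℂ), ← mul_sum, gen]
    rw [db_conv ((ee_le c x μ).trans h1) ((ee_le c' y μ).trans h2), Rat.smul_def,
      show ee d c x (Multiset.card μ.1) + ee d c' y (Multiset.card μ.1) - n =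
        c + c' + x.sum + y.sum - n - 2 * d +
          2 * (Multiset.card x + Multiset.card y + Multiset.card μ.1) by unfold ee; ring,
      show ee d c' y (Multiset.card μ.1) = ee d c' y 0 + Multiset.card μ.1 by
        unfold ee; push_cast; ring, zpow_add₀ (by norm_num), zpow_natCast]
    push_cast
    ring
  rw [e1]
  refine mul_eq_zero_of_right _ ?_
  rcases Int.even_or_odd' (c + c' + x.sum + y.sum - n - 2 * d : ℤ) with ⟨j, hj | hj⟩
  · rw [← hb d j x y (by omega), ← sum_coe_sort (Pt d)]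
    refine sum_congr rfl fun μ _ => ?_
    rw [hj, ← mul_add, db_two, add_assoc j, add_assoc j]
  · exact sum_eq_zero fun μ _ => by
      rw [hj, db_odd ⟨j + (Multiset.card x + Multiset.card y + Multiset.card μ.1), by ring⟩,
        smul_zero]

lemma pr_ev (hb : Bil f g) {n : ℤ} (hn : n < 0) {F G : ℤ → Pt d → ℂ} (hF : F ∈ LL d f)
    (hG : G ∈ LL d g) : ∀ᶠ A in Filter.atTop, pr d n A F G = 0 := by
  induction hF using Submodule.span_induction with
  | mem F h =>
    obtain ⟨x, c, rfl⟩ := h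
    induction hG using Submodule.span_induction with
    | mem G h =>
      obtain ⟨y, c', rfl⟩ := h
      exact pr_gen hb hn x y c c'
    | zero => simp [pr]
    | add G G' _ _ h1 h2 =>
      filter_upwards [h1, h2] with A h1 h2
      refine Eq.trans ?_ ((congrArg₂ (· + ·) h1 h2).trans (add_zero 0))
      simp only [pr, Pi.add_apply, mul_add, sum_add_distrib]
    | smul c G _ h =>
      filter_upwards [h] with A h
      rw [← mul_zero c, ← h]
      simp only [pr, Pi.smul_apply, smul_eq_mul, mul_sum, mul_left_comm c]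
  | zero => simp [pr]
  | add F F' _ _ h1 h2 =>
    filter_upwards [h1, h2] with A h1 h2
    refine Eq.trans ?_ ((congrArg₂ (· + ·) h1 h2).trans (add_zero 0))
    simp only [pr, Pi.add_apply, mul_add, add_mul, sum_add_distrib]
  | smul c F _ h =>
    filter_upwards [h] with A h
    rw [← mul_zero c, ← h]
    simp only [pr, Pi.smul_apply, smul_eq_mul, mul_sum, mul_left_comm c, mul_assoc]

lemma iso (hb : Bil f g) : ∀ F ∈ LL d f, ∀ G ∈ LL d g, ∀ n : ℤ, n < 0 →
    ∑ᶠ a : ℤ, (-1 : ℂ) ^ (n - a) * ∑ μ : Pt d, (wg μ.1 : ℂ) * (F a μ * G (n - a) μ) = 0 := by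
  intro F hF G hG n hn
  obtain ⟨A, hA⟩ := bdd hF
  obtain ⟨B, hB⟩ := bdd hG
  obtain ⟨C, h1, h2, h3⟩ := ((pr_ev hb hn hF hG).and ((Filter.eventually_ge_atTop A).and
    (Filter.eventually_ge_atTop B))).exists
  rw [← h1, pr]
  refine finsum_eq_sum_of_support_subset _ fun a ha => ?_
  by_contra h
  refine ha ?_
  rcases lt_or_ge C a with h4 | h4
  · simp [hA a (by omega)]
  · simp [hB (n - a) (by simp only [coe_Icc, Set.mem_Icc] at h; omega)]

end DcjP

open DcjP in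
theorem dcj_of_bil {f fc g gc : Multiset ℕ → ℂ⟦X⟧} (hf : Vx f fc) (hg : Vx g gc) (hb : Bil f g) :
    DCJ (hv f 0) := by
  intro ν hν
  have hm : ν ∈ Pt ν.sum := mem_Pt.2 ⟨rfl, hν⟩
  have hl := card_le_sum hν
  ext n
  have e0 : coeff n ((((ν.sum : ℕ) : ℚ) - Multiset.card ν) • hv f 0 ν + 2 * th (hv f 0 ν)) =
      ((ν.sum : ℂ) - Multiset.card ν + 2 * n) * coeff n (hv f 0 ν) := by
    rw [two_mul (th _), map_add, map_add, map_rat_smul, coeff_th, Rat.smul_def, Rat.cast_sub,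
      Rat.cast_natCast, Rat.cast_natCast]
    ring
  rw [e0, map_add, map_cutF, ← cz_nat, cz_X_mul, map_joinF]
  rcases Nat.eq_zero_or_pos (ν.sum - Multiset.card ν + 2 * n) with h0 | h0
  · obtain rfl : n = 0 := by omega
    rw [cutF_congr (g := fun _ => 0) hm fun x hx e =>
      absurd (card_le ⟨x, hx⟩) (by dsimp only; omega), cutF_zero, show ν.sum = Multiset.card ν by omega]
    simp [cz_neg, joinF]
  obtain ⟨r, hr⟩ := Nat.exists_eq_succ_of_ne_zero h0.ne'
  have e1 : ∀ l, ee ν.sum 0 0 l = l - ν.sum := fun l => by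
    simp only [ee, Multiset.sum_zero, Multiset.card_zero, Nat.cast_zero]
    ring
  have key := congrFun (lat_main (fun μ => Rat.cast_ne_zero.2 (wg_ne (mem_Pt.1 μ.2).2)) Cut_card adj
    (lat hf) (lat hg) (iso hb) (gen_mem (d := ν.sum) 0 0) (fun a ha => funext fun μ =>
      db_neg (by have := card_le μ; rw [e1]; omega) _) r) ⟨ν, hm⟩
  rw [Pi.add_apply, Cut_apply, Join_apply, Pi.smul_apply, smul_eq_mul, gen,
    show ee ν.sum 0 0 (Multiset.card ν) - (-(r : ℤ) - 1) = 2 * n by rw [e1]; omega, db_two,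
    cutF_congr (g := fun x => cz n (hv f 0 x)) hm fun x hx e => by
      rw [ex_mem hx, gen, ← db_two]
      exact congrArg (db · _) (by rw [e1]; dsimp only; omega),
    joinF_congr (g := fun x => cz (n - 1) (hv f 0 x)) hm fun x hx e => by
      rw [ex_mem hx, gen, ← db_two]
      exact congrArg (db · _) (by rw [e1]; dsimp only; omega)] at key
  rw [← key]
  congr 1
  have := congrArg (Nat.cast : ℕ → ℂ) hr
  rw [Nat.cast_add, Nat.cast_sub hl] at this
  exact_mod_cast this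

end Vale.Agent.P269.WK
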