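import Vale.Agent.P269.WK.Ser

/-! Rationality of the solutions of the cut-and-join equation. -/

namespace Vale.Agent.P269.WK

open Finset PowerSeries

namespace RatP

lemma s1_mem {I M S : Type*} [DecidableEq I] [AddCommMonoid M] [SetLike S M]
    [AddSubmonoidClass S M] {s : S} {μ : Multiset I} {F : I → Multiset I → M}
    (h : ∀ k ν, k ::ₘ ν = μ → F k ν ∈ s) : s1 μ F ∈ s :=
  multiset_sum_mem _ fun _ ha => by
    obtain ⟨k, hk, rfl⟩ := Multiset.mem_map.1 ha
    exact h _ _ (Multiset.cons_erase hk)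

lemma s2_mem {I M S : Type*} [AddCommMonoid M] [SetLike S M]
    [AddSubmonoidClass S M] {s : S} {μ : Multiset I} {F : Multiset I → Multiset I → M}
    (h : ∀ x y, x + y = μ → F x y ∈ s) : s2 μ F ∈ s :=
  multiset_sum_mem _ fun _ ha => by
    obtain ⟨q, hq, rfl⟩ := Multiset.mem_map.1 ha
    exact h _ _ (Multiset.mem_antidiagonal.1 hq)

lemma coeff_mul_of_dvd {u v : ℂ⟦X⟧} {a b : ℕ} (hu : ∀ i < a, coeff i u = 0)
    (hv : ∀ i < b, coeff i v = 0) (g : ℕ) : coeff (g + (a + b)) (u * v) =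
      ∑ h ∈ antidiagonal g, coeff (h.1 + a) u * coeff (h.2 + b) v := by
  obtain ⟨u, rfl⟩ := X_pow_dvd_iff.2 hu
  obtain ⟨v, rfl⟩ := X_pow_dvd_iff.2 hv
  simp only [coeff_X_pow_mul]
  rw [mul_mul_mul_comm, ← pow_add, coeff_X_pow_mul, coeff_mul]

lemma cq_apply (n : ℕ) (u : ℂ⟦X⟧) : cq n u = coeff n u := rfl

lemma coeff_qsmul (n : ℕ) (q : ℚ) (u : ℂ⟦X⟧) : coeff n (q • u) = q • coeff n u :=
  map_smul (cq n) q u

/-- The coefficient of genus `g`. -/
noncomputable def cc (fc : Multiset ℕ → ℂ⟦X⟧) (g : ℕ) (x : Multiset ℕ) : ℂ :=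
  coeff (g + Multiset.card x - 1) (fc x)

/-- The rational numbers. -/
noncomputable abbrev QQ : Subalgebra ℚ ℂ := ⊥

variable {fc : Multiset ℕ → ℂ⟦X⟧} (hd : ∀ x n, coeff n (fc x) ≠ 0 →
  x ≠ 0 ∧ Multiset.card x ≤ n + 1 ∧ x.sum + 2 * Multiset.card x ≤ 3 * n)
include hd

lemma cc_eq_zero {g : ℕ} {x : Multiset ℕ} (h : 3 * g + Multiset.card x < x.sum + 3) :
    cc fc g x = 0 := by
  by_contra h0
  obtain ⟨h1, -, h2⟩ := hd x _ h0
  have := Multiset.card_pos.2 h1
  omega

lemma coeff_hc_zero {n : ℕ} {μ : Multiset ℕ} (h : n + 1 < Multiset.card μ) :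
    coeff n (hc fc μ) = 0 := by
  rw [hc, map_add, coeff_ser', mx_congr (g := fun _ => 0) _ fun x hx => by_contra fun h0 => by
    have := (hd x n h0).2.1
    rw [Multiset.card_map] at hx
    omega, mx_zero', coeff_qsmul, coeff_X_pow, if_neg (by omega), smul_zero, add_zero]

lemma coeff_hc (g : ℕ) {μ : Multiset ℕ} (hμ : μ ≠ 0) {A : ℕ} (hA : 3 * g + Multiset.card μ ≤ A) :
    cc (hc fc) g μ = mx A (cc fc g) (μ.map .inr) + (HU g μ : ℂ) := by
  classical
  have h1 := Multiset.card_pos.2 hμ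
  rw [cc, hc, map_add, coeff_ser', coeff_qsmul, coeff_X_pow]
  congr 1
  · let f : Multiset ℕ → ℂ := fun x => if Multiset.card x = Multiset.card μ then cc fc g x else 0
    rw [mx_congr (g := f) _ fun x hx => ?_, mx_congr A (f := cc fc g) (g := f) fun x hx => ?_]
    · refine mx_trunc (B := 3 * g + Multiset.card μ - 3) (by omega) (by omega) (fun x hx => ?_) _
      simp only [f]
      split_ifs with h
      exacts [cc_eq_zero hd (by omega), rfl]
    all_goals
      rw [Multiset.card_map] at hx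
      simp only [f, if_pos hx, cc, hx]
  · rcases g with _ | g
    · simp
    · rw [if_neg (by omega), HU_stable (g := g + 1) (by omega)]
      simp

lemma rat_zero (μ : Multiset ℕ) : coeff 0 (hc fc μ) ∈ QQ := by
  rw [hc, map_add, coeff_ser', mx_congr (g := fun _ => 0) _ fun x _ => by_contra fun h0 => by
    obtain ⟨h1, -, h2⟩ := hd x 0 h0
    have := Multiset.card_pos.2 h1
    omega, mx_zero', coeff_qsmul, coeff_X_pow, zero_add]
  refine Subalgebra.smul_mem _ ?_ _
  split_ifs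
  exacts [one_mem _, zero_mem _]

lemma rat (h : CCJ (hc fc)) (n : ℕ) (μ : Multiset ℕ) (hμ : 0 ∉ μ) : coeff n (hc fc μ) ∈ QQ := by
  induction hb : 2 * n + μ.sum - Multiset.card μ using Nat.strong_induction_on
    generalizing n μ with
  | _ b ih =>
  rcases n with _ | n
  · exact rat_zero hd μ
  have ih' : ∀ n' ν, 0 ∉ ν → 2 * n' + ν.sum + Multiset.card μ <
      2 * (n + 1) + μ.sum + Multiset.card ν → coeff n' (hc fc ν) ∈ QQ := fun n' ν h1 h2 => by
    have := card_le_sum h1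
    have := card_le_sum hμ
    exact ih _ (by omega) n' ν h1 rfl
  have h1 : (((μ.sum : ℕ) : ℚ) - Multiset.card μ + 2 * (n + 1)) ≠ 0 := by
    have : (Multiset.card μ : ℚ) ≤ (μ.sum : ℕ) := Nat.cast_le.2 (card_le_sum hμ)
    have : (0 : ℚ) ≤ n := Nat.cast_nonneg n
    exact ne_of_gt (by linarith)
  have h2 : coeff (n + 1) (hc fc μ) = (((μ.sum : ℕ) : ℚ) - Multiset.card μ + 2 * (n + 1))⁻¹ •
      coeff (n + 1) (cutF (hc fc) μ + quadF (hc fc) μ + X * joinF (hc fc) μ) := by
    rw [← h μ hμ, eq_inv_smul_iff₀ h1, map_add, coeff_qsmul, two_mul (th _), map_add, coeff_th,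
      add_smul]
    simp only [Rat.smul_def]
    push_cast
    ring
  rw [h2, map_add, map_add, coeff_succ_X_mul, cutF, quadF, joinF, coeff_qsmul, coeff_qsmul,
    coeff_qsmul, map_s1, map_s1, map_s1]
  refine Subalgebra.smul_mem _ (add_mem (add_mem ?_ ?_) ?_) _ <;>
    refine Subalgebra.smul_mem _ (s1_mem fun k ν e => ?_) _
  · rw [map_sum]
    refine sum_mem fun p hp => ?_
    rw [coeff_qsmul]
    by_cases h0 : p.1 = 0 ∨ p.2 = 0
    · rcases h0 with h0 | h0 <;> simp [h0]
    have := mem_antidiagonal.1 hp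
    subst e
    simp only [Multiset.mem_cons, not_or] at hμ h0
    refine Subalgebra.smul_mem _ (ih' _ _ (by
      simp only [Multiset.mem_cons, not_or]; exact ⟨by omega, by omega, hμ.2⟩) ?_) _
    simp only [Multiset.sum_cons, Multiset.card_cons]
    omega
  · rw [map_sum]
    refine sum_mem fun p hp => ?_
    rw [coeff_qsmul]
    by_cases h0 : p.1 = 0 ∨ p.2 = 0
    · rcases h0 with h0 | h0 <;> simp [h0]
    have := mem_antidiagonal.1 hp
    subst e
    rw [cv, map_s2]
    refine Subalgebra.smul_mem _ (s2_mem fun x y e => ?_) _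
    subst e
    simp only [Multiset.mem_cons, Multiset.mem_add, not_or] at hμ h0
    rw [coeff_mul]
    refine sum_mem fun q hq => ?_
    have := mem_antidiagonal.1 hq
    have := card_le_sum hμ.2.1
    have := card_le_sum hμ.2.2
    refine mul_mem (ih' _ _ (by simp only [Multiset.mem_cons, not_or]; exact ⟨by omega, hμ.2.1⟩) ?_)
      (ih' _ _ (by simp only [Multiset.mem_cons, not_or]; exact ⟨by omega, hμ.2.2⟩) ?_) <;>
      simp only [Multiset.sum_cons, Multiset.card_cons, Multiset.sum_add, Multiset.card_add] <;>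
      omega
  · rw [map_s1]
    refine s1_mem fun l ν' e' => ?_
    subst e e'
    rw [coeff_qsmul]
    simp only [Multiset.mem_cons, not_or] at hμ
    refine Subalgebra.smul_mem _ (ih' _ _ (by
      simp only [Multiset.mem_cons, not_or]; exact ⟨by omega, hμ.2.2⟩) ?_) _
    simp only [Multiset.sum_cons, Multiset.card_cons]
    omega

variable {φ : ℂ →ₗ[ℚ] ℚ} (hφ : ∀ q : ℚ, φ q = q)
include hφ

omit hd in
lemma cast_eq {z : ℂ} (hz : z ∈ QQ) : (φ z : ℂ) = z := by
  obtain ⟨q, rfl⟩ := Algebra.mem_bot.1 hz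
  exact congrArg _ (hφ q)

omit hd in
lemma map_mul' {z : ℂ} (hz : z ∈ QQ) (w : ℂ) : φ (z * w) = φ z * φ w := by
  conv_lhs => rw [← cast_eq hφ hz, ← Rat.smul_def, map_smul, smul_eq_mul]

omit hd hφ in
lemma mx_inr (A : ℕ) (c : Multiset ℕ → ℚ) (μ : Multiset ℕ) :
    mx A c (μ.map .inr) = Wf c (μ.map (Gam A)).prod := by
  rw [mx, Multiset.map_map]
  rfl

lemma HH_eq (g : ℕ) {μ : Multiset ℕ} (hμ : μ ≠ 0) :
    HH (fun g x => φ (cc fc g x)) g μ = φ (cc (hc fc) g μ) := by
  rw [coeff_hc hd g hμ le_rfl, map_add, hφ, map_mx, HH, HS]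
  congr 1
  split_ifs with h
  · exact (mx_inr _ _ _).symm
  · have := Multiset.card_pos.2 hμ
    rw [mx_congr (g := fun _ => 0) _ fun x hx => by
      rw [Multiset.card_map] at hx
      rw [cc_eq_zero hd (by omega), map_zero], mx_zero']

lemma cj (h : CCJ (hc fc)) (g n : ℕ) (μ : Fin (n + 1) → ℕ) (hμ : ∀ i, 0 < μ i) :
    CJ (HH fun g x => φ (cc fc g x)) g μ := by
  have h0 : ∀ s : Finset (Fin (n + 1)), 0 ∉ s.val.map μ := fun s hs => by
    obtain ⟨i, -, hi⟩ := Multiset.mem_map.1 hs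
    exact (hμ i).ne' hi
  have hc1 : ∀ i : Fin (n + 1), (univ.erase i).card = n := fun i => by simp
  have h1 := congrArg (fun u => φ (coeff (g + n) u)) (h _ (h0 univ))
  have h2 : Multiset.card (univ.val.map μ) = n + 1 := by simp
  have e : ∀ (m : ℕ) (z : ℂ), φ (m * z) = m * φ z := fun m z => by
    rw [← nsmul_eq_mul, map_nsmul, nsmul_eq_mul]
  simp only [cutF, quadF, joinF, map_add, coeff_qsmul, two_mul (th _), coeff_th, mul_smul_comm,
    s1_val, cv, s2_val, mul_sum (R := ℂ⟦X⟧), map_sum, map_smul, smul_eq_mul,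
    e] at h1
  rw [CJ, HH_eq hd hφ g (Multiset.card_pos.1 (by omega)), cc, h2, Nat.add_succ_sub_one]
  refine Eq.trans ?_ (h1.trans ?_)
  · rw [h2, Fintype.card_fin, ← Finset.sum_eq_multiset_sum]
    push_cast
    ring
  rw [add_comm, ← mul_add, ← sum_add_distrib]
  congr 2
  · refine sum_congr rfl fun i _ => sum_congr rfl fun j hj => ?_
    have h3 := card_erase_add_one hj
    rw [HH_eq hd hφ g Multiset.cons_ne_zero, cc, Multiset.card_cons, Multiset.card_map, card_val,
      show g + n = g + ((univ.erase i).erase j).card + 1 by rw [add_assoc, h3, hc1],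
      coeff_succ_X_mul, Nat.add_succ_sub_one]
  refine sum_congr rfl fun i _ => ?_
  rw [← sum_add_distrib]
  refine sum_congr rfl fun p _ => ?_
  rw [← mul_add]
  rcases Nat.eq_zero_or_pos p.1 with hp | hp
  · rw [hp, Nat.cast_zero, zero_mul, zero_mul, zero_mul]
  congr 2
  · rcases g with _ | g
    · rw [if_pos rfl, coeff_hc_zero hd (by simp), map_zero]
    · rw [if_neg (by omega), HH_eq hd hφ _ Multiset.cons_ne_zero, cc]
      simp only [Multiset.card_cons, Multiset.card_map, card_val, hc1]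
      rw [show g + 1 - 1 + (n + 1 + 1) - 1 = g + 1 + n by omega]
  · rw [sum_comm]
    refine sum_congr rfl fun I hI => ?_
    have h3 := card_sdiff_add_card_eq_card (mem_powerset.1 hI)
    have h4 : ∀ k m (s : Finset (Fin (n + 1))), m < s.card →
        coeff m (hc fc (k ::ₘ s.val.map μ)) = 0 := fun k m s hs => coeff_hc_zero hd (by
      rw [Multiset.card_cons, Multiset.card_map, card_val]; omega)
    rw [show g + n = g + (I.card + (univ.erase i \ I).card) by rw [add_comm I.card, h3, hc1],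
      coeff_mul_of_dvd (fun _ hi => h4 _ _ _ hi) (fun _ hi => h4 _ _ _ hi), map_sum]
    refine sum_congr rfl fun q _ => ?_
    rw [map_mul' hφ (rat hd h _ _ (by simp only [Multiset.mem_cons, not_or]; exact ⟨hp.ne, h0 I⟩)),
      HH_eq hd hφ _ Multiset.cons_ne_zero, HH_eq hd hφ _ Multiset.cons_ne_zero, cc, cc]
    simp only [Multiset.card_cons, Multiset.card_map, card_val, ← add_assoc, Nat.add_sub_cancel]

lemma top (h : CCJ (hc fc)) {g : ℕ} {x : Multiset ℕ} (hx : x.sum + 3 = 3 * g + Multiset.card x) :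
    cc fc g x = φ (cc fc g x) := by
  classical
  rcases eq_or_ne x 0 with rfl | h0
  · have : cc fc g 0 = 0 := by_contra fun h0 => (hd _ _ h0).1 rfl
    rw [this, map_zero, Rat.cast_zero]
  refine sub_eq_zero.1 ((Module.forall_dual_apply_eq_zero_iff ℚ _).1 fun l => ?_)
  let ψ : ℂ →ₗ[ℚ] ℚ := l ∘ₗ (LinearMap.id - Algebra.linearMap ℚ ℂ ∘ₗ φ)
  have hψ : ∀ z ∈ QQ, ψ z = 0 := fun z hz =>
    (congrArg l (sub_eq_zero.2 (cast_eq hφ hz).symm)).trans (map_zero l)
  have hD : Dim fun g x => ψ (cc fc g x) := fun g M hM => by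
    simp only [cc_eq_zero hd hM, map_zero]
  let A := 3 * g + Multiset.card x
  choose w hw0 hw using fun i : x => exists_weight (2 * A + 1) (2 * (i : ℕ) + 1) (by omega)
  have hA : ∀ i : x, (i : ℕ) ≤ A := fun i => by
    have := Multiset.single_le_sum (fun _ _ => Nat.zero_le _) _ (Multiset.coe_mem (x := i))
    omega
  have hf : ∀ (i : x), ∀ a ≤ A, ∑ k ∈ range (2 * A + 1 + 1), w i k * uu a k =
      (xi a).coeff (2 * (i : ℕ) + 1) := fun i a ha => by
    simp only [← sq_xi]
    exact hw i _ ((lead_xi a).1.trans (by omega))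
  have h1 := Ld_prod hD g univ (A := A)
    (fun (i : x) a => ∑ k ∈ range (2 * A + 1 + 1), w i k * uu a k) (fun i => i) (fun i _ => hA i)
    (fun i _ a ha => by rw [hf i a (ha.le.trans (hA i)), (lead_xi a).zero (by omega)]) 0
  rw [Multiset.map_univ_coe, mon_zero, one_mul, zero_add] at h1
  have h2 := Tst_prod (2 * A + 1) w (Wf fun x => ψ (cc fc g x)) fun _ => Gam A
  rw [Tst_congr _ w hw0 (G := 0) fun μ hμ => ?_, map_zero] at h2
  · unfold Gam at h2
    simp only [av_lin] at h2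
    rw [h1 (by simp; omega)] at h2
    refine (mul_eq_zero.1 h2.symm).resolve_left (prod_ne_zero_iff.2 fun i _ => ?_)
    rw [hf i _ (hA i), (lead_xi _).2]
    exact dd_ne _
  · have h3 : Multiset.card (univ.val.map μ) = Multiset.card x := by simp
    have h4 : univ.val.map μ ≠ 0 := Multiset.card_pos.1 (h3 ▸ Multiset.card_pos.2 h0)
    have h5 := congrArg ψ (coeff_hc hd g h4 (A := A) (by rw [h3]))
    rw [map_add, map_mx, mx_inr, Multiset.map_map, cc, hψ _ (rat hd h _ _ fun hs => by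
      obtain ⟨i, -, hi⟩ := Multiset.mem_map.1 hs
      exact (hμ i).ne' hi), hψ (HU g _ : ℚ) (algebraMap_mem QQ _), add_zero] at h5
    exact h5.symm

end RatP

open RatP in
theorem exists_rat {fc : Multiset ℕ → ℂ⟦X⟧} (hd : ∀ x n, coeff n (fc x) ≠ 0 →
      x ≠ 0 ∧ Multiset.card x ≤ n + 1 ∧ x.sum + 2 * Multiset.card x ≤ 3 * n) (h : CCJ (hc fc)) :
    ∃ c : ℕ → Multiset ℕ → ℚ, Dim c ∧
      (∀ g n (μ : Fin (n + 1) → ℕ), (∀ i, 0 < μ i) → CJ (HH c) g μ) ∧
      (∀ g x, x.sum + 3 = 3 * g + Multiset.card x → tp fc x = c g x) ∧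
      ∀ x, (∀ g, x.sum + 3 ≠ 3 * g + Multiset.card x) → tp fc x = 0 := by
  obtain ⟨φ, hφ⟩ := (Algebra.linearMap ℚ ℂ).exists_leftInverse_of_injective
    (LinearMap.ker_eq_bot.2 (algebraMap ℚ ℂ).injective)
  have hφ' : ∀ q : ℚ, φ q = q := fun q => LinearMap.congr_fun hφ q
  refine ⟨fun g x => φ (cc fc g x), fun g M hM => by simp only [cc_eq_zero hd hM, map_zero],
    cj hd hφ' h, fun g x hx => ?_, fun x hx => ?_⟩
  · have e : x.sum + 2 * Multiset.card x = 3 * (g + Multiset.card x - 1) := by omega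
    rw [← top hd hφ' h hx, tp, e, if_pos (dvd_mul_right _ _), Nat.mul_div_cancel_left _ three_pos,
      cc]
  · rw [tp]
    split_ifs with h3
    · by_contra h0
      have := (hd _ _ h0).2.1
      exact hx ((x.sum + 2 * Multiset.card x) / 3 + 1 - Multiset.card x) (by omega)
    · rfl

end Vale.Agent.P269.WK
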