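import Vale.Agent.P269.WK.Def
import Vale.Agent.P269.Fock.Split

/-! The Virasoro constraints of a point from the DVV recursion. -/

namespace Vale.Agent.P269.WK

open Finset Fock

namespace VirP

section mono

variable {K : Type*} [CommRing K] {V : Type*} [AddCommGroup V] [Module K V] {q : Par K V}
  {t : ℕ → V} (ht : ∀ m, q.σ (t m) = t m)

/-- The monomial of a multiset of even generators. -/
noncomputable def mo (x : Multiset ℕ) : S q :=
  @Multiset.foldr _ _ (fun m y => ι q (t m) * y) ⟨fun a b y => by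
    rw [← mul_assoc, ι_comm_ev (ht a), mul_assoc]⟩ 1 x

lemma mo_zero : mo ht 0 = 1 := rfl

lemma mo_cons (m : ℕ) (x : Multiset ℕ) : mo ht (m ::ₘ x) = ι q (t m) * mo ht x :=
  @Multiset.foldr_cons _ _ _ (_) _ _ _

lemma mo_coe (l : List ℕ) : mo ht l = (l.map fun m => ι q (t m)).prod := by
  induction l with
  | nil => rfl
  | cons a l ih => rw [← Multiset.cons_coe, mo_cons, ih, List.map_cons, List.prod_cons]

lemma ext_mo (hs : Submodule.span K (Set.range t) = ⊤) {N : Type*} [AddCommGroup N] [Module K N]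
    {φ : S q →ₗ[K] N} (h : ∀ x, φ (mo ht x) = 0) (y : S q) : φ y = 0 := by
  suffices H : ∀ x, φ (mo ht x * y) = 0 by simpa [mo_zero] using H 0
  induction y using Fock.induction with
  | h1 => simpa using h
  | hι v y hy =>
    have hv : v ∈ Submodule.span K (Set.range t) := hs ▸ Submodule.mem_top
    intro x
    induction hv using Submodule.span_induction with
    | mem v hv =>
      obtain ⟨m, rfl⟩ := hv
      rw [← mul_assoc, ← ι_comm_ev (ht m), ← mo_cons, hy]
    | zero => simp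
    | add v w _ _ hv hw => simp only [map_add, add_mul, mul_add, hv, hw, add_zero]
    | smul c v _ hv => simp only [map_smul, smul_mul_assoc, mul_smul_comm, hv, smul_zero]
  | hadd y z hy hz => intro x; simp only [mul_add, map_add, hy, hz, add_zero]
  | hsmul c y hy => intro x; simp only [mul_smul_comm, map_smul, hy, smul_zero]

lemma mul_s1' {R : Type*} [Ring R] (c : R) (μ : Multiset ℕ) (F : ℕ → Multiset ℕ → R) :
    c * s1 μ F = s1 μ fun x y => c * F x y := map_s1 (AddMonoidHom.mulLeft c) μ F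

variable [Algebra ℚ K]

lemma dv_mo {A : Module.End K V} (hA : IsEv q q A) (x : Multiset ℕ) :
    dv q A (mo ht x) = s1 x fun m ν => ι q (A (t m)) * mo ht ν := by
  induction x using Multiset.induction_on with
  | empty => simp [mo_zero]
  | cons a x ih =>
    rw [mo_cons, dv_ι_mul hA, ih, s1_cons, mul_s1']
    congr 1
    exact s1_congr fun m ν _ => by rw [mo_cons, ← mul_assoc, ι_comm_ev (ht a), mul_assoc]

lemma con_mo (φ : Module.Dual K V) (x : Multiset ℕ) :
    con q φ (mo ht x) = s1 x fun m ν => φ (t m) • mo ht ν := by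
  induction x using Multiset.induction_on with
  | empty => simp [mo_zero]
  | cons a x ih =>
    rw [mo_cons, con_ι_mul_ev _ (ht a), ih, s1_cons, mul_s1']
    simp only [mo_cons, mul_smul_comm]

lemma con2_mo (Q : SymB q) (x : Multiset ℕ) : con2 q Q (mo ht x) + con2 q Q (mo ht x) =
    s1 x fun a ν => s1 ν fun b ν' => Q.1 (t a) (t b) • mo ht ν' := by
  induction x using Multiset.induction_on with
  | empty => simp [mo_zero]
  | cons c x ih =>
    have e : ∀ a, Q.1 (t a) (t c) = Q.1 (t c) (t a) := fun a => by rw [Q.2 (t a) (t c), ht]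
    rw [mo_cons, con2_ι_mul, add_add_add_comm, ← mul_add, ih, con_mo]
    simp only [s1_cons, s1_add, mul_s1', mo_cons, mul_smul_comm, e]
    abel

end mono

lemma hf_eq : hf ℂ = 1 / 2 := by simp [hf]

lemma esy_zero (k : ℕ) (x : ℂ) : esyK k 0 x = ∏ j ∈ range k, (x + j) := by
  induction k with
  | zero => simp [esyK]
  | succ k ih => rw [esyK_succ_zero, ih, prod_range_succ, mul_comm]

lemma pr_pos (k m : ℕ) :
    2 ^ k * ∏ j ∈ range k, ((m : ℂ) + 1 / 2 + j) = ((dd (k + m) / dd m : ℚ) : ℂ) := by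
  induction k with
  | zero => simp [dd_ne]
  | succ k ih =>
    rw [prod_range_succ, pow_succ, mul_mul_mul_comm, ih, show k + 1 + m = k + m + 1 by ring,
      dd_succ]
    push_cast
    ring

lemma pr_neg0 (m : ℕ) :
    2 ^ m * ∏ j ∈ range m, (-(m : ℂ) + 1 / 2 + j) = (-1) ^ m * ((dd m : ℚ) : ℂ) := by
  induction m with
  | zero => simp [dd_zero]
  | succ m ih =>
    rw [prod_range_succ', pow_succ, mul_mul_mul_comm, prod_congr rfl
      (g := fun j : ℕ => -(m : ℂ) + 1 / 2 + j) fun j _ => by push_cast; ring, ih, dd_succ]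
    push_cast
    ring

lemma pr_neg (m n : ℕ) : 2 ^ (m + n) * ∏ j ∈ range (m + n), (-(m : ℂ) + 1 / 2 + j) =
    (-1) ^ m * ((dd m * dd n : ℚ) : ℂ) := by
  induction n with
  | zero => simp only [add_zero, pr_neg0, dd_zero, mul_one]
  | succ n ih =>
    rw [← add_assoc, prod_range_succ, pow_succ, mul_mul_mul_comm, ih, dd_succ]
    push_cast
    ring

section pt

variable {H : Type} [AddCommGroup H] [Module ℂ H] {p : Par ℂ H} {κ : Type} [Fintype κ]
  {fr : Frame p κ} (hpt : ∀ v, v = fr.η fr.one v • fr.one) (h1 : fr.η fr.one fr.one = 1)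
  (vd : VD fr)

variable (fr) in
/-- The generators. -/
noncomputable def tt (m : ℕ) : VV H := Finsupp.single m fr.one

variable (fr) in
lemma σ_tt (m : ℕ) : (p.fs ℕ).σ (tt fr m) = tt fr m := by simp [tt, fr.hone]

include hpt

lemma span_tt : Submodule.span ℂ (Set.range (tt fr)) = ⊤ := by
  refine eq_top_iff.2 fun v _ => ?_
  induction v using Finsupp.induction_linear with
  | zero => exact zero_mem _
  | add a b ha hb => exact add_mem (ha trivial) (hb trivial)
  | single m w =>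
    rw [hpt w, ← Finsupp.smul_single]
    exact Submodule.smul_mem _ _ (Submodule.subset_span ⟨m, rfl⟩)

include h1

lemma μ_eq : vd.μ = 0 := by
  have e := vd.adjμ fr.one fr.one
  rw [hpt (vd.μ fr.one)] at e
  simp only [map_smul, LinearMap.smul_apply, h1, smul_eq_mul, mul_one] at e
  ext v
  rw [hpt v, map_smul, hpt (vd.μ fr.one), eq_zero_of_eq_neg (K := ℂ) e]
  simp

lemma ρ_eq : vd.ρ = 0 := by simpa [μ_eq hpt h1 vd] using vd.comm.symm

lemma sum_ef : ∑ a, fr.η fr.one (fr.e a) * fr.η fr.one (fr.f a) = 1 := by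
  have e := congrArg (fr.η fr.one) (fr.left fr.one)
  rw [h1, map_sum] at e
  rw [← e]
  refine sum_congr rfl fun a _ => ?_
  conv_rhs => rw [hpt (fr.f a)]
  simp [h1, mul_comm]

lemma c0_eq : vd.c0 = 1 / 16 := by
  have e : fr.str 1 = 1 := by
    rw [Frame.str_apply, ← sum_ef hpt h1]
    refine sum_congr rfl fun a _ => ?_
    conv_lhs => rw [hpt (fr.e a)]
    simp
  rw [VD.c0, μ_eq hpt h1 vd, mul_zero, zero_sub, map_neg, map_smul, e, hf_eq]
  norm_num

lemma ell_one (k : ℕ) (m : ℤ) : vd.ell k (Finsupp.single m fr.one) =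
    (∏ j ∈ range k, ((m : ℂ) + 1 / 2 + j)) • Finsupp.single (m + k - 1) fr.one := by
  rw [vd.ell_single (x := 0) (by simp [μ_eq hpt h1 vd]), sum_range_succ', ρ_eq hpt h1 vd, esy_zero,
    hf_eq]
  simp

lemma blk_tt (k m : ℕ) : (2 : ℂ) ^ k • Frame.blk (vd.ell k) (tt fr m) =
    if k + m = 0 then 0 else ((dd (k + m) / dd m : ℚ) : ℂ) • tt fr (k + m - 1) := by
  rw [Frame.blk, LinearMap.comp_apply, LinearMap.comp_apply, tt, up_single, ell_one hpt h1,
    map_smul, smul_smul, Int.cast_natCast, pr_pos]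
  split_ifs with h
  · rw [pos_single_neg (by omega), smul_zero]
  · rw [show (m : ℤ) + k - 1 = (k + m - 1 : ℕ) by omega, pos_single_nat, tt]

lemma neg_tt (k a b : ℕ) :
    fr.neg (vd.ell k (up ℂ H (tt fr a))) (tt fr b) = if k = 0 ∧ a = 0 ∧ b = 0 then 1 else 0 := by
  rw [tt, tt, up_single, ell_one hpt h1, map_smul, LinearMap.smul_apply, Frame.neg_apply, up_single,
    Frame.Ω_single]
  by_cases h : k = 0 ∧ a = 0 ∧ b = 0
  · obtain ⟨rfl, rfl, rfl⟩ := h
    simp [h1]
  · rw [if_neg h, if_neg (by omega), smul_zero]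

lemma neg_dil (k : ℕ) : fr.neg (vd.ell k (up ℂ H fr.dil)) = 0 := by
  rw [Frame.dil, up_single, ell_one hpt h1, show ((1 : ℕ) : ℤ) + k - 1 = k by omega, map_smul,
    ← up_single (K := ℂ), Frame.neg_up, smul_zero]

lemma cas_ell (k : ℕ) : (2 : ℂ) ^ k • fr.cas (vd.ell k) = (1 / 2 : ℂ) • ∑ a ∈ range (k - 1),
    ((dd (a + 1) * dd (k - 2 - a + 1) : ℚ) : ℂ) • (ι _ (tt fr a) * ι _ (tt fr (k - 2 - a))) := by
  rw [Frame.cas_eq (N := k - 1) fun m hm v => (vd.up_ell k).fin m (by omega) v, hf_eq, smul_comm,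
    smul_sum]
  congr 1
  refine sum_congr rfl fun m hm => ?_
  obtain ⟨n, rfl⟩ : ∃ n, k = m + 1 + (n + 1) := ⟨k - 2 - m, by have := mem_range.1 hm; omega⟩
  have e : ∀ a, (2 : ℂ) ^ (m + 1 + (n + 1)) • (-1 : ℂ) ^ (m + 1) •
      (ι (p.fs ℕ) (Finsupp.single m (fr.e a)) * ι _ (pos ℂ H (vd.ell (m + 1 + (n + 1))
        (Finsupp.single (-(m : ℤ) - 1) (fr.f a))))) =
      (fr.η fr.one (fr.e a) * fr.η fr.one (fr.f a)) • ((dd (m + 1) * dd (n + 1) : ℚ) : ℂ) •
        (ι _ (tt fr m) * ι _ (tt fr n)) := fun a => by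
    have e1 := pr_neg (m + 1) (n + 1)
    conv_lhs => rw [hpt (fr.e a), hpt (fr.f a), ← Finsupp.smul_single, ← Finsupp.smul_single,
      map_smul, map_smul, ell_one hpt h1,
      show -(m : ℤ) - 1 + (m + 1 + (n + 1) : ℕ) - 1 = n by omega,
      show -(m : ℤ) - 1 = -(m + 1 : ℕ) by omega, Int.cast_neg, Int.cast_natCast]
    simp only [map_smul, pos_single_nat, smul_mul_assoc, smul_smul, mul_smul_comm, tt]
    congr 1
    linear_combination ((-1) ^ (m + 1) * fr.η fr.one (fr.e a) * fr.η fr.one (fr.f a)) * e1 +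
      (fr.η fr.one (fr.e a) * fr.η fr.one (fr.f a) * ((dd (m + 1) * dd (n + 1) : ℚ) : ℂ)) *
        neg_one_pow_mul_self (K := ℂ) (m + 1)
  rw [Frame.casT, smul_sum, sum_congr rfl fun a _ => e a, ← sum_smul, sum_ef hpt h1, one_smul,
    show m + 1 + (n + 1) - 2 - m = n by omega]

end pt

end VirP

open VirP in
theorem virC_of_ddv {H : Type} [AddCommGroup H] [Module ℂ H] {p : Par ℂ H} {κ : Type} [Fintype κ]
    {fr : Frame p κ} (hpt : ∀ v, v = fr.η fr.one v • fr.one) (h1 : fr.η fr.one fr.one = 1)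
    (vd : VD fr) {Z : ℤ → S (p.fs ℕ) →ₗ[ℂ] ℂ} {z : Multiset ℕ → ℂ} (hz : DDV z)
    (hZ : ∀ (j : ℤ) (l : List ℕ), Z j (l.map fun m => ι _ (Finsupp.single m fr.one)).prod =
      if (l.sum : ℤ) = 3 * j + l.length then z l else 0) : vd.VirC Z := by
  intro k j y
  have hZ' : ∀ (j : ℤ) (x : Multiset ℕ), Z j (mo (σ_tt fr) x) =
      if (x.sum : ℤ) = 3 * j + Multiset.card x then z x else 0 := fun j x => by
    induction x using Quot.inductionOn with
    | h l => simpa [mo_coe, tt] using hZ j l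
  refine ext_mo (σ_tt fr) (span_tt hpt) (φ := Z j ∘ₗ (fr.q0 (vd.ell k) +
    (if k = 1 then vd.c0 else 0) • 1) + Z (j + 1) ∘ₗ fr.qm (vd.ell k) +
      Z (j - 1) ∘ₗ fr.q1 (vd.ell k)) (fun x => ?_) y
  let w : ℂ := if (k : ℤ) + x.sum = 3 * j + Multiset.card x + 1 then 1 else 0
  have hw : ∀ (i : ℤ) (ν : Multiset ℕ),
      (ν.sum : ℤ) + 3 * j + Multiset.card x + 1 = k + x.sum + 3 * i + Multiset.card ν →
      Z i (mo (σ_tt fr) ν) = w * z ν := fun i ν h => by
    rw [hZ', ite_mul, one_mul, zero_mul]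
    exact if_congr (by omega) rfl rfl
  have e0 : 2 ^ k * Z j (dv _ (Frame.blk (vd.ell k)) (mo (σ_tt fr) x)) = w * s1 x fun m ν =>
      if k + m = 0 then 0 else (dd (k + m) / dd m) • z ((k + m - 1) ::ₘ ν) := by
    rw [dv_mo _ (vd.quad_ell k).isEv_blk, map_s1, mul_s1, mul_s1]
    refine s1_congr fun m ν e => ?_
    rw [← smul_eq_mul, ← map_smul, ← smul_mul_assoc, ← map_smul, blk_tt hpt h1]
    split_ifs with h
    · simp
    · subst e
      rw [map_smul, smul_mul_assoc, map_smul, ← mo_cons, hw _ _ (by simp; omega), Rat.smul_def,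
        smul_eq_mul, mul_left_comm]
  have e1 : 2 ^ k * Z j (ι _ (Frame.blk (vd.ell k) fr.dil) * mo (σ_tt fr) x) =
      w * dd (k + 1) • z (k ::ₘ x) := by
    have := blk_tt hpt h1 vd k 1
    rw [if_neg (by omega), show dd 1 = 1 by simp [dd], div_one, Nat.add_sub_cancel] at this
    rw [← smul_eq_mul, ← map_smul, ← smul_mul_assoc, ← map_smul, Frame.dil, ← tt, this, map_smul,
      smul_mul_assoc, map_smul, ← mo_cons, hw _ _ (by simp; omega), Rat.smul_def, smul_eq_mul,
      mul_left_comm]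
  have e2 : 2 ^ k * Z j ((if k = 1 then vd.c0 else 0) • mo (σ_tt fr) x) =
      w * if k = 1 then 1 / 8 * z x else 0 := by
    split_ifs with h
    · subst h
      rw [map_smul, hw _ _ (by omega), c0_eq hpt h1, smul_eq_mul]; ring
    · simp
  have e3 : 2 ^ k * Z (j + 1) (fr.qm (vd.ell k) (mo (σ_tt fr) x)) = w * if k = 0 then
      1 / 2 * s1 x fun a ν => s1 ν fun b ν' => if a = 0 ∧ b = 0 then z ν' else 0 else 0 := by
    have := congrArg (Z (j + 1)) (con2_mo (σ_tt fr) (fr.qf (vd.ell k)) x)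
    simp only [map_add, map_s1, map_smul, (vd.quad_ell k).qf_val, neg_tt hpt h1] at this
    rw [Frame.qm, neg_dil hpt h1, map_zero, sub_zero]
    split_ifs with h
    · subst h
      rw [s1_congr (G := fun a ν => w * s1 ν fun b ν' => if a = 0 ∧ b = 0 then z ν' else 0)
        fun a ν e => ?_, ← mul_s1] at this
      · linear_combination 1 / 2 * this
      · rw [mul_s1]
        refine s1_congr fun b ν' e' => ?_
        by_cases h : a = 0 ∧ b = 0
        · subst e e'
          obtain ⟨rfl, rfl⟩ := h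
          rw [hw _ _ (by simp; omega)]; simp
        · simp [h]
    · simp only [h, false_and, if_false, zero_smul, s1_zero'] at this
      linear_combination 2 ^ k / 2 * this
  have e4 : 2 ^ k * Z (j - 1) (fr.q1 (vd.ell k) (mo (σ_tt fr) x)) = w * (1 / 2 : ℚ) •
      ∑ a ∈ range (k - 1), (dd (a + 1) * dd (k - 2 - a + 1)) • z (a ::ₘ (k - 2 - a) ::ₘ x) := by
    rw [Frame.q1, LinearMap.mulLeft_apply, ← smul_eq_mul, ← map_smul, ← smul_mul_assoc,
      cas_ell hpt h1, smul_mul_assoc, map_smul, sum_mul, map_sum, Rat.smul_def, mul_left_comm,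
      mul_sum, smul_eq_mul]
    congr 1
    · simp
    refine sum_congr rfl fun a ha => ?_
    have := mem_range.1 ha
    rw [smul_mul_assoc, mul_assoc, ← mo_cons, ← mo_cons, map_smul, hw _ _ (by simp; omega),
      Rat.smul_def, smul_eq_mul, mul_left_comm]
  have e := hz k x
  rw [dvL] at e
  refine (mul_eq_zero.1 ?_).resolve_left (pow_ne_zero k two_ne_zero)
  simp only [LinearMap.add_apply, LinearMap.comp_apply, Frame.q0, LinearMap.sub_apply,
    LinearMap.mulLeft_apply, LinearMap.smul_apply, Module.End.one_apply, map_add, map_sub]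
  linear_combination e0 - e1 + e2 + e3 + e4 - w * e

end Vale.Agent.P269.WK
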