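import Vale.Agent.P269.WK.Fac
import Vale.Agent.P269.WK.Dcj
import Vale.Agent.P269.WK.Conn
import Vale.Agent.P269.WK.Rat
import Vale.Agent.P269.WK.Cdv
import Vale.Agent.P269.WK.Vir

/-! The algebraic part of the proof of the Witten-Kontsevich theorem. -/

namespace Vale.Agent.P269.WK

open Finset PowerSeries Fock

theorem ddv_of_bil {f fc g gc : Multiset ℕ → ℂ⟦X⟧} (hf : Vx f fc) (h0 : fc 0 = 0) (hg : Vx g gc)
    (hb : Bil f g) : DDV (tp f) := by
  have h1 : CCJ (hc fc) := by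
    refine ccj_of_dcj ?_ (fun e => ?_) (fun k μ => ?_) (dcj_of_bil hf hg hb)
    · simp [hc, ser_zero, h0, HU]
    · have := hf.one
      rw [hv, Multiset.map_zero, GG_zero, ser_zero] at e
      simp [e] at this
    · simp only [hc, Multiset.card_cons, Nat.add_sub_cancel]
      exact GG_prod hf.ser_prod k μ
  obtain ⟨c, h2, h3, h4, h5⟩ := exists_rat hf.dim h1
  exact ddv_of_cdv hf.tp_prod (cdv_of_cj h2 h3 h4 h5)

/-- The Virasoro constraints of a point follow from the bilinear relation. -/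
theorem virC_of_bil {V C V' C' : ℤ → ℕ → Multiset ℕ → ℂ} (h : Raw V C) (h' : Raw V' C') {w w' : ℂ}
    (hb : Bil (vtx w V) (vtx w' V')) {H : Type} [AddCommGroup H] [Module ℂ H] {p : Par ℂ H}
    {κ : Type} [Fintype κ] {fr : Frame p κ} (hpt : IsPt fr) (vd : VD fr)
    {Z : ℤ → S (p.fs ℕ) →ₗ[ℂ] ℂ} (hZ : ∀ (j : ℤ) (l : List ℕ),
      Z j (l.map fun m => ι _ (Finsupp.single m fr.one)).prod = V j 0 l) : vd.VirC Z :=
  virC_of_ddv hpt.eq hpt.one vd (ddv_of_bil (h.vx w) (if_pos rfl) (h'.vx w') hb) fun j l => by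
    simpa [hZ] using h.tp_vtx w j l

end Vale.Agent.P269.WK
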