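import Vale.Agent.P269.WK.Ms
import Mathlib.RingTheory.PowerSeries.Derivative
import Mathlib.Data.Complex.Basic

/-! Definitions for the proof of the Witten-Kontsevich theorem by localisation on the projective
line: vertex series, edge operators, the bilinear relation. The variable `X` of the power series
counts `g - 1 +` (number of marked points). -/

namespace Vale.Agent.P269.WK

open Finset PowerSeries

/-- The functional on `SS` with given values on the monomials. -/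
noncomputable def Wc {M : Type*} [AddCommGroup M] [Module ℚ M] (f : Multiset ℕ → M) :
    SS →ₗ[ℚ] M :=
  (MvPolynomial.basisMonomials ℕ ℚ).constr ℚ fun m => f (Finsupp.toMultiset m)

section Wc

variable {M N : Type*} [AddCommGroup M] [Module ℚ M] [AddCommGroup N] [Module ℚ N]

lemma Wc_mon (f : Multiset ℕ → M) (x : Multiset ℕ) : Wc f (mon x) = f x := by
  have := (MvPolynomial.basisMonomials ℕ ℚ).constr_basis ℚ
    (fun m => f (Finsupp.toMultiset m)) (Multiset.toFinsupp x)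
  simpa [mon_eq, Wc] using this

lemma SS_ext {φ ψ : SS →ₗ[ℚ] M} (h : ∀ x, φ (mon x) = ψ (mon x)) : φ = ψ :=
  (MvPolynomial.basisMonomials ℕ ℚ).ext fun m => by
    simpa [mon_eq] using h (Finsupp.toMultiset m)

lemma map_Wc (φ : M →ₗ[ℚ] N) (f : Multiset ℕ → M) (P : SS) :
    φ (Wc f P) = Wc (fun x => φ (f x)) P :=
  LinearMap.congr_fun (SS_ext (φ := φ ∘ₗ Wc f) fun x => by simp [Wc_mon]) P

lemma Wc_eq_Wf (c : Multiset ℕ → ℚ) : Wc c = Wf c := rfl

lemma mon_add (x y : Multiset ℕ) : mon (x + y) = mon x * mon y := by simp [mon]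

end Wc

/-- Symbols: `inl m` is `psi^m`, `inr k` is `k^k/k! / (1 - k psi)`. -/
abbrev Sy : Type := ℕ ⊕ ℕ

/-- The truncated expansion of a symbol. -/
noncomputable def exS (N : ℕ) : Sy → SS
  | .inl m => MvPolynomial.X m
  | .inr k => Gam N k

/-- A vertex series evaluated on symbols. -/
noncomputable def ser (f : Multiset ℕ → ℂ⟦X⟧) (z : Multiset Sy) : ℂ⟦X⟧ :=
  mk fun n => coeff n (Wc f (z.map (exS (3 * n))).prod)

/-- A free end of an edge of degree `k`. -/
def c1 (k : ℕ) : ℚ := uu 0 k / (k : ℚ) ^ 2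

/-- An end of an edge of degree `k` that carries a symbol. -/
def ph (k : ℕ) : Sy → ℚ
  | .inl m => uu 0 k / k * (-1 / k) ^ m
  | .inr l => h2 k l

/-- Attaching an edge of degree `k`. -/
noncomputable def al (k : ℕ) (g : Multiset Sy → ℂ⟦X⟧) (z : Multiset Sy) : ℂ⟦X⟧ :=
  g (.inr k ::ₘ z) + c1 k • g z + X * s1 z fun s z' => ph k s • g z'

instance : LeftCommutative al := ⟨fun k l g => funext fun z => by
  have e := s1_comm z fun s s' z' => X * (X * ((ph k s * ph l s') • g z'))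
  have e' : ph l (.inr k) = ph k (.inr l) := h2_comm l k
  simp only [al, s1_cons, e', smul_add, mul_add, s1_add, smul_s1, mul_s1, smul_smul,
    Multiset.cons_swap (Sum.inr l) (Sum.inr k), mul_smul_comm, mul_comm (c1 l) (c1 k),
    mul_comm (ph l _) (ph k _), mul_comm (ph _ _) (c1 _)] at e ⊢
  rw [e]
  abel⟩

/-- Attaching edges of degrees `μ`. -/
noncomputable def GG (g : Multiset Sy → ℂ⟦X⟧) (μ : Multiset ℕ) : Multiset Sy → ℂ⟦X⟧ :=
  μ.foldr al g

@[simp] lemma GG_zero (g : Multiset Sy → ℂ⟦X⟧) : GG g 0 = g := rfl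

lemma GG_cons (g : Multiset Sy → ℂ⟦X⟧) (k : ℕ) (μ : Multiset ℕ) :
    GG g (k ::ₘ μ) = al k (GG g μ) := Multiset.foldr_cons _ _ _ _

/-- The contribution of one fixed point: insertions `x`, edges `μ`. -/
noncomputable def hv (f : Multiset ℕ → ℂ⟦X⟧) (x μ : Multiset ℕ) : ℂ⟦X⟧ :=
  GG (ser f) μ (x.map .inl)

/-- The connected contribution without insertions. -/
noncomputable def hc (fc : Multiset ℕ → ℂ⟦X⟧) (μ : Multiset ℕ) : ℂ⟦X⟧ :=
  ser fc (μ.map .inr) + HU 0 μ • X ^ (Multiset.card μ - 1)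

/-- The Euler operator. -/
noncomputable def th (u : ℂ⟦X⟧) : ℂ⟦X⟧ := X * derivative ℂ u

lemma coeff_th (n : ℕ) (u : ℂ⟦X⟧) : coeff n (th u) = n * coeff n u := by
  cases n with
  | zero => simp [th]
  | succ n => rw [th, coeff_succ_X_mul, coeff_derivative, mul_comm]; simp

lemma th_mul (u v : ℂ⟦X⟧) : th (u * v) = th u * v + u * th v := by
  simp only [th, Derivation.leibniz, smul_eq_mul]; ring

/-- The coefficient with an integer index. -/
noncomputable def cz (e : ℤ) : ℂ⟦X⟧ →ₗ[ℂ] ℂ := if 0 ≤ e then coeff e.toNat else 0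

@[simp] lemma cz_nat (n : ℕ) : cz n = coeff n := by simp [cz]

lemma cz_neg {e : ℤ} (h : e < 0) : cz e = 0 := if_neg h.not_ge

lemma cz_X_mul (e : ℤ) (u : ℂ⟦X⟧) : cz e (X * u) = cz (e - 1) u := by
  rcases lt_trichotomy e 0 with h | rfl | h
  · rw [cz_neg h, cz_neg (by omega)]; rfl
  · rw [cz_neg (e := 0 - 1) (by omega)]; simp [cz]
  · obtain ⟨n, rfl⟩ : ∃ n : ℕ, e = (n + 1 : ℕ) := ⟨(e - 1).toNat, by omega⟩
    rw [cz_nat, coeff_succ_X_mul, show ((n + 1 : ℕ) : ℤ) - 1 = n by omega, cz_nat]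

/-- A vertex: disconnected series `f`, connected series `fc`. -/
structure Vx (f fc : Multiset ℕ → ℂ⟦X⟧) : Prop where
  prod : ∀ k x, f (k ::ₘ x) = cv (fun y => fc (k ::ₘ y)) f x
  dim : ∀ x n, coeff n (fc x) ≠ 0 →
    x ≠ 0 ∧ Multiset.card x ≤ n + 1 ∧ x.sum + 2 * Multiset.card x ≤ 3 * n
  one : coeff 0 (f 0) = 1
  dil : ∃ κ : ℂ, ∀ x, f (1 ::ₘ x) = X * (2 * th (f x) + (κ - Multiset.card x) • f x)

/-- The bilinear relation: vanishing of the invariants of negative degree. -/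
def Bil (f g : Multiset ℕ → ℂ⟦X⟧) : Prop :=
  ∀ (d : ℕ) (j : ℤ) (x y : Multiset ℕ), ((x.sum + y.sum : ℕ) : ℤ) < 2 * j + 2 * d →
    ∑ μ ∈ Pt d, (wg μ * (-1) ^ Multiset.card μ) •
      cz (j + Multiset.card x + Multiset.card y + Multiset.card μ) (hv f x μ * hv g y μ) = 0

/-- The disconnected cut-and-join equation. -/
def DCJ (E : Multiset ℕ → ℂ⟦X⟧) : Prop :=
  ∀ μ : Multiset ℕ, 0 ∉ μ → (((μ.sum : ℕ) : ℚ) - Multiset.card μ) • E μ + 2 * th (E μ) = cutF E μ + X * joinF E μ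

/-- The connected cut-and-join equation. -/
def CCJ (H : Multiset ℕ → ℂ⟦X⟧) : Prop :=
  ∀ μ : Multiset ℕ, 0 ∉ μ → (((μ.sum : ℕ) : ℚ) - Multiset.card μ) • H μ + 2 * th (H μ) =
    cutF H μ + quadF H μ + X * joinF H μ

/-- The top degree part. -/
noncomputable def tp (f : Multiset ℕ → ℂ⟦X⟧) (x : Multiset ℕ) : ℂ :=
  if 3 ∣ x.sum + 2 * Multiset.card x then coeff ((x.sum + 2 * Multiset.card x) / 3) (f x) else 0

/-- The linear terms of the recursion. -/
noncomputable def dvL (t : Multiset ℕ → ℂ) (k : ℕ) (x : Multiset ℕ) : ℂ :=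
  s1 x (fun m ν => if k + m = 0 then 0 else (dd (k + m) / dd m) • t ((k + m - 1) ::ₘ ν)) +
    (1 / 2 : ℚ) • ∑ a ∈ range (k - 1),
      (dd (a + 1) * dd (k - 2 - a + 1)) • t (a ::ₘ (k - 2 - a) ::ₘ x)

/-- The connected DVV recursion. -/
def CDV (t : Multiset ℕ → ℂ) : Prop :=
  ∀ k x, dd (k + 1) • t (k ::ₘ x) = dvL t k x +
    (1 / 2 : ℚ) • ∑ a ∈ range (k - 1), (dd (a + 1) * dd (k - 2 - a + 1)) •
      cv (fun y => t (a ::ₘ y)) (fun y => t ((k - 2 - a) ::ₘ y)) x +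
    (if k = 1 ∧ x = 0 then 1 / 8 else 0) + if k = 0 ∧ x = {0, 0} then 1 else 0

/-- The disconnected DVV recursion. -/
def DDV (z : Multiset ℕ → ℂ) : Prop :=
  ∀ k x, dd (k + 1) • z (k ::ₘ x) = dvL z k x + (if k = 1 then 1 / 8 * z x else 0) +
    if k = 0 then 1 / 2 * s1 x fun a ν => s1 ν fun b ν' => if a = 0 ∧ b = 0 then z ν' else 0 else 0

end Vale.Agent.P269.WK
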