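import Vale.Agent.P269.WK.Mo
import Vale.Agent.P269.WK.Def
import Vale.Agent.P269.B.Iface

/-! The edge operators of the projective line acting on monomials. -/

set_option linter.unusedSectionVars false

namespace Vale.Agent.P269.WK

open Finset Fock B

/-- The edge of degree `k + 1` that starts at `i`. -/
def ed (i : Fin 2) (k : ℕ) : Edge (Fin 2) := ⟨i, i.rev, k, by revert i; decide⟩

lemma ed_rev (i : Fin 2) (k : ℕ) : (ed i k).rev = ed i.rev k := by
  simp [ed, Edge.rev]

/-- All edges. -/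
def edE : Fin 2 × ℕ ≃ Edge (Fin 2) where
  toFun x := ed x.1 x.2
  invFun e := (e.src, e.deg)
  left_inv _ := rfl
  right_inv := by
    rintro ⟨i, j, k, h⟩
    have : ∀ i j : Fin 2, i ≠ j → i.rev = j := by decide
    simp [ed, this i j h]

/-- The end of an edge that is not a node, acting on functions of the symbols. -/
noncomputable def bo {M : Type*} [AddCommGroup M] [Module ℚ M] (k : ℕ) (Ψ : Multiset Sy → M)
    (z : Multiset Sy) : M := c1 k • Ψ z + s1 z fun s ν => ph k s • Ψ ν

section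

variable {K : Type*} [Field K] [Algebra ℚ K] {H : Type*} [AddCommGroup H] [Module K H]
  {p : Par K H} {κ : Type*} [Fintype κ] {fr : Frame p κ} {C : Type*} [CommRing C] [Algebra K C]

variable (fr) in
/-- The cohomology of a point. -/
structure IsPt : Prop where
  eq : ∀ v, v = fr.η fr.one v • fr.one
  one : fr.η fr.one fr.one = 1

lemma IsPt.ev (h : IsPt fr) : Ev p := ⟨fun v => by rw [h.eq v, map_smul, fr.hone]⟩

lemma IsPt.η_eq (h : IsPt fr) (v w : H) : fr.η v w = fr.η fr.one v * fr.η fr.one w := by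
  conv_lhs => rw [h.eq v, map_smul, LinearMap.smul_apply, smul_eq_mul]

lemma IsPt.sum (h : IsPt fr) : ∑ a, fr.η fr.one (fr.e a) * fr.η fr.one (fr.f a) = 1 := by
  have := congrArg (fr.η fr.one) (fr.left fr.one)
  simp only [map_sum, map_smul, smul_eq_mul, h.one] at this
  rw [← this]
  exact sum_congr rfl fun a _ => by rw [h.η_eq (fr.f a), h.one]; ring

/-- The tangent weight at the fixed point `i`. -/
def tw (x : Fin 2 → K) (i : Fin 2) : K := x i.rev - x i

lemma tw_rev (x : Fin 2 → K) (i : Fin 2) : tw x i.rev = -tw x i := by simp [tw]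

lemma inv_alg (a : K) : Ring.inverse (algebraMap K C a) = algebraMap K C a⁻¹ := by
  rcases eq_or_ne a 0 with rfl | h
  · simp
  · have : algebraMap K C a * algebraMap K C a⁻¹ = 1 := by rw [← map_mul, mul_inv_cancel₀ h, map_one]
    rw [← one_mul (Ring.inverse _), ← this, mul_right_comm,
      Ring.mul_inverse_cancel _ (IsUnit.of_mul_eq_one _ this), one_mul]

variable (x : Fin 2 → K) (ac : Act fr C)

variable (C) in
/-- The equivariant classes. -/
noncomputable def χ (i : Fin 2) : C := algebraMap K C (x i)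

lemma eu_eq (i : Fin 2) : B.eu (χ C x) i = algebraMap K C (tw x i) := by
  have : ∀ i : Fin 2, univ.erase i = {i.rev} := by decide
  simp [B.eu, this, χ, tw]

lemma pe_eq (i : Fin 2) (k : ℕ) : pe K (χ C x) (ed i k) = algebraMap K C (tw x i / (k + 1)) := by
  simp only [pe, ed, χ, tw, ← map_sub, Algebra.smul_def, ← map_mul]
  congr 1
  rw [map_div₀, map_one, map_add, map_natCast, map_one]
  ring

/-- The edge factor. -/
noncomputable def eK (s : K) (k : ℕ) : K :=
  (-1) ^ (k + 1) * ((k : K) + 1) ^ (2 * k + 1) / (((k + 1).factorial : K) ^ 2 * s ^ (2 * k + 2))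

lemma tw_ne {x : Fin 2 → K} (hx : x 0 ≠ x 1) (i : Fin 2) : tw x i ≠ 0 := by
  fin_cases i <;> simp [tw, sub_eq_zero, hx, hx.symm]

lemma succ_ne (k : ℕ) : (k : K) + 1 ≠ 0 := by
  have : CharZero K := algebraRat.charZero K
  exact_mod_cast k.succ_ne_zero

lemma ee_eq {x : Fin 2 → K} (hx : x 0 ≠ x 1) (i : Fin 2) (k : ℕ) :
    ee K (χ C x) (ed i k) = algebraMap K C (eK (tw x i) k) := by
  have : CharZero K := algebraRat.charZero K
  have hs := tw_ne hx i
  have hk := succ_ne (K := K) k
  have hf : ((k + 1).factorial : K) ≠ 0 := by exact_mod_cast Nat.factorial_ne_zero _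
  have h1 : univ.erase i = {i.rev} := by fin_cases i <;> decide
  have h2 : i.rev ≠ i := by fin_cases i <;> decide
  have e1 : ∀ (s : Finset (Fin 2 × ℕ)) a (f : _ → C),
      ∏ y ∈ s.erase a, f y = ∏ y ∈ s, if y = a then 1 else f y := fun s a f => by
    rw [← filter_ne', prod_filter]
    exact prod_congr rfl fun y _ => by simp
  have e2 : ∏ n ∈ range (k + 1), ((n : K) + 1) = (k + 1).factorial := by
    rw [← prod_range_add_one_eq_factorial]; push_cast; rfl
  have e3 : ∏ n ∈ range (k + 1), (x i - x i - ((n + 1 : ℕ) : K) * (tw x i / (k + 1))) =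
      (k + 1).factorial * (-(tw x i / (k + 1))) ^ (k + 1) := by
    rw [← e2, ← card_range (k + 1), ← prod_const, card_range, ← prod_mul_distrib]
    exact prod_congr rfl fun n _ => by push_cast; ring
  have e4 : ∏ n ∈ range (k + 1), (x i.rev - x i - (n : K) * (tw x i / (k + 1))) =
      (k + 1).factorial * (tw x i / (k + 1)) ^ (k + 1) := by
    rw [← e2, ← card_range (k + 1), ← prod_const, card_range, ← prod_mul_distrib,
      ← prod_range_reflect]
    refine prod_congr rfl fun n hn => ?_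
    obtain ⟨m, rfl⟩ : ∃ m, k = n + m := ⟨k - n, by have := mem_range.1 hn; omega⟩
    rw [show n + m + 1 - 1 - n = m by omega, ← tw]
    push_cast at hk ⊢
    field_simp
    ring
  rw [ee, pe_eq, e1, e1, prod_product, ← mul_prod_erase _ _ (mem_univ i), h1, prod_singleton,
    prod_range_succ', prod_range_succ _ ((ed i k).deg + 1)]
  have e5 : ∀ n ∈ range (k + 1), n ≠ k + 1 := fun n hn => (mem_range.1 hn).ne
  simp only [ed, Prod.mk.injEq, h2, h2.symm, false_and, true_and, if_false, Nat.succ_ne_zero,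
    if_true, mul_one, χ]
  rw [prod_congr rfl fun n hn => if_neg (e5 n hn), ← map_natCast (algebraMap K C)]
  simp only [← map_natCast (algebraMap K C), ← map_sub, ← map_mul, ← map_prod]
  rw [← map_one (algebraMap K C), ← map_add, ← map_mul, inv_alg, e3, e4, eK, neg_pow, div_pow]
  congr 1
  have : ((-1 : K) ^ (k + 1)) ^ 2 = 1 := by rw [← pow_mul, mul_comm, pow_mul]; simp
  field_simp
  rw [this]
  ring

variable (fr) in
/-- Normalised generators over the fixed point `i`. -/
noncomputable def gn (i : Fin 2) : Sy → Sym (Fin 2) →₀ H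
  | .inl m => (tw x i * (tw x i)⁻¹ ^ m) • Finsupp.single (.inl (i, m)) fr.one
  | .inr k => (-tw x i ^ 2 * algebraMap ℚ K (uu 0 k / k)) •
      Finsupp.single (.inr (ed i (k - 1))) fr.one

/-- Evaluation at the end over `i` of an edge of degree `k + 1`. -/
noncomputable def ef (i : Fin 2) (k : ℕ) : Module.Dual K (Sym (Fin 2) →₀ H) :=
  fr.η fr.one ∘ₗ evp ac (χ C x) (ed i.rev k)

lemma act_alg (a : K) (v : H) : ac.act (algebraMap K C a) v = a • v := by
  rw [AlgHom.commutes, Module.algebraMap_end_apply]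

/-- The normalising factor. -/
noncomputable def γ (K : Type*) [Field K] [Algebra ℚ K] (k : ℕ) : K :=
  algebraMap ℚ K (uu 0 (k + 1) / (k + 1 : ℕ))

lemma γ_eq (k : ℕ) : γ K k = ((k : K) + 1) ^ k / (k + 1).factorial := by
  have := succ_ne (K := K) k
  simp only [γ, uu, Nat.succ_ne_zero, if_false, map_div₀, map_pow, map_natCast, add_zero]
  push_cast
  field_simp
  ring

variable {x} (h : IsPt fr) (hx : x 0 ≠ x 1)
include h

lemma ef_inl (i j : Fin 2) (k m : ℕ) : ef x ac i k (Finsupp.single (.inl (j, m)) fr.one) =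
    if j = i then (-tw x i / (k + 1)) ^ m else 0 := by
  simp only [ef, evp, LinearMap.comp_apply, Finsupp.lsum_single, sv, Sym.cmp, pe_eq, tw_rev]
  simp only [ed, Fin.rev_rev]
  split_ifs
  · rw [← map_pow, act_alg, map_smul, h.one, smul_eq_mul, mul_one]
  · simp

lemma ef_inr (i j : Fin 2) (k l : ℕ) : ef x ac i k (Finsupp.single (.inr (ed j l)) fr.one) =
    if j = i then (-tw x i / (k + 1) - tw x i / (l + 1))⁻¹ else 0 := by
  simp only [ef, evp, LinearMap.comp_apply, Finsupp.lsum_single, sv, Sym.cmp, pe_eq, tw_rev]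
  simp only [ed, Fin.rev_rev]
  split_ifs with e
  · rw [← map_sub, inv_alg, act_alg, map_smul, h.one, smul_eq_mul, mul_one, e]
  · simp

lemma ef_dil (i : Fin 2) (k : ℕ) : ef x ac i k (dilR fr (Fin 2)) = -tw x i / (k + 1) := by
  simp only [dilR, map_sum, ef_inl ac h, pow_one, sum_ite_eq', mem_univ, if_true]

include hx

lemma ef_gn (i j : Fin 2) (k : ℕ) (s : Sy) : γ K k / tw x i * ef x ac i k (gn fr x j s) =
    if j = i then algebraMap ℚ K (ph (k + 1) s) else 0 := by
  have hs := tw_ne hx i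
  have hk := succ_ne (K := K) k
  rcases s with m | l
  · simp only [gn, map_smul, ef_inl ac h, smul_eq_mul, ph, γ, map_mul, map_pow]
    split_ifs with e
    · subst e
      rw [mul_assoc (tw x j), ← mul_pow, map_div₀ _ (-1), map_neg, map_one, map_natCast]
      push_cast
      field_simp
    · simp
  · simp only [gn, map_smul, ef_inr ac h, smul_eq_mul, ph, γ, h2]
    split_ifs with e
    · subst e
      rcases l with _ | l
      · simp [uu]
      · have hl := succ_ne (K := K) l
        have hkl : (k : K) + 1 + (l + 1) ≠ 0 := by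
          have := succ_ne (K := K) (k + l + 1)
          push_cast at this
          exact fun e => this (by linear_combination e)
        have : -tw x j / (k + 1) - tw x j / (l + 1) =
            -tw x j * (k + 1 + (l + 1)) / ((k + 1) * (l + 1)) := by field_simp; ring
        simp only [map_div₀, map_mul, map_add, map_natCast, Nat.add_sub_cancel, this]
        push_cast
        field_simp
    · simp

omit h hx

variable [Ev p]

variable (fr x) in
/-- Monomials in the generators over both fixed points. -/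
noncomputable def mo2 (z z' : Multiset Sy) : S (p.fs (Sym (Fin 2))) :=
  mo _ (gn fr x 0) z * mo _ (gn fr x 1) z'

variable (fr x) in
/-- A node. -/
noncomputable def opA (i : Fin 2) (k : ℕ) : S (p.fs (Sym (Fin 2))) :=
  ι _ (gn fr x i (.inr (k + 1)))

variable (x) in
/-- An end that is not a node. -/
noncomputable def opB (i : Fin 2) (k : ℕ) : Module.End K (S (p.fs (Sym (Fin 2)))) :=
  (γ K k / tw x i) • hm _ (dilR fr (Fin 2)) (ef x ac i k)

lemma opA0 (k : ℕ) (z z' : Multiset Sy) :
    opA fr x 0 k * mo2 fr x z z' = mo2 fr x (.inr (k + 1) ::ₘ z) z' := by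
  rw [mo2, mo2, mo_cons, opA, mul_assoc]

lemma opA1 (k : ℕ) (z z' : Multiset Sy) :
    opA fr x 1 k * mo2 fr x z z' = mo2 fr x z (.inr (k + 1) ::ₘ z') := by
  rw [mo2, mo2, mo_cons, opA, mul_left_comm]

include h hx

lemma opB_aux (i j : Fin 2) (k : ℕ) (z : Multiset Sy) :
    (γ K k / tw x i) • con _ (ef x ac i k) (mo (p.fs _) (gn fr x j) z) = if j = i then
      s1 z fun s ν => algebraMap ℚ K (ph (k + 1) s) • mo (p.fs _) (gn fr x j) ν else 0 := by
  simp only [con_mo, smul_s1, smul_smul, ef_gn ac h hx]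
  split_ifs <;> simp

lemma opB_mul (i : Fin 2) (k : ℕ) (u v : S (p.fs (Sym (Fin 2)))) : opB x ac i k (u * v) =
    algebraMap ℚ K (c1 (k + 1)) • (u * v) + ((γ K k / tw x i) • con _ (ef x ac i k) u * v +
      u * (γ K k / tw x i) • con _ (ef x ac i k) v) := by
  have hs := tw_ne hx i
  have hk := succ_ne (K := K) k
  have : algebraMap ℚ K (c1 (k + 1)) = -(γ K k / tw x i * (-tw x i / (k + 1))) := by
    simp only [c1, γ, map_div₀, map_pow, map_natCast]
    push_cast
    field_simp
  rw [this, opB, LinearMap.smul_apply, hm_apply, con_mul_of_ev (comp_σ _), ef_dil ac h,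
    smul_mul_assoc, mul_smul_comm]
  module

lemma opB0 (Z : S (p.fs (Sym (Fin 2))) →ₗ[K] K) (k : ℕ) (z z' : Multiset Sy) :
    Z (opB x ac 0 k (mo2 fr x z z')) = bo (k + 1) (fun ν => Z (mo2 fr x ν z')) z := by
  rw [mo2, opB_mul ac h hx, opB_aux ac h hx, opB_aux ac h hx, if_pos rfl, if_neg (by decide)]
  simp only [mul_zero, add_zero, s1_mul, map_add, map_s1, smul_mul_assoc, map_smul, bo, mo2,
    smul_eq_mul, Algebra.smul_def (R := ℚ)]

lemma opB1 (Z : S (p.fs (Sym (Fin 2))) →ₗ[K] K) (k : ℕ) (z z' : Multiset Sy) :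
    Z (opB x ac 1 k (mo2 fr x z z')) = bo (k + 1) (fun ν => Z (mo2 fr x z ν)) z' := by
  rw [mo2, opB_mul ac h hx, opB_aux ac h hx, opB_aux ac h hx, if_pos rfl, if_neg (by decide)]
  simp only [zero_mul, zero_add, mul_s1, map_add, map_s1, mul_smul_comm, map_smul, bo, mo2,
    smul_eq_mul, Algebra.smul_def (R := ℚ)]

omit h hx in
variable (x) in
/-- The weight of an edge. -/
noncomputable def lm (k : ℕ) : K := (-1) ^ k * ((k : K) + 1) / tw x 0 ^ (2 * k + 2)

omit h hx in
lemma tw_sq (i : Fin 2) : tw x i ^ 2 = tw x 0 ^ 2 := by fin_cases i <;> simp [tw]; ring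

omit h in
lemma γ_ne (k : ℕ) : γ K k ≠ 0 := by
  have : CharZero K := algebraRat.charZero K
  rw [γ_eq]
  exact div_ne_zero (pow_ne_zero _ (succ_ne k)) (by exact_mod_cast Nat.factorial_ne_zero _)

omit h in
lemma eK_eq (i : Fin 2) (k : ℕ) : eK (tw x i) k = -lm x k * γ K k ^ 2 := by
  have : CharZero K := algebraRat.charZero K
  have hf : ((k + 1).factorial : K) ≠ 0 := by exact_mod_cast Nat.factorial_ne_zero _
  have := tw_ne hx 0
  rw [eK, lm, γ_eq, show 2 * k + 2 = 2 * (k + 1) by ring, pow_mul, pow_mul, tw_sq]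
  field_simp
  ring

omit hx in
lemma evp_eq (i : Fin 2) (k : ℕ) (v) :
    evp ac (χ C x) (ed i.rev k) v = ef x ac i k v • fr.one := h.eq _

lemma Ae_eq (i : Fin 2) (k : ℕ) : Ae ac (χ C x) (ed i k) = (ef x ac i.rev k).smulRight
    ((lm x k * (γ K k / tw x i.rev)) • gn fr x i (.inr (k + 1))) := by
  have hs := tw_ne hx i
  refine LinearMap.ext fun v => ?_
  have e := evp_eq ac h (x := x) i.rev k v
  rw [Fin.rev_rev] at e
  have : (ed i k).src = i := rfl
  simp only [Ae, LinearMap.comp_apply, e, this, eu_eq, ee_eq hx, ← map_mul, ← map_neg, act_alg,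
    LinearMap.smulRight_apply, gn, map_smul, smul_smul, Finsupp.lsingle_apply, Nat.add_sub_cancel,
    eK_eq hx, tw_rev, ← γ.eq_1]
  congr 1
  field_simp

lemma X0_eq (i : Fin 2) (k : ℕ) (y) : X0 ac (χ C x) (ed i k) y =
    lm x k • (opA fr x i k * opB x ac i.rev k y + opA fr x i.rev k * opB x ac i k y) := by
  simp only [X0, ed_rev, Ae_eq ac h hx, map_add, LinearMap.add_apply, Q0_smulRight, map_smul, opA,
    opB, Fin.rev_rev, LinearMap.smul_apply, smul_mul_assoc, mul_smul_comm, mul_smul, smul_add]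

lemma Xm_eq (i : Fin 2) (k : ℕ) (y) : Xm ac (χ C x) (ed i k) y =
    (lm x k * tw x 0 ^ 2) • opB x ac 0 k (opB x ac 1 k y) := by
  have hs := tw_ne hx 0
  have e := evp_eq ac h (x := x) i.rev k
  rw [Fin.rev_rev] at e
  have := Qm_two (dilR fr (Fin 2)) (W := We ac (χ C x) (ed i k)) (φ := ef x ac 0 k)
    (ψ := ef x ac 1 k) (eK (tw x i) k) (fun v v' => by
      simp only [We, LinearMap.add_apply, LinearMap.compl₁₂_apply, LinearMap.comp_apply, ed_rev,
        evp_eq ac h, e, ee_eq hx, act_alg, map_smul, LinearMap.smul_apply, h.one, smul_eq_mul]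
      fin_cases i <;> simp <;> ring) y
  rw [Xm, LinearMap.add_apply, LinearMap.smul_apply, Module.End.one_apply, this]
  simp only [opB, LinearMap.smul_apply, map_smul, smul_smul, eK_eq hx,
    show tw x 1 = -tw x 0 from tw_rev x 0]
  congr 1
  field_simp

lemma X1_eq (i : Fin 2) (k : ℕ) (y) : X1 ac (χ C x) (ed i k) y =
    (lm x k / tw x 0 ^ 2) • (opA fr x i k * (opA fr x i.rev k * y)) := by
  have hs := tw_ne hx i
  have h1 : (ed i k).src = i := rfl
  have h2 : (ed i k).tgt = i.rev := rfl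
  have e (s : Sym (Fin 2)) (v : H) : ι (p.fs _) (Finsupp.single s v) =
      fr.η fr.one v • ι (p.fs _) (Finsupp.single s fr.one) := by
    conv_lhs => rw [h.eq v, ← Finsupp.smul_single, map_smul]
  rw [X1, mul_apply'', ← mul_assoc, ← smul_mul_assoc, Ce]
  congr 1
  simp only [h1, h2, eu_eq, ee_eq hx, ← map_mul, act_alg, ed_rev, e _ (_ • _), e _ (fr.f _),
    map_smul, smul_mul_smul_comm, ← sum_smul, smul_eq_mul, mul_assoc, ← mul_sum, h.sum, opA, gn,
    smul_smul, Nat.add_sub_cancel, ← γ.eq_1, eK_eq hx, tw_rev, ← tw_sq i]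
  congr 1
  field_simp

/-- The removal of an edge. -/
theorem edge_eq (Z0 Zp Zm : S (p.fs (Sym (Fin 2))) →ₗ[K] K) (i : Fin 2) (k : ℕ)
    (z z' : Multiset Sy) :
    Z0 (X0 ac (χ C x) (ed i k) (mo2 fr x z z')) + Zp (Xm ac (χ C x) (ed i k) (mo2 fr x z z')) +
      Zm (X1 ac (χ C x) (ed i k) (mo2 fr x z z')) =
    lm x k * (bo (k + 1) (fun ν => Z0 (mo2 fr x (.inr (k + 1) ::ₘ z) ν)) z' +
      bo (k + 1) (fun ν => Z0 (mo2 fr x ν (.inr (k + 1) ::ₘ z'))) z +
      tw x 0 ^ 2 * bo (k + 1) (fun ν' => bo (k + 1) (fun ν => Zp (mo2 fr x ν ν')) z) z' +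
      (tw x 0 ^ 2)⁻¹ * Zm (mo2 fr x (.inr (k + 1) ::ₘ z) (.inr (k + 1) ::ₘ z'))) := by
  have e0 := opB0 ac h hx (Z0 ∘ₗ LinearMap.mulLeft K (opA fr x 1 k)) k z z'
  have e1 := opB1 ac h hx (Z0 ∘ₗ LinearMap.mulLeft K (opA fr x 0 k)) k z z'
  have e2 := opB1 ac h hx (Zp ∘ₗ opB x ac 0 k) k z z'
  simp only [LinearMap.comp_apply, LinearMap.mulLeft_apply, opA0, opA1] at e0 e1
  simp only [LinearMap.comp_apply, opB0 ac h hx] at e2
  rw [X0_eq ac h hx, Xm_eq ac h hx, X1_eq ac h hx, ← e0, ← e1, ← e2, ← opA1, ← opA0]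
  simp only [map_smul, map_add, smul_eq_mul]
  fin_cases i
  · simp only [Fin.zero_eta, Fin.isValue, Fin.rev_zero, Fin.reduceLast,
      mul_left_comm (opA fr x 0 k)]
    ring
  · simp only [Fin.mk_one, Fin.isValue, show Fin.rev (1 : Fin 2) = 0 from rfl]
    ring

end

end Vale.Agent.P269.WK
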