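import Vale.Agent.P269.WK.Raw

/-! The bilinear relation follows from localisation on the projective line. -/

set_option linter.unusedSectionVars false

namespace Vale.Agent.P269.WK

open Finset Fock B PowerSeries TensorProduct

section gen

variable {K : Type*} [CommRing K] [Algebra ℚ K] {V : Type*} [AddCommGroup V] [Module K V]
  {p : Par K V} [Ev p]

lemma mx_mo (N : ℕ) {u : Sy → V} {τ : ℕ → V} (hl : ∀ m, u (.inl m) = τ m)
    (hr : ∀ k, u (.inr k) = ∑ r ∈ range (N + 1), algebraMap ℚ K (uu r k) • τ r)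
    (Φ : S p →ₗ[K] K) (z : Multiset Sy) : Φ (mo p u z) = mx N (fun x => Φ (mo p τ x)) z := by
  induction z using Multiset.induction_on generalizing Φ with
  | empty => simp
  | cons s z ih =>
    rw [mo_cons, mx_cons]
    refine (ih (Φ ∘ₗ LinearMap.mulLeft K (ι p (u s)))).trans (congrArg (mx N · z) (funext fun x => ?_))
    cases s <;> simp [ins_inl, ins_inr, hl, hr, mo_cons, sum_mul, Algebra.smul_def (R := ℚ)]

lemma mo_smul (c : ℕ → K) (τ : ℕ → V) (x : Multiset ℕ) :
    mo p (fun m => c m • τ m) x = (x.map c).prod • mo p τ x := by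
  induction x using Multiset.induction_on with
  | empty => simp
  | cons s z ih => simp [mo_cons, ih, smul_smul, mul_comm]

lemma hom_mo {K' : Type*} [CommRing K'] {V' : Type*} [AddCommGroup V'] [Module K' V']
    {q : Par K' V'} [Ev q] {Φ : Type*} [FunLike Φ (S p) (S q)] [MonoidHomClass Φ (S p) (S q)] (φ : Φ)
    {I : Type*} {u : I → V} {u' : I → V'} (h : ∀ s, φ (ι p (u s)) = ι q (u' s)) (z : Multiset I) :
    φ (mo p u z) = mo q u' z := by
  induction z using Multiset.induction_on with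
  | empty => simp
  | cons s z ih => rw [mo_cons, mo_cons, map_mul, h, ih]

lemma mo_map {I J : Type*} (u : J → V) (e : I → J) (z : Multiset I) :
    mo p u (z.map e) = mo p (u ∘ e) z := by simp [mo]

end gen

lemma finsum_cz (u v : ℂ⟦X⟧) (c c' j : ℤ) :
    ∑ᶠ (jv : Fin 2 → ℤ) (_ : ∑ i, jv i = j), cz (jv 0 + c) u * cz (jv 1 + c') v =
      cz (j + c + c') (u * v) := by
  have h0 : ∀ jv : Fin 2 → ℤ, cz (jv 0 + c) u * cz (jv 1 + c') v ≠ 0 →
      0 ≤ jv 0 + c ∧ 0 ≤ jv 1 + c' := fun jv h => by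
    refine ⟨not_lt.1 fun e => left_ne_zero_of_mul h ?_, not_lt.1 fun e => right_ne_zero_of_mul h ?_⟩ <;>
      rw [cz_neg e, LinearMap.zero_apply]
  by_cases hj : j + c + c' < 0
  · rw [cz_neg hj]
    refine finsum_mem_of_eqOn_zero (s := {jv : Fin 2 → ℤ | ∑ i, jv i = j}) fun jv e =>
      by_contra fun h => ?_
    have := h0 jv h
    rw [Set.mem_ofPred_eq, Fin.sum_univ_two] at e
    omega
  obtain ⟨n, hn⟩ : ∃ n : ℕ, j + c + c' = n := ⟨(j + c + c').toNat, by omega⟩
  rw [hn, cz_nat, coeff_mul]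
  refine (finsum_mem_eq_sum_of_inter_support_eq (s := {jv : Fin 2 → ℤ | ∑ i, jv i = j})
    (t := (antidiagonal n).image fun q => ![q.1 - c, q.2 - c']) _ ?_).trans ?_
  · ext jv
    refine and_congr_left fun h => ?_
    have := h0 jv h
    simp only [Set.mem_ofPred_eq, Fin.sum_univ_two, coe_image, Set.mem_image, mem_coe,
      mem_antidiagonal]
    refine ⟨fun e => ⟨((jv 0 + c).toNat, (jv 1 + c').toNat), by simp only; omega, ?_⟩, ?_⟩
    · ext i
      fin_cases i <;> simp <;> omega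
    · rintro ⟨q, e, rfl⟩
      simp only [Matrix.cons_val_zero, Matrix.cons_val_one]
      omega
  · rw [sum_image fun q _ q' _ e => ?_]
    · simp
    · have e0 := congrFun e 0
      have e1 := congrFun e 1
      simp only [Matrix.cons_val_zero, Matrix.cons_val_one] at e0 e1
      exact Prod.ext (by omega) (by omega)

lemma tt_ne : tt ≠ 0 := fun h => by simpa [tt] using congrArg (·.co (-1)) h

lemma single_eq (n : ℕ) (c : ℂ) : Hat.single ℂ n c = algebraMap ℂ F c * tt⁻¹ ^ n := by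
  have : tt⁻¹ = Hat.single ℂ 1 1 :=
    inv_eq_of_mul_eq_one_right (by rw [tt, Hat.single_mul]; simp [Hat.one_def])
  rw [this]
  induction n with
  | zero => exact (mul_one _).symm
  | succ n ih => rw [pow_succ, ← mul_assoc, ← ih, Hat.single_mul]; simp

lemma co_aeval (P : Polynomial ℂ) (n : ℤ) (hn : 0 < n) : (Polynomial.aeval tt P).co n = 0 := by
  induction P using Polynomial.induction_on generalizing n with
  | C a => simp [Hat.algebraMap_co, Hat.C_apply, Hat.co_single, hn.ne']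
  | add P Q h h' => rw [map_add, Hat.co_add, h n hn, h' n hn, add_zero]
  | monomial k a h =>
    rw [pow_succ, ← mul_assoc, map_mul, Polynomial.aeval_X, tt, Hat.co_mul_single, ← tt,
      h _ (by omega), zero_mul]

lemma eq_zero_of_aeval {c w : ℂ} (hw : w ≠ 0) {n : ℤ} (hn : n < 0) {P : Polynomial ℂ}
    (h : Polynomial.aeval tt P = algebraMap ℂ F c * (algebraMap ℂ F w * tt) ^ n) : c = 0 := by
  obtain ⟨k, rfl⟩ : ∃ k : ℕ, n = -k := ⟨(-n).toNat, by omega⟩
  have := co_aeval P k (by omega)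
  rw [h, zpow_neg, zpow_natCast, ← inv_pow, mul_inv, ← map_inv₀, mul_pow, ← map_pow, ← mul_assoc,
    ← map_mul, ← single_eq] at this
  simpa [hw] using this

variable {V C : ℤ → ℕ → Multiset ℕ → ℂ}

lemma Raw.ofPS (h : Raw V C) (j : ℤ) (x : Multiset ℕ) :
    Hat.ofPS ℂ (.mk fun m => V j m x) = algebraMap ℂ F (V j (dg j x) x) * tt⁻¹ ^ dg j x := by
  rw [← single_eq]
  refine Hat.ext_nat (Hat.ofPS_Lo _) (Hat.Lo_mono (by omega) (Hat.single_Lo _ _)) fun m => ?_
  rw [Hat.co_ofPS, coeff_mk, Hat.co_single]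
  split_ifs with e
  · rw [Nat.cast_injective e]
  · exact by_contra fun hne => e (by have := h.dimV _ _ _ hne; rw [dg]; omega)

lemma prod_inv_pow {K : Type*} [Field K] (s : K) (x : Multiset ℕ) :
    (x.map fun m => s⁻¹ ^ m).prod = s⁻¹ ^ x.sum := by
  induction x using Multiset.induction_on with
  | empty => simp
  | cons a x ih => simp only [Multiset.map_cons, Multiset.prod_cons, ih, Multiset.sum_cons, pow_add]

lemma Raw.nrm (h : Raw V C) {K : Type*} [Field K] [Algebra ℂ K] {w : ℂ} (hw : w ≠ 0) {t : K}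
    (ht : t ≠ 0) (j : ℤ) (x : Multiset ℕ) :
    (x.map fun m => w • t * (w • t)⁻¹ ^ m).prod * (V j (dg j x) x • t⁻¹ ^ dg j x) =
      vz w V j x • (w • t) ^ (-3 * j) := by
  have hs : w • t ≠ 0 := smul_ne_zero hw ht
  rw [Multiset.prod_map_mul, Multiset.map_const', Multiset.prod_replicate, prod_inv_pow, vz]
  by_cases h0 : V j (dg j x) x = 0
  · simp [h0]
  have := h.dimV _ _ _ h0
  rw [show -3 * j = Multiset.card x - (x.sum : ℕ) - dg j x by omega, zpow_sub₀ hs, zpow_sub₀ hs,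
    zpow_natCast, zpow_natCast, zpow_natCast, div_eq_mul_inv, div_eq_mul_inv, ← inv_pow, ← inv_pow,
    smul_inv₀ w t, smul_pow _ t⁻¹ (dg j x), mul_smul_comm, mul_smul_comm, smul_smul,
    mul_right_comm (w ^ _), ← mul_pow, mul_inv_cancel₀ hw, one_pow, one_mul]

lemma Raw.mx_vz (h : Raw V C) (w : ℂ) (N : ℕ) (j : ℤ) (z : Multiset Sy) :
    mx N (vz w V j) z = cz (j + Multiset.card z) (mx N (vtx w V) z) := by
  refine (mx_congr N fun x hx => ?_).trans
    (map_mx ((cz (j + Multiset.card z)).restrictScalars ℚ) N _ z).symm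
  rw [LinearMap.restrictScalars_apply, ← hx]
  by_cases hj : j + Multiset.card x < 0
  · rw [cz_neg hj, h.vz_low w (by omega), LinearMap.zero_apply]
  obtain ⟨n, hn⟩ : ∃ n : ℕ, j + Multiset.card x = n := ⟨(j + Multiset.card x).toNat, by omega⟩
  rw [hn, cz_nat, vtx, coeff_mk, ← hn, add_sub_cancel_right]

lemma cz_mx {f fc g gc : Multiset ℕ → ℂ⟦X⟧} (hf : Vx f fc) (hg : Vx g gc) {n : ℤ} {N : ℕ}
    (hN : 3 * n ≤ N) (z z' : Multiset Sy) :
    cz n (mx N f z * mx N g z') = cz n (ser f z * ser g z') := by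
  by_cases hn : n < 0
  · simp [cz_neg hn]
  obtain ⟨n, rfl⟩ : ∃ k : ℕ, n = k := ⟨n.toNat, by omega⟩
  rw [cz_nat, coeff_mul, coeff_mul]
  refine sum_congr rfl fun q hq => ?_
  have := mem_antidiagonal.1 hq
  rw [coeff_ser hf.bd' (by omega), coeff_ser hg.bd' (by omega)]

section loc

variable {K : Type*} [Field K] [Algebra ℚ K] [Algebra ℂ K] {H : Type*} [AddCommGroup H] [Module K H]
  {p : Par K H} [Ev p] {κ : Type*} [Fintype κ] {fr : Frame p κ} {A : Type*} [CommRing A]
  [Algebra K A]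

variable (fr) in
/-- The insertion `psi^m` on the copy `i`. -/
noncomputable def τ (i : Fin 2) (m : ℕ) : VV (Fin 2 → H) := Finsupp.single m (Pi.single i fr.one)

/-- Localisation on the projective line. -/
structure LocP (ac : Act fr A) (x : Fin 2 → K) (T : Subring K)
    (W : Fin 2 → ℤ → Multiset ℕ → K) where
  ZF : (Fin 2 → ℤ) → S ((p.pi (Fin 2)).fs ℕ) →ₗ[K] K
  hZF : ∀ jv y y', ZF jv (mo _ (τ fr 0) y * mo _ (τ fr 1) y') = W 0 (jv 0) y * W 1 (jv 1) y'
  ZZ : ℕ → ℤ → ℤ → S (p.fs (Sym (Fin 2))) →ₗ[K] K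
  loc1 : ∀ e j y y', ∑ᶠ m, ZZ m e j (Fock.map _ (isEv_res (r := 1) ac (χ A x))
    (mo _ (τ fr 0) y * mo _ (τ fr 1) y')) ∈ T
  loc2 : ∀ j y, ∀ᶠ N in Filter.atTop, ZZ 0 0 j y = ∑ᶠ (jv) (_ : ∑ i, jv i = j),
    (∏ i, tw x i ^ jv i) * ZF jv (Fock.map _ (isEv_exN ac (χ A x) N) y)
  loc2' : ∀ e j, e ≠ 0 → ZZ 0 e j = 0
  loc3 : ∀ (m : ℕ) e j y, (2 * ((m : K) + 1)) * ZZ (m + 1) e j y = ∑ᶠ E : Edge (Fin 2),
    (ZZ m (e - (E.deg + 1)) j (X0 ac (χ A x) E y) +
      ZZ m (e - (E.deg + 1)) (j + 1) (Xm ac (χ A x) E y) +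
      ZZ m (e - (E.deg + 1)) (j - 1) (X1 ac (χ A x) E y))

variable {ac : Act fr A} {x : Fin 2 → K} {T : Subring K} {W : Fin 2 → ℤ → Multiset ℕ → K}
  (L : LocP ac x T W) (hx : x 0 ≠ x 1)
include hx

lemma exN_inl (N : ℕ) (i : Fin 2) (m : ℕ) :
    exN ac (χ A x) N (gn fr x i (.inl m)) = (tw x i * (tw x i)⁻¹ ^ m) • τ fr i m := by
  simp [gn, exN, τ]

lemma exN_inr (N : ℕ) (i : Fin 2) (k : ℕ) : exN ac (χ A x) (N + 1) (gn fr x i (.inr k)) =
    ∑ r ∈ range (N + 1), algebraMap ℚ K (uu r k) • (tw x i * (tw x i)⁻¹ ^ r) • τ fr i r := by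
  have hs := tw_ne hx i
  rcases k with _ | k
  · simp [gn, uu]
  have hk := succ_ne (K := K) k
  have h1 : (ed i k).src = i := rfl
  simp only [gn, exN, map_smul, Finsupp.lsum_single, Nat.add_sub_cancel, pe_eq, inv_alg, ← map_pow,
    LinearMap.neg_apply, LinearMap.sum_apply, LinearMap.comp_apply, act_alg, h1,
    ← neg_smul, smul_sum, smul_smul, LinearMap.single_apply, Finsupp.lsingle_apply, ← sum_neg_distrib,
    τ]
  refine sum_congr rfl fun r _ => ?_
  congr 1
  simp only [uu, Nat.succ_ne_zero, if_false, map_div₀, map_pow, map_natCast, inv_div, div_pow,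
    inv_pow]
  push_cast
  field_simp
  ring

omit hx in
lemma res_τ (k : Fin (1 + 1)) (m : ℕ) : res (r := 1) ac (χ A x) (τ fr k m) =
    ∑ i, (-x i) ^ (k : ℕ) • Finsupp.single (.inl (i, m)) fr.one := by
  refine (Finsupp.lsum_single ..).trans ?_
  simp only [LinearMap.sum_apply, LinearMap.comp_apply, χ, ← map_neg, ← map_pow, act_alg,
    LinearMap.proj_apply, map_smul]
  exact sum_congr rfl fun i _ => (sum_eq_single k (by simp +contextual) (by simp)).trans (by simp)

lemma LocP.low (m : ℕ) (e j : ℤ) (he : e < m) : L.ZZ m e j = 0 := by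
  induction m generalizing e j with
  | zero => exact L.loc2' e j he.ne
  | succ m ih =>
    ext y
    have := L.loc3 m e j y
    rw [finsum_eq_zero_of_forall_eq_zero fun E => by
      simp only [ih (e - (E.deg + 1)) _ (by omega), LinearMap.zero_apply, add_zero]] at this
    exact (mul_eq_zero.1 this).resolve_left (mul_ne_zero
      (by simpa [one_add_one_eq_two] using succ_ne (K := K) 1) (succ_ne m))

variable {f fc : Fin 2 → Multiset ℕ → ℂ⟦X⟧} (hf : ∀ i, Vx (f i) (fc i))
  {v : Fin 2 → ℤ → Multiset ℕ → ℂ}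
  (hz : ∀ i N j z, mx N (v i j) z = cz (j + Multiset.card z) (mx N (f i) z))
  (hW : ∀ i j y, (y.map fun m => tw x i * (tw x i)⁻¹ ^ m).prod * W i j y =
    v i j y • tw x i ^ (-3 * j))
include hf hz hW

lemma LocP.base (j : ℤ) (z z' : Multiset Sy) : L.ZZ 0 0 j (mo2 fr x z z') =
    T2 (ser (f 0)) (ser (f 1)) 0 j z z' • tw x 0 ^ (-2 * j) := by
  obtain ⟨N, h1, h2⟩ := (((Filter.tendsto_add_atTop_nat 1).eventually
    (L.loc2 j (mo2 fr x z z'))).and
    (Filter.eventually_ge_atTop (3 * (j + Multiset.card z + Multiset.card z')).toNat)).exists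
  rw [h1, T2, GG_zero, GG_zero, ← cz_mx (hf 0) (hf 1) (N := N) (by omega), ← finsum_cz, finsum_smul]
  refine finsum_congr fun jv => ?_
  by_cases e : ∑ i, jv i = j
  swap
  · simp only [e, finsum_false, zero_smul]
  simp only [e, finsum_true]
  have lin (c : K) (g : Multiset ℕ → ℂ) (z) : mx N (fun y => g y • c) z = mx N g z • c :=
    (map_mx ((LinearMap.toSpanSingleton ℂ K c).restrictScalars ℚ) N g z).symm
  have key (i) (Φ : S ((p.pi (Fin 2)).fs ℕ) →ₗ[K] K) (c : K) (j z)
      (h : ∀ y, Φ (mo _ (τ fr i) y) = W i j y * c) :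
      Φ (Fock.map _ (isEv_exN ac (χ A x) (N + 1)) (mo _ (gn fr x i) z)) =
        cz (j + Multiset.card z) (mx N (f i) z) • (tw x i ^ (-3 * j) * c) := by
    rw [hom_mo _ fun s => map_ι .., mx_mo N (exN_inl hx _ i) (exN_inr hx N i), ← hz, ← lin]
    simp only [mo_smul, map_smul, h, smul_eq_mul, ← mul_assoc, hW, smul_mul_assoc]
  have e0 := key 0 (L.ZF jv ∘ₗ LinearMap.mulRight K (Fock.map _ (isEv_exN ac (χ A x) (N + 1))
    (mo _ (gn fr x 1) z'))) _ (jv 0) z fun y => (key 1 (L.ZF jv ∘ₗ LinearMap.mulLeft K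
      (mo _ (τ fr 0) y)) _ (jv 1) z' fun y' => (L.hZF jv y y').trans (mul_comm ..)).trans
      ((smul_mul_assoc ..).symm.trans (mul_comm ..))
  rw [mo2, map_mul]
  refine (congrArg _ e0).trans ?_
  have hs := tw_ne hx 0
  rw [Fin.sum_univ_two] at e
  rw [Fin.prod_univ_two, mul_smul_comm, mul_smul_comm, mul_smul_comm, smul_smul,
    show tw x 1 = -tw x 0 from tw_rev x 0, mul_mul_mul_comm, ← zpow_add₀ hs,
    ← zpow_add₀ (neg_ne_zero.2 hs), show jv 1 + -3 * jv 1 = 2 * -jv 1 by ring,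
    (even_two_mul _).neg_zpow, ← zpow_add₀ hs]
  congr 2
  omega

/-- The contribution of the fixed loci with `m` edges of total degree `e`. -/
noncomputable def W2z (g g' : Multiset Sy → ℂ⟦X⟧) (m : ℕ) (e n : ℤ) (z z' : Multiset Sy) : ℂ :=
  if 0 ≤ e then W2s g g' m e.toNat n z z' else 0

lemma LocP.step (h : IsPt fr) (m : ℕ) (e j : ℤ) (z z' : Multiset Sy) :
    L.ZZ m e j (mo2 fr x z z') =
      W2z (ser (f 0)) (ser (f 1)) m e (j + m) z z' • tw x 0 ^ (-2 * j - 2 * e) := by
  have hs := tw_ne hx 0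
  induction m generalizing e j z z' with
  | zero =>
    by_cases he : e = 0
    · subst he
      simp [L.base hx hf hz hW, W2z, W2s, Pt_zero]
    rw [L.loc2' e j he, W2z]
    split_ifs with h0
    · rw [W2s, sum_eq_zero fun μ hμ => ?_, zero_smul, LinearMap.zero_apply]
      rw [if_neg fun h1 => ?_, zero_smul]
      have := (mem_Pt.1 hμ).1
      rw [Multiset.card_eq_zero.1 h1, Multiset.sum_zero] at this
      omega
    · simp
  | succ m ih =>
    have lin (c : K) (k) (g : Multiset Sy → ℂ) (z) : bo k (fun y => g y • c) z = bo k g z • c :=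
      map_bo ((LinearMap.toSpanSingleton ℂ K c).restrictScalars ℚ) k g z
    have key (i) (k : ℕ) : L.ZZ m (e - (k + 1)) j (X0 ac (χ A x) (ed i k) (mo2 fr x z z')) +
        L.ZZ m (e - (k + 1)) (j + 1) (Xm ac (χ A x) (ed i k) (mo2 fr x z z')) +
        L.ZZ m (e - (k + 1)) (j - 1) (X1 ac (χ A x) (ed i k) (mo2 fr x z z')) =
        (((-1) ^ k * (k + 1) : ℚ) • ed2 (k + 1) (W2z (ser (f 0)) (ser (f 1)) m (e - (k + 1)))
          (j + (m + 1 : ℕ)) z z') • tw x 0 ^ (-2 * j - 2 * e) := by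
      rw [edge_eq ac h hx]
      simp only [ih, lin, ed2, lm]
      rw [show j + (m + 1 : ℕ) - 1 = j + m by omega, show j + (m + 1 : ℕ) - 2 = j - 1 + m by omega,
        show j + (m + 1 : ℕ) = j + 1 + m by omega,
        show -2 * j - 2 * (e - (k + 1)) = -2 * j - 2 * e + (2 * k + 2 : ℕ) by omega,
        show -2 * (j + 1) - 2 * (e - (k + 1)) = -2 * j - 2 * e + (2 * k : ℕ) by omega,
        show -2 * (j - 1) - 2 * (e - (k + 1)) = -2 * j - 2 * e + (2 * k + 4 : ℕ) by omega]
      simp only [zpow_add₀ hs, zpow_natCast, Algebra.smul_def, map_add, map_mul, map_pow, map_neg,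
        map_one, map_natCast]
      field_simp
      ring
    have h2 : (2 * ((m : K) + 1)) ≠ 0 := mul_ne_zero
      (by simpa [one_add_one_eq_two] using succ_ne (K := K) 1) (succ_ne m)
    refine mul_left_cancel₀ h2 ?_
    rw [L.loc3, ← finsum_comp_equiv edE]
    refine (finsum_congr fun q : Fin 2 × ℕ => key q.1 q.2).trans ?_
    rw [finsum_eq_sum_of_support_subset (s := univ ×ˢ range e.toNat), sum_product]
    simp only
    rw [sum_const, ← sum_smul, W2z]
    · split_ifs with h0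
      · rw [sum_congr rfl fun k hk => congrArg (fun Φ => _ • ed2 (k + 1) Φ _ z z')
          (?_ : _ = W2s (ser (f 0)) (ser (f 1)) m (e.toNat - (k + 1))), ← W2s_succ]
        · simp [Algebra.smul_def, mul_assoc]
        · have := mem_range.1 hk
          ext
          rw [W2z, if_pos (by omega)]
          congr 1
          omega
      · simp [Int.toNat_eq_zero.2 (not_le.1 h0).le]
    · intro q hq
      refine mem_coe.2 (mem_product.2 ⟨mem_univ _, mem_range.2 (by_contra fun h1 => hq ?_)⟩)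
      have : W2z (ser (f 0)) (ser (f 1)) m (e - (q.2 + 1)) = fun _ _ _ => 0 := by
        ext
        exact if_neg (by omega)
      simp [this, ed2, bo]

include L in
theorem LocP.bil (h : IsPt fr) (hT : ∀ i, x i ∈ T)
    (hc : ∀ (c : ℂ) (n : ℤ), n < 0 → c • tw x 0 ^ n ∈ T → c = 0) : Bil (f 0) (f 1) := by
  intro d j y y' hlt
  have hs := tw_ne hx
  let Λ := ∑ m ∈ range (d + 1), L.ZZ m d j
  let ψ := Fock.map _ (isEv_res (r := 1) ac (χ A x))
  let u (i : Fin 2) (m : ℕ) : Sym (Fin 2) →₀ H := tw x i • Finsupp.single (.inl (i, m)) fr.one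
  have hu (i m) : ι _ (u i m) = x i.rev • ψ (ι _ (τ fr 0 m)) + ψ (ι _ (τ fr 1 m)) := by
    simp only [ψ, map_ι]
    rw [res_τ, res_τ, ← map_smul, ← map_add]
    congr 1
    fin_cases i <;> simp [u, tw, -Finsupp.smul_single] <;> module
  have ind (i) (z) (Y) (hY : ∀ a b, Λ (Y * ψ (mo _ (τ fr 0) a * mo _ (τ fr 1) b)) ∈ T) (a b) :
      Λ (mo _ (u i) z * Y * ψ (mo _ (τ fr 0) a * mo _ (τ fr 1) b)) ∈ T := by
    induction z using Multiset.induction_on generalizing a b with
    | empty => simpa using hY a b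
    | cons m z ih =>
      have := add_mem (mul_mem (hT i.rev) (ih (m ::ₘ a) b)) (ih a (m ::ₘ b))
      rw [← smul_eq_mul, ← map_smul, ← map_add] at this
      convert this using 2
      simp only [mo_cons, hu, map_mul, Algebra.smul_def]
      ring
  have h1 := ind 0 y _ (ind 1 y' 1 fun a b => ?_) 0 0
  · have e (i) (z : Multiset ℕ) : mo (p.fs _) (gn fr x i) (z.map .inl) =
        (tw x i)⁻¹ ^ z.sum • mo _ (u i) z := by
      rw [mo_map, ← prod_inv_pow, ← mo_smul]
      congr 1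
      ext1 m
      simp only [u, smul_smul, mul_comm, gn, Function.comp]
    have e1 : Λ (mo2 fr x (y.map .inl) (y'.map .inl)) = _ :=
      (LinearMap.sum_apply ..).trans ((sum_congr rfl fun m _ => L.step hx hf hz hW h ..).trans
        sum_smul.symm)
    rw [mo2, e, e, smul_mul_smul_comm, map_smul, smul_eq_mul, inv_pow, inv_pow, ← mul_inv,
      inv_mul_eq_iff_eq_mul₀ (mul_ne_zero (pow_ne_zero _ (hs 0)) (pow_ne_zero _ (hs 1)))] at e1
    simp only [mul_one, mo_zero, map_one, e1] at h1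
    have e2 := hc ((-1) ^ y'.sum * ∑ m ∈ range (d + 1), W2z (ser (f 0)) (ser (f 1)) m d (j + m)
      (y.map .inl) (y'.map .inl)) ((y.sum + y'.sum : ℕ) + (-2 * j - 2 * d)) (by omega) (by
      convert h1 using 1
      rw [show tw x 1 = -tw x 0 from tw_rev x 0, zpow_add₀ (hs 0), zpow_natCast, neg_pow (tw x 0)]
      simp only [Algebra.smul_def, map_mul, map_pow, map_neg, map_one]
      ring)
    rw [mul_eq_zero, or_iff_right (by simp)] at e2
    simp only [W2z, Int.natCast_nonneg, if_true, Int.toNat_natCast, W2s] at e2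
    rw [sum_comm] at e2
    rw [← smul_eq_zero_iff_right (show ((-1 : ℚ) ^ d) ≠ 0 by simp), ← e2, smul_sum]
    refine sum_congr rfl fun μ hμ => ?_
    have := card_le_sum (mem_Pt.1 hμ).2
    rw [sum_eq_single_of_mem (Multiset.card μ) (mem_range.2 (by have := (mem_Pt.1 hμ).1; omega))
      fun m _ hm => by rw [if_neg hm.symm, zero_smul], if_pos rfl, smul_smul, T2, Multiset.card_map,
      Multiset.card_map, hv, hv, pow_add, mul_left_comm, add_right_comm j (Multiset.card μ : ℤ),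
      add_right_comm _ (Multiset.card μ : ℤ)]
  · rw [one_mul, LinearMap.sum_apply, ← finsum_eq_sum_of_support_subset]
    · exact L.loc1 ..
    · intro m hm
      refine mem_coe.2 (mem_range.2 (by_contra fun h1 => hm ?_))
      simp only [L.low hx m d j (by omega), LinearMap.zero_apply]

end loc

theorem bil_of_loc {H : Type} [AddCommGroup H] [Module F H] {p : Par F H} [Ev p] {κ : Type}
    [Fintype κ] {fr : Frame p κ} {A : Type} [CommRing A] [Algebra F A] {ac : Act fr A} (h : IsPt fr)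
    {a : Fin 2 → ℂ} (ha : a 0 ≠ a 1) {V C : Fin 2 → ℤ → ℕ → Multiset ℕ → ℂ}
    (hV : ∀ i, Raw (V i) (C i))
    (L : LocP ac (fun i => algebraMap ℂ F (a i) * tt)
      (Polynomial.aeval (R := ℂ) tt).range.toSubring
      fun i j y => Hat.ofPS ℂ (.mk fun m => V i j m y)) :
    Bil (vtx (tw a 0) (V 0)) (vtx (tw a 1) (V 1)) := by
  have e (i) : tw (fun i => algebraMap ℂ F (a i) * tt) i = algebraMap ℂ F (tw a i) * tt := by
    rw [tw, tw, map_sub, sub_mul]
  refine L.bil (f := fun i => vtx (tw a i) (V i)) (v := fun i => vz (tw a i) (V i))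
    (fun e => ha ?_) (fun i => (hV i).vx (tw a i)) (fun i => (hV i).mx_vz _) (fun i j y => ?_) h
    (fun i => ⟨Polynomial.C (a i) * Polynomial.X, by simp⟩)
    fun c n hn ⟨P, hP⟩ => eq_zero_of_aeval (tw_ne ha 0) hn (P := P) ?_
  · exact (algebraMap ℂ F).injective (mul_right_cancel₀ tt_ne e)
  · have := (hV i).nrm (tw_ne ha i) tt_ne j y
    simp only [Algebra.smul_def] at this ⊢
    rw [(hV i).ofPS, e, this]
  · rw [← e]
    exact hP.trans (Algebra.smul_def ..)

end Vale.Agent.P269.WK
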