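import Vale.Agent.P269.WK.Ms
import Vale.Agent.P269.Fock.BC

/-! Purely even Fock spaces: monomials and contractions. -/

namespace Vale.Agent.P269.WK

open Finset Fock

variable {K : Type*} [CommRing K] {V : Type*} [AddCommGroup V] [Module K V]

/-- A purely even parity. -/
class Ev (p : Par K V) : Prop where
  id : ∀ v, p.σ v = v

instance (p : Par K V) [Ev p] (α : Type*) : Ev (p.fs α) := ⟨fun v => by ext; simp [Ev.id]⟩

instance (p : Par K V) [Ev p] (α : Type*) : Ev (p.pi α) := ⟨fun v => by ext; simp [Ev.id]⟩

instance (p : Par K V) [Ev p] (K' : Type*) [CommRing K'] [Algebra K K'] : Ev (p.bc K') :=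
  ⟨fun v => by
    induction v with
    | zero => simp
    | tmul a v => simp [Ev.id]
    | add a b ha hb => rw [map_add, ha, hb]⟩

variable {p : Par K V} [Ev p]

lemma S_comm (x y : S p) : x * y = y * x := by
  induction x using Fock.induction with
  | h1 => simp
  | hι v x hx => rw [mul_assoc, hx, ← mul_assoc, ι_comm_ev (Ev.id v), mul_assoc]
  | hadd x x' h h' => rw [add_mul, mul_add, h, h']
  | hsmul c x h => rw [smul_mul_assoc, mul_smul_comm, h]

/-- The even Fock space is commutative. -/
noncomputable scoped instance : CommRing (S p) where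
  __ := (inferInstance : Ring (S p))
  mul_comm := S_comm

variable {I : Type*}

variable (p) in
/-- Monomials. -/
noncomputable def mo (w : I → V) (z : Multiset I) : S p := (z.map fun s => ι p (w s)).prod

@[simp] lemma mo_zero (w : I → V) : mo p w 0 = 1 := by simp [mo]

lemma mo_cons (w : I → V) (s : I) (z : Multiset I) : mo p w (s ::ₘ z) = ι p (w s) * mo p w z := by
  simp [mo]

lemma mo_coe (w : I → V) (l : List I) : mo p w l = (l.map fun s => ι p (w s)).prod := by
  simp [mo]

lemma comp_σ (φ : Module.Dual K V) : φ ∘ₗ p.σ = φ := by ext v; simp [Ev.id]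

variable [Algebra ℚ K]

lemma con_mo [DecidableEq I] (φ : Module.Dual K V) (w : I → V) (z : Multiset I) :
    con p φ (mo p w z) = s1 z fun s ν => φ (w s) • mo p w ν := by
  induction z using Multiset.induction_on with
  | empty => simp
  | cons s z ih =>
    rw [mo_cons, con_ι_mul_ev _ (Ev.id _), ih, s1_cons, mul_s1]
    simp only [mo_cons, mul_smul_comm]

lemma Q0_smulRight (d : V) (φ : Module.Dual K V) (u : V) (x : S p) :
    Q0 p d (φ.smulRight u) x = ι p u * hm p d φ x := by
  have : dv p (φ.smulRight u) x = ι p u * con p φ x := by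
    induction x using Fock.induction with
    | h1 => simp
    | hι v x hx =>
      rw [dv_ι_mul (fun v => by rw [Ev.id, Ev.id]), hx, con_ι_mul_ev _ (Ev.id _)]
      simp only [LinearMap.smulRight_apply, map_smul, smul_mul_assoc, mul_add, mul_smul_comm]
      ring
    | hadd x x' h h' => simp only [map_add, h, h', mul_add]
    | hsmul c x h => simp only [map_smul, h, mul_smul_comm]
  simp only [Q0_apply, this, hm_apply, LinearMap.smulRight_apply, map_smul, smul_mul_assoc, mul_sub,
    mul_smul_comm]

lemma Qm_two (d : V) {W : SymB p} {φ ψ : Module.Dual K V} (c : K)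
    (h : ∀ v v', W.1 v v' = c * (φ v * ψ v' + ψ v * φ v')) (x : S p) :
    Qm p d W x + (hf K * W.1 d d) • x = c • hm p d φ (hm p d ψ x) := by
  have e : ∀ v, W.1 v = c • (φ v • ψ + ψ v • φ) := fun v => by ext v'; simp [h, mul_add]
  have : con2 p W x = c • con p φ (con p ψ x) := by
    induction x using Fock.induction with
    | h1 => simp
    | hι v x hx =>
      simp only [con2_ι_mul, hx, con_ι_mul_ev _ (Ev.id _), e, map_add, map_smul,
        LinearMap.add_apply, LinearMap.smul_apply, mul_smul_comm]
      module
    | hadd x x' h h' => simp only [map_add, h, h', smul_add]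
    | hsmul c x h => simp only [map_smul, h, smul_comm c]
  have h2 : hf K * W.1 d d = c * (φ d * ψ d) := by
    rw [h]; linear_combination c * φ d * ψ d * hf_add K
  rw [h2]
  simp only [Qm_apply, this, e, hm_apply, map_sub, map_add, map_smul, LinearMap.add_apply,
    LinearMap.smul_apply]
  module

end Vale.Agent.P269.WK
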