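import Vale.Agent.P269.WK.Rearr
import Mathlib.Data.Multiset.Antidiagonal
import Mathlib.Combinatorics.Enumerative.Partition.Basic

/-! Calculus of functions on multisets: sums over an element, sums over splittings, partitions,
the cut and the join operator. -/

namespace Vale.Agent.P269.WK

open Finset

section calculus

variable {I J : Type*} {M N : Type*} [AddCommMonoid M] [AddCommMonoid N] {A : Type*} [CommRing A]

/-- The sum over all splittings `μ = x + y`. -/
def s2 (μ : Multiset I) (F : Multiset I → Multiset I → M) : M :=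
  (μ.antidiagonal.map fun q => F q.1 q.2).sum

@[simp] lemma s2_zero (F : Multiset I → Multiset I → M) : s2 0 F = F 0 0 := by simp [s2]

lemma s2_cons (a : I) (μ : Multiset I) (F : Multiset I → Multiset I → M) :
    s2 (a ::ₘ μ) F = s2 μ (fun x y => F (a ::ₘ x) y) + s2 μ fun x y => F x (a ::ₘ y) := by
  simp [s2, add_comm]

lemma s2_congr {μ : Multiset I} {F G : Multiset I → Multiset I → M}
    (h : ∀ x y, x + y = μ → F x y = G x y) : s2 μ F = s2 μ G :=
  congrArg Multiset.sum (Multiset.map_congr rfl fun _ hq => h _ _ (Multiset.mem_antidiagonal.1 hq))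

lemma s2_add (μ : Multiset I) (F G : Multiset I → Multiset I → M) :
    s2 μ (fun x y => F x y + G x y) = s2 μ F + s2 μ G := Multiset.sum_map_add

@[simp] lemma s2_zero' (μ : Multiset I) : s2 μ (fun _ _ => (0 : M)) = 0 := by simp [s2]

lemma s2_eq_zero {μ : Multiset I} {F : Multiset I → Multiset I → M}
    (h : ∀ x y, x + y = μ → F x y = 0) : s2 μ F = 0 := (s2_congr h).trans (s2_zero' μ)

lemma map_s2 {Φ : Type*} [FunLike Φ M N] [AddMonoidHomClass Φ M N] (φ : Φ) (μ : Multiset I)
    (F : Multiset I → Multiset I → M) : φ (s2 μ F) = s2 μ fun x y => φ (F x y) := by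
  rw [s2, map_multiset_sum, Multiset.map_map]; rfl

lemma mul_s2 (c : A) (μ : Multiset I) (F : Multiset I → Multiset I → A) :
    c * s2 μ F = s2 μ fun x y => c * F x y := map_s2 (AddMonoidHom.mulLeft c) μ F

lemma s2_mul (c : A) (μ : Multiset I) (F : Multiset I → Multiset I → A) :
    s2 μ F * c = s2 μ fun x y => F x y * c := map_s2 (AddMonoidHom.mulRight c) μ F

lemma smul_s2 {R : Type*} [Monoid R] [DistribMulAction R M] (c : R) (μ : Multiset I)
    (F : Multiset I → Multiset I → M) : c • s2 μ F = s2 μ fun x y => c • F x y :=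
  map_s2 (DistribSMul.toAddMonoidHom M c) μ F

lemma s2_sum {α : Type*} (s : Finset α) (μ : Multiset I) (F : α → Multiset I → Multiset I → M) :
    s2 μ (fun x y => ∑ a ∈ s, F a x y) = ∑ a ∈ s, s2 μ (F a) := by
  classical
  induction s using Finset.induction_on with
  | empty => simp
  | insert a s ha ih => simp only [sum_insert ha, s2_add, ih]

lemma s2_swap (μ : Multiset I) (F : Multiset I → Multiset I → M) :
    s2 μ F = s2 μ fun x y => F y x := by
  induction μ using Multiset.induction_on generalizing F with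
  | empty => simp
  | cons a μ ih => rw [s2_cons, s2_cons, ih, ih fun x y => F x (a ::ₘ y), add_comm]

lemma s2_assoc (μ : Multiset I) (F : Multiset I → Multiset I → Multiset I → M) :
    s2 μ (fun x y => s2 x fun u v => F u v y) = s2 μ fun u w => s2 w fun v y => F u v y := by
  induction μ using Multiset.induction_on generalizing F with
  | empty => simp
  | cons a μ ih => simp only [s2_cons, s2_add, ih, add_assoc]

lemma s2_map (e : I → J) (μ : Multiset I) (F : Multiset J → Multiset J → M) :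
    s2 (μ.map e) F = s2 μ fun x y => F (x.map e) (y.map e) := by
  induction μ using Multiset.induction_on generalizing F with
  | empty => simp
  | cons a μ ih => simp only [Multiset.map_cons, s2_cons, ih]

open Classical in
lemma s2_left (μ : Multiset I) (F : Multiset I → M) :
    s2 μ (fun x y => if x = 0 then F y else 0) = F μ := by
  induction μ using Multiset.induction_on generalizing F with
  | empty => simp
  | cons a μ ih => simp [s2_cons, ih fun y => F (a ::ₘ y)]

lemma s2_val {ι : Type*} [DecidableEq ι] (s : Finset ι) (μ : ι → I)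
    (F : Multiset I → Multiset I → M) :
    s2 (s.val.map μ) F = ∑ t ∈ s.powerset, F (t.val.map μ) ((s \ t).val.map μ) := by
  induction s using Finset.induction_on generalizing F with
  | empty => simp
  | insert a s ha ih =>
    rw [insert_val_of_notMem ha, Multiset.map_cons, s2_cons, ih, ih, sum_powerset_insert ha,
      add_comm]
    congr 1 <;> refine sum_congr rfl fun t ht => ?_
    · have h : a ∉ t := fun h => ha (mem_powerset.1 ht h)
      rw [insert_sdiff_of_notMem _ h, insert_val_of_notMem (by simp [ha]), Multiset.map_cons]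
    · have h : a ∉ t := fun h => ha (mem_powerset.1 ht h)
      rw [insert_val_of_notMem h, Multiset.map_cons, insert_sdiff_insert,
        sdiff_insert_of_notMem ha]

/-- The convolution. -/
def cv (f g : Multiset I → A) (μ : Multiset I) : A := s2 μ fun x y => f x * g y

@[simp] lemma cv_zero (f g : Multiset I → A) : cv f g 0 = f 0 * g 0 := s2_zero _

lemma cv_cons (f g : Multiset I → A) (a : I) (μ : Multiset I) : cv f g (a ::ₘ μ) =
    cv (fun x => f (a ::ₘ x)) g μ + cv f (fun x => g (a ::ₘ x)) μ := s2_cons _ _ _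

lemma cv_comm (f g : Multiset I → A) : cv f g = cv g f :=
  funext fun _ => (s2_swap _ _).trans (s2_congr fun _ _ _ => mul_comm _ _)

lemma cv_assoc (f g h : Multiset I → A) : cv (cv f g) h = cv f (cv g h) := funext fun μ => by
  simp only [cv, s2_mul, mul_s2, s2_assoc, mul_assoc]

lemma cv_congr {f g f' g' : Multiset I → A} {μ : Multiset I} (hf : ∀ x ≤ μ, f x = f' x)
    (hg : ∀ x ≤ μ, g x = g' x) : cv f g μ = cv f' g' μ := s2_congr fun x y h => by
  rw [hf x (h ▸ Multiset.le_add_right x y), hg y (h ▸ Multiset.le_add_left y x)]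

/-- Cancellation. -/
lemma cv_cancel [NoZeroDivisors A] {f g : Multiset I → A} (hg : g 0 ≠ 0) (μ : Multiset I)
    (h : ∀ x ≤ μ, cv f g x = 0) : f μ = 0 := by
  classical
  induction μ using Multiset.strongInductionOn with
  | ih μ ih =>
    have e := h μ le_rfl
    rw [cv, s2_swap, s2_congr (G := fun x y => if x = 0 then f y * g 0 else 0), s2_left] at e
    · exact (mul_eq_zero.1 e).resolve_right hg
    · intro x y hxy
      split_ifs with hx
      · rw [hx]
      · have : y < μ := hxy ▸ lt_add_of_pos_left y (pos_iff_ne_zero.2 hx)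
        rw [ih y this fun z hz => h z (hz.trans this.le), zero_mul]

variable [DecidableEq I] [DecidableEq J]

/-- The sum over all elements `k`, `μ = k ::ₘ ν`. -/
def s1 (μ : Multiset I) (F : I → Multiset I → M) : M := (μ.map fun k => F k (μ.erase k)).sum

@[simp] lemma s1_zero (F : I → Multiset I → M) : s1 0 F = 0 := by simp [s1]

lemma s1_cons (a : I) (μ : Multiset I) (F : I → Multiset I → M) :
    s1 (a ::ₘ μ) F = F a μ + s1 μ fun k ν => F k (a ::ₘ ν) := by
  rw [s1, Multiset.map_cons, Multiset.sum_cons, Multiset.erase_cons_head, s1]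
  congr 2
  refine Multiset.map_congr rfl fun k hk => ?_
  rw [Multiset.erase_cons_tail_of_mem hk]

lemma s1_congr {μ : Multiset I} {F G : I → Multiset I → M}
    (h : ∀ k ν, k ::ₘ ν = μ → F k ν = G k ν) : s1 μ F = s1 μ G :=
  congrArg Multiset.sum (Multiset.map_congr rfl fun _ hq => h _ _ (Multiset.cons_erase hq))

lemma s1_add (μ : Multiset I) (F G : I → Multiset I → M) :
    s1 μ (fun x y => F x y + G x y) = s1 μ F + s1 μ G := Multiset.sum_map_add

@[simp] lemma s1_zero' (μ : Multiset I) : s1 μ (fun _ _ => (0 : M)) = 0 := by simp [s1]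

lemma s1_eq_zero {μ : Multiset I} {F : I → Multiset I → M}
    (h : ∀ k ν, k ::ₘ ν = μ → F k ν = 0) : s1 μ F = 0 := (s1_congr h).trans (s1_zero' μ)

lemma map_s1 {Φ : Type*} [FunLike Φ M N] [AddMonoidHomClass Φ M N] (φ : Φ) (μ : Multiset I)
    (F : I → Multiset I → M) : φ (s1 μ F) = s1 μ fun x y => φ (F x y) := by
  rw [s1, map_multiset_sum, Multiset.map_map]; rfl

lemma mul_s1 (c : A) (μ : Multiset I) (F : I → Multiset I → A) :
    c * s1 μ F = s1 μ fun x y => c * F x y := map_s1 (AddMonoidHom.mulLeft c) μ F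

lemma s1_mul (c : A) (μ : Multiset I) (F : I → Multiset I → A) :
    s1 μ F * c = s1 μ fun x y => F x y * c := map_s1 (AddMonoidHom.mulRight c) μ F

lemma smul_s1 {R : Type*} [Monoid R] [DistribMulAction R M] (c : R) (μ : Multiset I)
    (F : I → Multiset I → M) : c • s1 μ F = s1 μ fun x y => c • F x y :=
  map_s1 (DistribSMul.toAddMonoidHom M c) μ F

lemma s1_sum {α : Type*} (s : Finset α) (μ : Multiset I) (F : α → I → Multiset I → M) :
    s1 μ (fun x y => ∑ a ∈ s, F a x y) = ∑ a ∈ s, s1 μ (F a) := by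
  classical
  induction s using Finset.induction_on with
  | empty => simp
  | insert a s ha ih => simp only [sum_insert ha, s1_add, ih]

lemma s1_fst (μ : Multiset I) (f : I → M) : s1 μ (fun k _ => f k) = (μ.map f).sum := rfl

lemma s1_comm (μ : Multiset I) (F : I → I → Multiset I → M) :
    s1 μ (fun a ν => s1 ν (F a)) = s1 μ fun b ν => s1 ν fun a ν' => F a b ν' := by
  induction μ using Multiset.induction_on generalizing F with
  | empty => simp
  | cons c μ ih =>
    simp only [s1_cons, s1_add]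
    rw [ih fun a b ν => F a b (c ::ₘ ν)]
    abel

lemma s1_map (e : I → J) (μ : Multiset I) (F : J → Multiset J → M) :
    s1 (μ.map e) F = s1 μ fun k ν => F (e k) (ν.map e) := by
  induction μ using Multiset.induction_on generalizing F with
  | empty => simp
  | cons a μ ih => simp only [Multiset.map_cons, s1_cons, ih]

lemma s1_add_left (μ ν : Multiset I) (F : I → Multiset I → M) :
    s1 (μ + ν) F = s1 μ (fun k x => F k (x + ν)) + s1 ν fun k x => F k (μ + x) := by
  induction μ using Multiset.induction_on generalizing F with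
  | empty => simp
  | cons a μ ih => simp only [Multiset.cons_add, s1_cons, ih, add_assoc]

lemma s1_val {ι : Type*} [DecidableEq ι] (s : Finset ι) (μ : ι → I) (F : I → Multiset I → M) :
    s1 (s.val.map μ) F = ∑ i ∈ s, F (μ i) ((s.erase i).val.map μ) := by
  rw [s1_map]; rfl

lemma s1_count (μ : Multiset I) (F : I → Multiset I → M) :
    s1 μ F = ∑ k ∈ μ.toFinset, μ.count k • F k (μ.erase k) := Finset.sum_multiset_map_count _ _

lemma s2_s1 (μ : Multiset I) (F : I → Multiset I → Multiset I → M) :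
    s2 μ (fun x y => s1 x fun k ν => F k ν y) = s1 μ fun k ν => s2 ν (F k) := by
  induction μ using Multiset.induction_on generalizing F with
  | empty => simp
  | cons a μ ih => simp only [s2_cons, s1_cons, s2_add, s1_add, ih, add_assoc]

lemma s2_s1' (μ : Multiset I) (F : I → Multiset I → Multiset I → M) :
    s2 μ (fun x y => s1 y fun k ν => F k x ν) = s1 μ fun k ν => s2 ν (F k) := by
  rw [s2_swap, s2_s1]
  exact s1_congr fun k ν _ => (s2_swap _ _).symm

lemma s2_one (μ : Multiset I) (F : Multiset I → Multiset I → M) :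
    s2 μ (fun x y => if Multiset.card x = 1 then F x y else 0) = s1 μ fun k ν => F {k} ν := by
  classical
  rw [s2_congr (G := fun x y => s1 x fun k ν => if ν = 0 then F {k} y else 0), s2_s1]
  · exact s1_congr fun k ν _ => by convert s2_left ν (F {k})
  · intro x y _
    split_ifs with h
    · obtain ⟨k, rfl⟩ := Multiset.card_eq_one.1 h
      simp [s1]
    · refine (s1_eq_zero fun k ν e => if_neg ?_).symm
      rintro rfl
      exact h (e ▸ rfl)

lemma cv_s1 (F : I → Multiset I → A) (g : Multiset I → A) (μ : Multiset I) :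
    cv (fun x => s1 x F) g μ = s1 μ fun k ν => cv (F k) g ν := by
  simp only [cv, s1_mul, s2_s1]

end calculus

/-- The partitions of `d`. -/
noncomputable def Pt (d : ℕ) : Finset (Multiset ℕ) := univ.image fun p : Nat.Partition d => p.parts

lemma mem_Pt {d : ℕ} {μ : Multiset ℕ} : μ ∈ Pt d ↔ μ.sum = d ∧ 0 ∉ μ := by
  simp only [Pt, mem_image, mem_univ, true_and]
  constructor
  · rintro ⟨p, rfl⟩
    exact ⟨p.parts_sum, fun h => (p.parts_pos h).false⟩
  · rintro ⟨h1, h2⟩
    exact ⟨⟨μ, fun {i} hi => Nat.pos_of_ne_zero fun h => h2 (h ▸ hi), h1⟩, rfl⟩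

lemma card_le_sum {μ : Multiset ℕ} (h : 0 ∉ μ) : Multiset.card μ ≤ μ.sum := by
  simpa using Multiset.card_nsmul_le_sum (s := μ) (a := 1) fun x hx =>
    Nat.pos_of_ne_zero fun e => h (e ▸ hx)

lemma Pt_zero : Pt 0 = {0} := by
  ext μ
  rw [mem_Pt, mem_singleton]
  refine ⟨fun h => Multiset.card_eq_zero.1 ?_, by rintro rfl; simp⟩
  have := card_le_sum h.2
  omega

/-- The weight `∏ μ / Aut μ`. -/
noncomputable def wg (μ : Multiset ℕ) : ℚ :=
  (μ.prod : ℕ) / ∏ k ∈ μ.toFinset, ((μ.count k).factorial : ℚ)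

@[simp] lemma wg_zero : wg 0 = 1 := by simp [wg]

lemma wg_ne {μ : Multiset ℕ} (h : 0 ∉ μ) : wg μ ≠ 0 :=
  div_ne_zero (Nat.cast_ne_zero.2 (Multiset.prod_ne_zero h))
    (prod_ne_zero_iff.2 fun _ _ => Nat.cast_ne_zero.2 (Nat.factorial_ne_zero _))

lemma wg_cons (k : ℕ) (μ : Multiset ℕ) : wg (k ::ₘ μ) * (μ.count k + 1) = k * wg μ := by
  have e : ∏ j ∈ (k ::ₘ μ).toFinset, (((k ::ₘ μ).count j).factorial : ℚ) =
      (μ.count k + 1) * ∏ j ∈ μ.toFinset, ((μ.count j).factorial : ℚ) := by
    have hk : k ∈ (k ::ₘ μ).toFinset := by simp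
    rw [prod_subset (s₁ := μ.toFinset) (s₂ := (k ::ₘ μ).toFinset) (by simp) fun j _ hj => by
      simp [Multiset.count_eq_zero_of_notMem (show j ∉ μ by simpa using hj)],
      ← mul_prod_erase _ _ hk, ← mul_prod_erase _ _ hk,
      Multiset.count_cons_self, Nat.factorial_succ, ← mul_assoc,
      prod_congr rfl fun j hj => by rw [Multiset.count_cons_of_ne (ne_of_mem_erase hj)]]
    push_cast
    rfl
  have : (μ.count k + 1 : ℚ) ≠ 0 := by positivity
  rw [wg, wg, e, Multiset.prod_cons]
  push_cast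
  field_simp

section modules

variable {M : Type*} [AddCommGroup M] [Module ℚ M] {A : Type*} [CommRing A] [Algebra ℚ A]

/-- Removing a part. -/
lemma sum_s1 (d : ℕ) (F : ℕ → Multiset ℕ → M) : ∑ μ ∈ Pt d, wg μ • s1 μ F =
    ∑ q ∈ antidiagonal d, ∑ ν ∈ Pt q.2, (q.1 * wg ν) • F q.1 ν := by
  simp only [s1_count, smul_sum]
  rw [sum_sigma', sum_sigma', ← sum_filter_of_ne (s := (antidiagonal d).sigma _)
    (p := fun x => x.1.1 ≠ 0) fun x _ h e => h (by simp [e])]
  refine sum_nbij' (fun x => ⟨(x.2, d - x.2), x.1.erase x.2⟩) (fun x => ⟨x.1.1 ::ₘ x.2, x.1.1⟩)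
    ?_ ?_ ?_ ?_ ?_
  · rintro ⟨μ, k⟩ h
    simp only [mem_sigma, mem_Pt, Multiset.mem_toFinset] at h
    obtain ⟨ν, rfl⟩ := Multiset.exists_cons_of_mem h.2
    simp only [Multiset.sum_cons, Multiset.mem_cons, not_or] at h
    simp only [mem_filter, mem_sigma, mem_antidiagonal, mem_Pt, Multiset.erase_cons_head]
    exact ⟨⟨by omega, by omega, h.1.2.2⟩, by omega⟩
  · rintro ⟨⟨k, e⟩, ν⟩ h
    simp only [mem_filter, mem_sigma, mem_antidiagonal, mem_Pt] at h
    simp only [mem_sigma, mem_Pt, Multiset.mem_toFinset, Multiset.sum_cons, Multiset.mem_cons,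
      not_or]
    exact ⟨⟨by omega, by omega, h.1.2.2⟩, by simp⟩
  · rintro ⟨μ, k⟩ h
    simp only [mem_sigma, Multiset.mem_toFinset] at h
    simp [Multiset.cons_erase h.2]
  · rintro ⟨⟨k, e⟩, ν⟩ h
    simp only [mem_filter, mem_sigma, mem_antidiagonal] at h
    obtain rfl : d = k + e := h.1.1.symm
    simp
  · rintro ⟨μ, k⟩ h
    simp only [mem_sigma, Multiset.mem_toFinset] at h
    obtain ⟨ν, rfl⟩ := Multiset.exists_cons_of_mem h.2
    simp only [Multiset.erase_cons_head, Multiset.count_cons_self]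
    rw [← wg_cons, ← Nat.cast_smul_eq_nsmul ℚ, smul_smul]
    push_cast
    rfl

/-- The cut term. -/
noncomputable def cutF (f : Multiset ℕ → M) (μ : Multiset ℕ) : M :=
  (1 / 2 : ℚ) • s1 μ fun k ν => ∑ p ∈ antidiagonal k, ((p.1 : ℚ) * p.2) • f (p.1 ::ₘ p.2 ::ₘ ν)

/-- The join term. -/
noncomputable def joinF (f : Multiset ℕ → M) (μ : Multiset ℕ) : M :=
  (1 / 2 : ℚ) • s1 μ fun a ν => s1 ν fun b ν' => ((a : ℚ) + b) • f ((a + b) ::ₘ ν')

/-- The quadratic cut term. -/
noncomputable def quadF (f : Multiset ℕ → A) (μ : Multiset ℕ) : A :=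
  (1 / 2 : ℚ) • s1 μ fun k ν => ∑ p ∈ antidiagonal k, ((p.1 : ℚ) * p.2) •
    cv (fun x => f (p.1 ::ₘ x)) (fun x => f (p.2 ::ₘ x)) ν

lemma cutF_congr {f g : Multiset ℕ → M} {d : ℕ} {μ : Multiset ℕ} (hμ : μ ∈ Pt d)
    (h : ∀ ν ∈ Pt d, Multiset.card ν = Multiset.card μ + 1 → f ν = g ν) : cutF f μ = cutF g μ := by
  refine congrArg _ (s1_congr fun k ν e => sum_congr rfl fun p hp => ?_)
  subst e
  by_cases h0 : p.1 = 0 ∨ p.2 = 0
  · rcases h0 with h0 | h0 <;> simp [h0]
  · have := mem_antidiagonal.1 hp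
    simp only [mem_Pt, Multiset.sum_cons, Multiset.mem_cons, not_or] at hμ h0
    rw [h _ (by simp only [mem_Pt, Multiset.sum_cons, Multiset.mem_cons, not_or]
                exact ⟨by omega, by omega, by omega, hμ.2.2⟩) (by simp)]

lemma joinF_congr {f g : Multiset ℕ → M} {d : ℕ} {μ : Multiset ℕ} (hμ : μ ∈ Pt d)
    (h : ∀ ν ∈ Pt d, Multiset.card ν + 1 = Multiset.card μ → f ν = g ν) :
    joinF f μ = joinF g μ := by
  refine congrArg _ (s1_congr fun a ν e => s1_congr fun b ν' e' => ?_)
  subst e e'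
  simp only [mem_Pt, Multiset.sum_cons, Multiset.mem_cons, not_or] at hμ
  rw [h _ (by simp only [mem_Pt, Multiset.sum_cons, Multiset.mem_cons, not_or]
              exact ⟨by omega, by omega, hμ.2.2.2⟩) (by simp)]

/-- Cut and join are adjoint. -/
lemma cut_join (d : ℕ) (f g : Multiset ℕ → A) :
    ∑ μ ∈ Pt d, wg μ • (cutF f μ * g μ) = ∑ μ ∈ Pt d, wg μ • (f μ * joinF g μ) := by
  have e1 : ∀ μ, cutF f μ * g μ = (1 / 2 : ℚ) • s1 μ fun k ν => ∑ p ∈ antidiagonal k,
      ((p.1 : ℚ) * p.2) • (f (p.1 ::ₘ p.2 ::ₘ ν) * g (k ::ₘ ν)) := fun μ => by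
    rw [cutF, smul_mul_assoc, s1_mul]
    refine congrArg _ (s1_congr fun k ν e => ?_)
    simp only [sum_mul, smul_mul_assoc, e]
  have e2 : ∀ μ, f μ * joinF g μ = (1 / 2 : ℚ) • s1 μ fun a ν => s1 ν fun b ν' =>
      ((a : ℚ) + b) • (f (a ::ₘ b ::ₘ ν') * g ((a + b) ::ₘ ν')) := fun μ => by
    rw [joinF, mul_smul_comm, mul_s1]
    refine congrArg _ (s1_congr fun a ν e => ?_)
    rw [mul_s1]
    exact s1_congr fun b ν' e' => by rw [mul_smul_comm, e', e]
  simp only [e1, e2, smul_comm (wg _) (1 / 2 : ℚ), ← smul_sum, sum_s1, mul_smul]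
  congr 1
  simp only [smul_sum, smul_smul]
  rw [sum_congr rfl fun q _ => sum_comm, sum_sigma', sum_sigma' (antidiagonal d)]
  refine sum_nbij' (fun x => ⟨(x.2.1, x.2.2 + x.1.2), (x.2.2, x.1.2)⟩)
    (fun x => ⟨(x.1.1 + x.2.1, x.2.2), (x.1.1, x.2.1)⟩) ?_ ?_ ?_ ?_ ?_
  · rintro ⟨⟨k, e⟩, a, b⟩ h
    simp only [mem_sigma, mem_antidiagonal] at h ⊢
    exact ⟨by omega, trivial⟩
  · rintro ⟨⟨k, e⟩, a, b⟩ h
    simp only [mem_sigma, mem_antidiagonal] at h ⊢
    exact ⟨by omega, trivial⟩
  · rintro ⟨⟨k, e⟩, a, b⟩ h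
    simp only [mem_sigma, mem_antidiagonal] at h
    simp [h.2]
  · rintro ⟨⟨k, e⟩, a, b⟩ h
    simp only [mem_sigma, mem_antidiagonal] at h
    simp [h.2]
  · rintro ⟨⟨k, e⟩, a, b⟩ h
    simp only [mem_sigma, mem_antidiagonal] at h
    obtain rfl := h.2
    refine sum_congr rfl fun ν _ => congrArg (· • _) ?_
    push_cast
    ring

end modules

end Vale.Agent.P269.WK
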