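import Vale.Agent.P269.WK.Alg
import Vale.Agent.P269.PA.Mul

/-! The Virasoro constraints of a point from the output of localisation on the projective line. -/

namespace Vale.Agent.P269.WK

open Finset Fock B TensorProduct

variable {H : Type} [AddCommGroup H] [Module ℂ H] {p : Par ℂ H} {κ : Type} [Fintype κ]
  {fr : Frame p κ} {A : Type} [CommRing A] [Algebra ℂ A]

lemma IsPt.bc (h : IsPt fr) (K : Type) [Field K] [Algebra ℂ K] : IsPt (fr.bc K) := by
  refine ⟨fun v => ?_, (fr.bc_η K ..).trans (by rw [h.one, one_smul, one_mul])⟩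
  induction v with
  | zero => simp
  | add a b ha hb => rw [map_add, add_smul, ← ha, ← hb]
  | tmul a v =>
    conv_lhs => rw [h.eq v]
    exact (tmul_smul ..).trans (by
      rw [show (fr.bc K).η (fr.bc K).one (a ⊗ₜ v) = _ from fr.bc_η K .., smul_assoc, one_mul]
      exact congrArg _ (by rw [Frame.bc, smul_tmul', smul_eq_mul, mul_one]))

variable [Ev p]

lemma par_eq (x : S p) : par p x = x :=
  DFunLike.congr_fun (hom_ext (g := AlgHom.id ℂ _) fun v => par_ι_ev (Ev.id v)) x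

variable (fr) in
/-- The monomial of the insertions `psi^m`, `m ∈ x`. -/
noncomputable def mp (x : Multiset ℕ) : S (p.fs ℕ) := mo _ (fun m => Finsupp.single m fr.one) x

lemma bcS_τ (K : Type) [Field K] [Algebra ℂ K] (i : Fin 2) (x : Multiset ℕ) :
    bcS _ (isEvS_jV p K) (mo _ (τ fr i) x) = mo _ (τ (fr.bc K) i) x :=
  hom_mo _ (fun m => (bcS_ι _).trans (congrArg _ (by
    ext n l
    by_cases a : m = n <;> by_cases b : l = i <;> simp [jV, τ, a, b, Frame.bc]))) x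

lemma prd_mp (x y : Multiset ℕ) :
    prd p ![mp fr x, mp fr y] = mo _ (τ fr 0) x * mo _ (τ fr 1) y := by
  have e (i : Fin 2) (x) : inc p i (mp fr x) = mo _ (τ fr i) x :=
    hom_mo _ (fun m => (map_ι ..).trans (congrArg _ (by simp [τ]))) x
  simp [prd, List.ofFn_succ, e]

theorem virC_of_out (h : IsPt fr) (vd : VD fr) {ac : Act fr A} {w : Fin 2 → ℂ} (hw : w 0 ≠ w 1)
    {R : Type} [Fintype R] {Z : Fin 2 → (R → ℤ) → ℕ → ℤ → S (p.fs ℕ) →ₗ[ℂ] ℂ}
    {C : Fin 2 → ℤ → ℕ → Multiset ℕ → ℂ} (hR : ∀ n, Raw (fun j m x => Z n 0 m j (mp fr x)) (C n))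
    {a : Fin 2 → R → ℤ} {Z0 : (Option R → ℤ) → ℤ → S ((p.pi (Fin 2)).fs ℕ) →ₗ[ℂ] ℂ}
    (loc : ∀ ZF : (Fin 2 → R → ℤ) → (Fin 2 → ℤ) → S (((p.bc F).pi (Fin 2)).fs ℕ) →ₗ[F] F,
      (∀ β jv x, ZF β jv (bcS _ (isEvS_jV p F) (prd p x)) =
        ∏ n, Hat.ofPS ℂ (PowerSeries.mk fun m => Z n (β n) m (jv n) (x n))) →
      Nonempty (LocOut (r := 1) ac w 0 a Z0 ZF)) : vd.VirC (Z 0 0 0) := by
  choose ZB ZF h1 h2 using fun (β : Fin 2 → R → ℤ) (jv : Fin 2 → ℤ) =>
    exists_ZB (fun n m => Z n (β n) m (jv n)) fun n m x => by rw [par_eq]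
  have h3 : ∀ β jv x, ZF β jv (bcS _ (isEvS_jV p F) (prd p x)) =
      ∏ n, Hat.ofPS ℂ (PowerSeries.mk fun m => Z n (β n) m (jv n) (x n)) := fun β jv x => by
    rw [h2, h1, map_prod]
  obtain ⟨⟨ZT, -, tup, t0, ZZ, l1, lam, l0, l2, l2', l3⟩⟩ := loc ZF h3
  have e : chi (r := 1) w (0 : Fin 2 → A) = χ _ fun i => algebraMap ℂ F (w i) * tt := by
    funext i
    rw [chi, Pi.zero_apply, tmul_zero, add_zero, χ, show w i • tt = _ from Algebra.smul_def (w i) tt]
    rfl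
  rw [e] at l1 l2 l3
  have L : LocP (ac.bc F) (fun i => algebraMap ℂ F (w i) * tt)
      (Polynomial.aeval (R := ℂ) tt).range.toSubring
      fun i j y => Hat.ofPS ℂ (.mk fun m => Z i 0 m j (mp fr y)) := by
    refine ⟨ZF 0, fun jv y y' => ?_, (ZZ · 0),
      fun e j y y' => ⟨ZT 0 e j (prd p ![mp fr y, mp fr y']), (l1 ..).trans ?_⟩,
      fun j y => (l2 0 j y).mono fun N hN => hN.trans ?_, l2' 0, fun m e j y => l3 m 0 e j y⟩
    · rw [← bcS_τ, ← bcS_τ, ← map_mul, ← prd_mp, h3, Fin.prod_univ_two]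
      rfl
    · rw [t0, sum_singleton, prd_mp, map_mul, bcS_τ, bcS_τ]
      simp [dgV]
    · rw [l0, one_mul]
      refine finsum_congr fun jv => finsum_congr fun _ =>
        congrArg (· * _) (prod_congr rfl fun i _ => ?_)
      have : ∀ i : Fin 2, univ.erase i = {i.rev} := by decide
      rw [this, prod_singleton, tw, ← sub_mul, ← map_sub]
      exact congrArg (· ^ jv i) (Algebra.smul_def (w i.rev - w i) tt)
  have hb := bil_of_loc (p := p.bc F) (V := fun n j m x => Z n 0 m j (mp fr x)) (h.bc F) hw hR L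
  exact virC_of_bil (hR 0) (hR 1) hb h vd fun j l => by rw [mp, mo_coe]

end Vale.Agent.P269.WK
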