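import Vale.Agent.P269.WK.Out
import Vale.Agent.P269.WK.PrS
import Vale.Agent.P269.Qrr.Fac
import Vale.Agent.P269.Qrr.AlgB
import Vale.Agent.P269.PA.Coh

/-! The twisted invariants of a point. -/

set_option linter.unusedSectionVars false

namespace Vale.Agent.P269

open P291Z Set Function Filter Fock Qrr PowerSeries

namespace WK

section alg

variable {V : Type} [AddCommGroup V] [Module ℂ V] {p : Par ℂ V} [Ev p] {I : Type}

theorem diag_mo (w : I → V) (x : Multiset I) : Fock.map _ (Deg.isEv_diag p) (mo p w x) =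
    s2 x fun y y' => Deg.InB.L p p (mo p w y) * Deg.InB.R p p (mo p w y') := by
  induction x using Multiset.induction_on with
  | empty => simp
  | cons a x ih =>
    have e : Fock.map _ (Deg.isEv_diag p) (ι p (w a)) =
        Deg.InB.L p p (ι p (w a)) + Deg.InB.R p p (ι p (w a)) := by simp [← map_add]
    have k := fun c : S (p.prod p) => map_s2 (I := I) (AddMonoidHom.mulLeft c) x
    simp only [AddMonoidHom.coe_mulLeft] at k
    rw [mo_cons, map_mul, ih, e, add_mul, s2_cons, k, k]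
    simp only [mo_cons, map_mul, mul_assoc]
    refine congrArg _ (s2_congr fun y y' _ => ?_)
    rw [← mul_assoc, Deg.InB.R_L_ev (par_eq _), mul_assoc]

theorem finsum_s2 (x : Multiset I) {α : Type} {g : α → Multiset I → Multiset I → ℂ}
    (h : ∀ y y', (support fun a => g a y y').Finite) :
    FSum (fun a => s2 x (g a)) (s2 x fun y y' => ∑ᶠ a, g a y y') := by
  induction x using Multiset.induction_on generalizing g with
  | empty => simpa only [s2_zero] using ⟨h 0 0, rfl⟩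
  | cons a x ih => simpa only [s2_cons] using (ih fun _ _ => h _ _).add (ih fun _ _ => h _ _)

theorem mp_coe {κ : Type} [Fintype κ] (fr : Frame p κ) (l : List ℕ) :
    mp fr l = monF p fun s => (l.get s, fr.one) := by
  rw [mp, mo_coe, monF, ← List.ofFn_get l, List.map_ofFn, List.ofFn_get]
  rfl

end alg

section deg

variable {X : Type} [TopologicalSpace X]

theorem isDeg_ofFn {n : ℕ} {c : Fin n → H X} {m : Fin n → ℤ} (h : ∀ s, H.IsDeg (m s) (c s)) :
    H.IsDeg (∑ s, m s) (List.ofFn c).prod := by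
  induction n with
  | zero => exact H.isDeg_one
  | succ n ih =>
    rw [List.ofFn_succ, List.prod_cons, Fin.sum_univ_succ]
    exact (h 0).mul (ih fun s => h s.succ)

theorem thC_deg {J L : Type} (T : Finset L) (b : L → ℂ) (y : L → J) {c : J → (Ch.Hev X)⟦X⟧}
    (h : ∀ j (m : ℕ), coeff m (c j) ∈ Ch.Hev.deg X m) (m : ℕ) :
    coeff m (thC T b y c) ∈ Ch.Hev.deg X m := by
  refine Finset.prod_induction _ (fun a : (Ch.Hev X)⟦X⟧ => ∀ m : ℕ, coeff m a ∈ Ch.Hev.deg X m)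
    (fun _ _ => Ch.Hev.coeff_mul_deg) (fun m => ?_) (fun l _ => Ch.Hev.coeff_inv_deg fun m => ?_) m
  · rw [coeff_one]
    split_ifs with e
    exacts [e ▸ Ch.Hev.one_deg, zero_mem _]
  · rw [coeff_rescale, ← map_pow, ← Algebra.smul_def]
    exact Submodule.smul_mem _ _ (h _ m)

end deg

end WK

open WK

variable {Λ R J K : Type} [Fintype Λ] [Fintype R] [Fintype J] [Fintype K] [DecidableEq R]

theorem AM.Sol.deg_zero {ν κ : Type} [Fintype ν] [Fintype κ] {F : Fam Empty Λ R J K}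
    {m : AM Λ R J ν κ} (h : m.Sol F) {g d} (ht : m.Typ g d) {j : J} (hj : ∀ z ∈ F.cone, z.2 j ≠ 0) :
    ∑ r, F.w j r * d r = 0 :=
  (ht.deg_bz _).symm.trans (Cv.deg_of_ne (h.2.1 j).1 fun z => hj _ (h.2.2 z))

/-- A presentation of the point. -/
structure Fam.Pt (F : Fam Empty Empty R J K) (k : ℕ) : Prop extends F.One k where
  eq : IsEmpty K
  dim : F.mov.ncard = Fintype.card R
  deg : ∀ d : R → ℤ, (∀ j, (∀ z ∈ F.cone, z.2 j ≠ 0) → ∑ r, F.w j r * d r = 0) → d = 0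

namespace Fam.Pt

variable {F : Fam Empty Empty R J K} {k : ℕ} (h : F.Pt k) {L : Type} (T : Finset L) (b : L → ℂ)
  (y : L → J)
include h

theorem cor_deg {n : ℕ} {P Θ d j} {f : Fin n → ℕ × H (F.X F.cone)}
    (e : F.corP k P Θ d j f ≠ 0) : d = 0 :=
  let ⟨_, a, _, c, _⟩ := h.supp e
  h.deg d fun _ => a.deg_zero c

theorem cor_dim (hW : St.Well) {n : ℕ} {P : AM Empty R J (Fin n ⊕ Fin 0) (Fin 0) → Prop}
    (hP : ∀ m m', m.Same m' → P m → P m') {m j} {r : Fin n → ℕ}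
    (e : F.corP k P (th T b y m) 0 j (fun s => (r s, 1)) ≠ 0) :
    (m : ℤ) + ∑ s, (r s : ℤ) = 3 * j + n := by
  classical
  obtain ⟨D, e1, hD⟩ := ((h.corP_ev hW (.of_same hP) _ _).and (F.eventually_bigD k)).exists
  have hz := h.gz' (Fin n ⊕ Fin 0) (Fin 0) hD (j + 1) 0 0
  have := h.compactSpace (ν := Fin n ⊕ Fin 0) (κ := Fin 0) (g := j + 1) (d := 0) (u := 0) hD
  have := hz.nice
  have := h.eq
  obtain ⟨K₀, hK⟩ := h.nice.reg
  obtain ⟨_, φ, _, _, hs⟩ := h.nice.sh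
  have : IsEmpty (Fin _) := ⟨fun i => (hs.free i).2.1 (h.abs.1 (hs.free i).1)⟩
  have hv := h.good.vir_deg' (ν := Fin n ⊕ Fin 0) (Fin 0) hK (b := 0) (fun l => ⟨fun _ => l,
    .of_map_nhds (.of_forall fun _ => continuousAt_const)
    (.of_forall fun _ => continuous_subtype_val.continuousAt) analyticAt_const
    (injective_of_subsingleton _) fun _ hs => mem_of_superset univ_mem fun y _ =>
      Subsingleton.elim l y ▸ (mem_of_mem_nhds hs :), rfl⟩) h.nice.pol hs h.big hD (j + 1) 0 0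
  rw [show (fun s => (0 : Fin n ⊕ Fin 0 → ℕ) s • (0 : J → ℕ)) = 0 from
    funext fun _ => smul_zero _] at hv
  rw [e1, intg_sel hz _ (isClopen_sel_of_same hD hP) (hz.at_fsF _ _), hz.prod_fsF,
    evC_th T b y hz.constCoeff_indC] at e
  refine by_contra fun c => e (Loc.intg_deg hv ((hcls_isDeg (k := 0) (ind_eq_fn _ ▸ isDeg_fn _)).mul
    (H.IsDeg.mul (thC_deg T b y hz.indC_deg m) (isDeg_ofFn (m := fun s => 2 * (r s * 1))
      fun s => ?_))) fun e => c ?_)
  · rw [Ch.ins1, hz.hcls_evF, map_one, mul_one (_ ^ _)]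
    exact Ch.Hev.pow_deg (a := ⟨_, hz.cl_psi_mem _⟩) (k := 1) (hcls_isDeg (hz.psi_deg _)) _
  · have : (Finset.univ.filter (· ∈ F.mov)).card = Fintype.card R := by
      rw [← h.dim, ← ncard_coe_finset]
      simp
    simp [vdim, ← Finset.mul_sum, this] at e
    omega

variable {C : Deg.Coh} {i : C.H →ₗ[ℂ] H (F.X F.cone)} (hc : F.IsCoh C i) [Ev C.p] (hS : St.Spec)
include hc hS

theorem ser0_mp {P Θ} (he : F.ExOk k ⟨P, Θ, univ, 1⟩) (d j) (l : List ℕ) :
    F.ser0 k ⟨P, Θ, univ, 1⟩ C.p i d j (mp C.fr l) =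
      F.corP k (P _ _) Θ d j fun s => (l.get s, 1) := by
  rw [mp_coe, h.ser0_monF hS he hc.ev, ← hc.one]
  rfl

theorem ser0_dim (hW : St.Well) {P : ∀ ν κ : Type, AM Empty R J ν κ → Prop}
    (he : ∀ Θ, F.ExOk k ⟨P, Θ, univ, 1⟩) (hP : ∀ n (m m' : AM _ _ _ (Fin n ⊕ Fin 0) (Fin 0)),
      m.Same m' → P _ _ m → P _ _ m') (j) (m : ℕ) (x : Multiset ℕ)
    (e : F.ser0 k ⟨P, th T b y m, univ, 1⟩ C.p i 0 j (mp C.fr x) ≠ 0) :
    (m : ℤ) + (x.sum : ℕ) = 3 * j + Multiset.card x := by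
  induction x using Quotient.inductionOn with
  | h l =>
    rw [Multiset.quot_mk_to_coe] at e ⊢
    rw [h.ser0_mp hc hS (he _)] at e
    simpa [← Nat.cast_sum] using h.cor_dim T b y hW (hP _) e

theorem ser0_low {Θ j} {x : Multiset ℕ}
    (e : F.ser0 k ⟨fun _ _ m => m.Conn, Θ, univ, 1⟩ C.p i 0 j (mp C.fr x) ≠ 0) : -1 ≤ j := by
  induction x using Quotient.inductionOn with
  | h l =>
    rw [Multiset.quot_mk_to_coe, h.ser0_mp hc hS (h.exOk_conn _)] at e
    obtain ⟨m, -, -, c, d⟩ := h.supp e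
    have := c.1.symm.trans_ge d.gen_nonneg
    omega

theorem ser0_deg {Θ d j} {x : Multiset ℕ}
    (e : F.ser0 k ⟨fun _ _ m => m.Conn, Θ, univ, 1⟩ C.p i d j (mp C.fr x) ≠ 0) : d = 0 := by
  induction x using Quotient.inductionOn with
  | h l =>
    rw [Multiset.quot_mk_to_coe, h.ser0_mp hc hS (h.exOk_conn _)] at e
    exact h.cor_deg e

theorem ser0_one (hN : St.Norm) : F.ser0 k (F.exT (th T b y 0)) C.p i 0 0 (mp C.fr 0) = 1 :=
  let ⟨l, e⟩ := h.pt
  (PA.ser0_mon hS h.nice h.cp h.big (h.exOk_exT _) Subset.rfl hc.ev 0 0 []).trans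
    ((hN F 0 k _ _ _ l h.nice e h.big).trans (eval_th T b y 0))

theorem ser0_prod (hW : St.Well) (hP : St.ProdT) (j) (m a : ℕ) (x : Multiset ℕ) :
    F.ser0 k (F.exT (th T b y m)) C.p i 0 j (mp C.fr (a ::ₘ x)) = s2 x fun z z' => ∑ᶠ u : ℤ,
      ∑ q ∈ Finset.HasAntidiagonal.antidiagonal m,
        F.ser0 k ⟨fun _ _ m => m.Conn, th T b y q.1, univ, 1⟩ C.p i 0 u (mp C.fr (a ::ₘ z)) *
          F.ser0 k (F.exT (th T b y q.2)) C.p i 0 (j - u) (mp C.fr z') := by
  have e : ∀ (A B : S (C.p.fs ℕ) →ₗ[ℂ] ℂ), Deg.tp A B (ι _ (Finsupp.single a C.fr.one, 0) *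
      Fock.map _ (Deg.isEv_diag _) (mp C.fr x)) =
      s2 x fun y y' => A (mp C.fr (a ::ₘ y)) * B (mp C.fr y') := fun A B => by
    rw [mp, diag_mo]
    refine (map_s2 (Deg.tp A B ∘ₗ LinearMap.mulLeft ℂ _) x _).trans (s2_congr fun y y' _ => ?_)
    rw [← Deg.InB.tp_ap, mp, mo_cons, map_mul (Deg.InB.L _ _), map_ι, mul_assoc]
    rfl
  rw [mp, mo_cons, ← mp, hP F k C.p i _ _ _ _ h.toOne hc.ev (cop_th T b y m),
    (finsum_s2 x fun y y' => ?_).2, ← finsum_mem_univ, finsum_mem_inter_support_eq' _ _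
      (range (Prod.mk 0)) fun q hq => ?_, finsum_mem_range (Prod.mk_right_injective 0)]
  · simp only [e, s2_sum, sub_zero]
  · refine iff_of_true trivial ⟨q.2, Prod.ext (by_contra fun c => hq ?_) rfl⟩
    exact Finset.sum_eq_zero fun t _ => (e ..).trans (s2_eq_zero fun y y' _ =>
      mul_eq_zero_of_left (by_contra fun e => c (h.ser0_deg hc hS e).symm) _)
  · refine ((Finset.range (m + 1)).finite_toSet.image fun u : ℕ =>
      ((u + ((a ::ₘ y).sum : ℕ) - Multiset.card (a ::ₘ y)) / 3 : ℤ)).subset fun i' hi => ?_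
    obtain ⟨q, hq, c⟩ := Finset.exists_ne_zero_of_sum_ne_zero hi
    have := h.ser0_dim T b _ hc hS hW h.exOk_conn (fun _ _ _ => AM.Same.conn) _ _ _
      (left_ne_zero_of_mul c)
    have := Finset.HasAntidiagonal.mem_antidiagonal.1 hq
    exact ⟨q.1, Finset.mem_coe.2 (Finset.mem_range.2 (by omega)), by simp only; omega⟩

theorem ser0_dil (hW : St.Well) (hU : St.UnQ) (hD : St.Dil) (j) (m : ℕ) (x : Multiset ℕ) :
    F.ser0 k (F.exT (th T b y m)) C.p i 0 j (mp C.fr (1 ::ₘ x)) =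
      (2 * j + Multiset.card x + F.corP k (fun m => m.Conn) (th T b y 0) 0 0 ![(1, 1)]) *
        F.ser0 k (F.exT (th T b y m)) C.p i 0 j (mp C.fr x) := by
  induction x using Quotient.inductionOn with
  | h l =>
  have := h.good.fp
  obtain ⟨ac, hac⟩ := PA.exists_act hc
  have e := hU F k C i (fun j => ⟨_, Wt.lc_mem 0 (F.w j)⟩) _ _ _ _ h.toOne hc (fun _ => rfl)
    (cop_th T b y m) 0 j (fun s => (l.get s, C.fr.one)) 1 1
    (fun t => f3 ac (evC (fun j => 1 + PowerSeries.C (⟨_, Wt.lc_mem 0 (F.w j)⟩ : Ch.Hev _) * X)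
      (th T b y t.1))) (one_mem _) fun t _ x y => by
        rw [mul_one, ← hac, ← hc.η]; rfl
  rw [hD F k _ 0 j _ h.toOne, if_neg one_ne_zero, add_zero, ← h.ser0_exT hS _ hc.ev, ← mp_coe,
    Finset.sum_eq_single (0, m) (fun t ht c => ?_) (by simp)] at e
  · rw [Multiset.quot_mk_to_coe, mp, mo_cons, ← mp, add_mul, Multiset.coe_card, ← e, ← hc.one,
      mp_coe]
    exact h.ser0_cons hS hc.ev (h.exOk_exT _) ..
  · refine mul_eq_zero_of_left (by_contra fun e => c ?_) _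
    rw [show ![(1, 1)] = fun _ : Fin 1 => ((1, 1) : ℕ × H (F.X F.cone)) from funext (by simp)] at e
    have := h.cor_dim T b y hW (r := fun _ => 1) (fun _ _ => AM.Same.conn) e
    have := Finset.HasAntidiagonal.mem_antidiagonal.1 ht
    simp only [Fin.sum_univ_one] at *
    exact Prod.ext (by omega) (by omega)

/-- **The twisted invariants of a point.** -/
theorem raw (hW : St.Well) (hN : St.Norm) (hP : St.ProdT) (hU : St.UnQ) (hD : St.Dil) :
    Raw (fun j m x => F.ser0 k (F.exT (th T b y m)) C.p i 0 j (mp C.fr x))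
      fun j m x => F.ser0 k ⟨fun _ _ m => m.Conn, th T b y m, univ, 1⟩ C.p i 0 j (mp C.fr x) :=
  ⟨h.ser0_dim T b y hc hS hW h.exOk_exT fun _ _ _ _ => id,
    h.ser0_dim T b y hc hS hW h.exOk_conn fun _ _ _ => AM.Same.conn,
    fun _ _ _ => h.ser0_low hc hS, h.ser0_one T b y hc hS hN, h.ser0_prod T b y hc hS hW hP,
    _, h.ser0_dil T b y hc hS hW hU hD⟩

end Fam.Pt

end Vale.Agent.P269
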