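import Vale.Agent.P269.WK.Ser
import Vale.Agent.P269.WK.Edge

/-! From graded invariants to vertex series; the recursion for the product of two vertices. -/

namespace Vale.Agent.P269.WK

open Finset PowerSeries

/-- The invariants of a fixed point: `V j m x` disconnected, `C j m x` connected, of genus `j + 1`,
with a class of degree `m` and the powers `x` of the cotangent line classes. -/
structure Raw (V C : ℤ → ℕ → Multiset ℕ → ℂ) : Prop where
  dimV : ∀ j m x, V j m x ≠ 0 → (m : ℤ) + (x.sum : ℕ) = 3 * j + Multiset.card x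
  dimC : ∀ j m x, C j m x ≠ 0 → (m : ℤ) + (x.sum : ℕ) = 3 * j + Multiset.card x
  low : ∀ j m x, C j m x ≠ 0 → -1 ≤ j
  one : V 0 0 0 = 1
  prod : ∀ j m k x, V j m (k ::ₘ x) =
    s2 x fun y y' => ∑ᶠ i : ℤ, ∑ q ∈ antidiagonal m, C i q.1 (k ::ₘ y) * V (j - i) q.2 y'
  dil : ∃ κ : ℂ, ∀ j m x, V j m (1 ::ₘ x) = (2 * j + Multiset.card x + κ) * V j m x

/-- The degree of the class. -/
def dg (j : ℤ) (x : Multiset ℕ) : ℕ := (3 * j + Multiset.card x - (x.sum : ℕ)).toNat

/-- The normalised invariants. -/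
noncomputable def vz (w : ℂ) (V : ℤ → ℕ → Multiset ℕ → ℂ) (j : ℤ) (x : Multiset ℕ) : ℂ :=
  w ^ dg j x * V j (dg j x) x

/-- The vertex series. -/
noncomputable def vtx (w : ℂ) (V : ℤ → ℕ → Multiset ℕ → ℂ) (x : Multiset ℕ) : ℂ⟦X⟧ :=
  mk fun n => vz w V (n - Multiset.card x) x

variable {V C : ℤ → ℕ → Multiset ℕ → ℂ} (h : Raw V C)
include h

lemma Raw.lowV (x : Multiset ℕ) (j : ℤ) (m : ℕ) (hx : V j m x ≠ 0) : -(Multiset.card x : ℤ) ≤ j := by
  induction x using Multiset.strongInductionOn generalizing j m with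
  | ih x ih =>
    rcases x.empty_or_exists_mem with rfl | ⟨k, hk⟩
    · have := h.dimV _ _ _ hx
      simp only [Multiset.sum_zero, Multiset.card_zero] at this ⊢
      omega
    obtain ⟨x, rfl⟩ := Multiset.exists_cons_of_mem hk
    by_contra hlt
    refine hx ((h.prod ..).trans (s2_eq_zero fun y y' e => finsum_eq_zero_of_forall_eq_zero fun i =>
      sum_eq_zero fun q _ => by_contra fun hne => ?_))
    have h1 := h.low _ _ _ (left_ne_zero_of_mul hne)
    have h2 := ih y' ((e ▸ Multiset.le_add_left y' y).trans_lt (Multiset.lt_cons_self x k)) _ _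
      (right_ne_zero_of_mul hne)
    subst e
    simp only [Multiset.card_cons, Multiset.card_add] at hlt
    omega

lemma Raw.vz_low (w : ℂ) {x : Multiset ℕ} {j : ℤ} (hj : j < -(Multiset.card x : ℤ)) :
    vz w V j x = 0 := by
  rw [vz, by_contra fun hne => (h.lowV x j _ hne).not_gt hj, mul_zero]

lemma Raw.vz_prod (w : ℂ) (j : ℤ) (k : ℕ) (x : Multiset ℕ) : vz w V j (k ::ₘ x) =
    s2 x fun y y' => ∑ᶠ i : ℤ, vz w C i (k ::ₘ y) * vz w V (j - i) y' := by
  rw [vz, h.prod, mul_s2]
  refine s2_congr fun y y' e => ?_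
  rw [mul_finsum]
  refine finsum_congr fun i => ?_
  have hd : ∀ a b, C i a (k ::ₘ y) * V (j - i) b y' ≠ 0 → a = dg i (k ::ₘ y) ∧ b = dg (j - i) y' ∧
      a + b = dg j (k ::ₘ x) := fun a b hne => by
    have h1 := h.dimC _ _ _ (left_ne_zero_of_mul hne)
    have h2 := h.dimV _ _ _ (right_ne_zero_of_mul hne)
    subst e
    simp only [dg, Multiset.sum_cons, Multiset.card_cons, Multiset.sum_add, Multiset.card_add] at *
    omega
  rw [sum_eq_single (dg i (k ::ₘ y), dg (j - i) y') fun q _ hne => by_contra fun h0 =>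
    hne (Prod.ext (hd _ _ h0).1 (hd _ _ h0).2.1)]
  · by_cases h0 : C i (dg i (k ::ₘ y)) (k ::ₘ y) * V (j - i) (dg (j - i) y') y' = 0
    · rw [vz, vz, mul_mul_mul_comm, h0, mul_zero, mul_zero]
    · rw [← (hd _ _ h0).2.2, vz, vz]; ring
  · exact fun h0 => by_contra fun hne => h0 (mem_antidiagonal.2 (hd _ _ hne).2.2)

theorem Raw.vx (w : ℂ) : Vx (vtx w V) fun x => if x = 0 then 0 else vtx w C x where
  prod k x := by
    ext n
    rw [vtx, coeff_mk, h.vz_prod, cv, map_s2]
    refine s2_congr fun y y' e => ?_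
    subst e
    rw [if_neg Multiset.cons_ne_zero, coeff_mul, finsum_eq_sum_of_support_subset
      (s := (antidiagonal n).image fun q => (q.1 : ℤ) - Multiset.card (k ::ₘ y)), sum_image]
    · refine sum_congr rfl fun q hq => ?_
      have := mem_antidiagonal.1 hq
      simp only [vtx, coeff_mk]
      congr 2
      simp only [Multiset.card_cons, Multiset.card_add]
      omega
    · intro q hq q' hq' e
      have h1 := mem_antidiagonal.1 hq
      have h2 := mem_antidiagonal.1 hq'
      exact Prod.ext (by simp only at e; omega) (by simp only at e; omega)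
    · intro i hi
      have h1 := h.low _ _ _ (right_ne_zero_of_mul (left_ne_zero_of_mul hi))
      have h2 := h.lowV _ _ _ (right_ne_zero_of_mul (right_ne_zero_of_mul hi))
      simp only [Multiset.card_cons, Multiset.card_add] at h2
      simp only [coe_image, Set.mem_image, mem_coe, mem_antidiagonal, Multiset.card_cons]
      exact ⟨((i + (Multiset.card y + 1)).toNat, n - (i + (Multiset.card y + 1)).toNat),
        by simp only; omega, by simp only; omega⟩
  dim x n hn := by
    split_ifs at hn with h0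
    · simp at hn
    rw [vtx, coeff_mk] at hn
    have h1 := h.low _ _ _ (right_ne_zero_of_mul hn)
    have h2 := h.dimC _ _ _ (right_ne_zero_of_mul hn)
    exact ⟨h0, by omega, by omega⟩
  one := by simp [vtx, vz, dg, h.one]
  dil := by
    obtain ⟨κ, hκ⟩ := h.dil
    refine ⟨κ, fun x => ?_⟩
    have e : ∀ j, vz w V j (1 ::ₘ x) = (2 * j + Multiset.card x + κ) * vz w V j x := fun j => by
      have : dg j (1 ::ₘ x) = dg j x := by
        simp only [dg, Multiset.sum_cons, Multiset.card_cons]; omega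
      rw [vz, vz, this, hκ]; ring
    ext n
    rw [vtx, coeff_mk, e]
    cases n with
    | zero => rw [h.vz_low w (by simp)]; simp
    | succ n =>
      rw [coeff_succ_X_mul, two_mul (th _), map_add, map_add, coeff_th, map_smul, vtx, coeff_mk,
        show ((n + 1 : ℕ) : ℤ) - Multiset.card (1 ::ₘ x) = n - Multiset.card x by simp, smul_eq_mul]
      push_cast
      ring

lemma Raw.tp_vtx (w : ℂ) (j : ℤ) (x : Multiset ℕ) :
    V j 0 x = if ((x.sum : ℕ) : ℤ) = 3 * j + Multiset.card x then tp (vtx w V) x else 0 := by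
  split_ifs with e
  · by_cases hj : j < -(Multiset.card x : ℤ)
    · omega
    obtain ⟨n, hn⟩ : ∃ n : ℕ, (n : ℤ) = j + Multiset.card x := ⟨(j + Multiset.card x).toNat, by omega⟩
    have h3 : x.sum + 2 * Multiset.card x = 3 * n := by omega
    have h0 : dg j x = 0 := by rw [dg]; omega
    rw [tp, h3, if_pos (dvd_mul_right _ _), Nat.mul_div_cancel_left _ (by omega), vtx, coeff_mk, hn,
      add_sub_cancel_right, vz, h0, pow_zero, one_mul]
  · exact by_contra fun hne => e (by have := h.dimV _ _ _ hne; omega)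

omit h

section tt

variable {M M' : Type*} [AddCommGroup M] [Module ℚ M] [AddCommGroup M'] [Module ℚ M']

lemma map_bo (φ : M →ₗ[ℚ] M') (k : ℕ) (Ψ : Multiset Sy → M) (z : Multiset Sy) :
    bo k (fun ν => φ (Ψ ν)) z = φ (bo k Ψ z) := by simp only [bo, map_add, map_smul, map_s1]

lemma bo_sum {α : Type*} (s : Finset α) (a : α → ℚ) (k : ℕ) (Ψ : α → Multiset Sy → M)
    (z : Multiset Sy) : bo k (fun ν => ∑ i ∈ s, a i • Ψ i ν) z = ∑ i ∈ s, a i • bo k (Ψ i) z := by
  simp only [bo, smul_sum, s1_sum, smul_add, sum_add_distrib, smul_s1, smul_comm (a _)]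

/-- Attaching an edge of degree `k` to both vertices. -/
noncomputable def ed2 (k : ℕ) (Φ : ℤ → Multiset Sy → Multiset Sy → M) (n : ℤ)
    (z z' : Multiset Sy) : M :=
  bo k (fun ν => Φ (n - 1) (.inr k ::ₘ z) ν) z' + bo k (fun ν => Φ (n - 1) ν (.inr k ::ₘ z')) z +
    bo k (fun ν' => bo k (fun ν => Φ n ν ν') z) z' + Φ (n - 2) (.inr k ::ₘ z) (.inr k ::ₘ z')

lemma ed2_sum {α : Type*} (s : Finset α) (a : α → ℚ) (k : ℕ)
    (Φ : α → ℤ → Multiset Sy → Multiset Sy → M) (n : ℤ) (z z' : Multiset Sy) :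
    ed2 k (fun n z z' => ∑ i ∈ s, a i • Φ i n z z') n z z' = ∑ i ∈ s, a i • ed2 k (Φ i) n z z' := by
  simp only [ed2, bo_sum, smul_add, sum_add_distrib]

end tt

variable (g g' : Multiset Sy → ℂ⟦X⟧)

/-- The product of the contributions of the two vertices. -/
noncomputable def T2 (μ : Multiset ℕ) (n : ℤ) (z z' : Multiset Sy) : ℂ :=
  cz (n + Multiset.card z + Multiset.card z') (GG g μ z * GG g' μ z')

lemma bo_cz (k : ℕ) (e : ℤ) (u : ℂ⟦X⟧) (G : Multiset Sy → ℂ⟦X⟧) (z : Multiset Sy) :
    bo k (fun ν => cz (e + Multiset.card ν) (u * G ν)) z =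
      cz (e + Multiset.card z) (u * (c1 k • G z + X * s1 z fun s ν => ph k s • G ν)) := by
  rw [bo, mul_add, map_add, mul_smul_comm, LinearMap.map_smul_of_tower, mul_left_comm, cz_X_mul,
    mul_s1, map_s1]
  refine congrArg _ (s1_congr fun s ν e => ?_)
  rw [mul_smul_comm, LinearMap.map_smul_of_tower, ← e, Multiset.card_cons]
  congr 3
  push_cast
  ring

lemma T2_cons (k : ℕ) (μ : Multiset ℕ) (n : ℤ) (z z' : Multiset Sy) :
    T2 g g' (k ::ₘ μ) n z z' = ed2 k (T2 g g' μ) n z z' := by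
  have e1 : ∀ n ν ν', T2 g g' μ n ν ν' =
      cz (n + Multiset.card ν' + Multiset.card ν) (GG g' μ ν' * GG g μ ν) := fun n ν ν' => by
    rw [T2, mul_comm, add_right_comm]
  have e2 := bo_cz k (n - 1 + Multiset.card (Sum.inr k ::ₘ z)) (GG g μ (.inr k ::ₘ z)) (GG g' μ) z'
  have e3 := bo_cz k (n - 1 + Multiset.card (Sum.inr k ::ₘ z')) (GG g' μ (.inr k ::ₘ z')) (GG g μ) z
  have e4 := fun ν' => bo_cz k (n + Multiset.card ν') (GG g' μ ν') (GG g μ) z
  have e5 := bo_cz k (n + Multiset.card z)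
    (c1 k • GG g μ z + X * s1 z fun s ν => ph k s • GG g μ ν) (GG g' μ) z'
  simp only [← e1] at e3 e4
  simp only [← T2.eq_1] at e2
  rw [ed2, e2, e3]
  simp only [e4, add_right_comm n _ (Multiset.card z : ℤ), mul_comm (GG g' μ _), e5]
  simp only [T2, GG_cons, al, Multiset.card_cons]
  push_cast
  rw [show n - 1 + (Multiset.card z + 1) + Multiset.card z' =
      n + Multiset.card z + Multiset.card z' by ring,
    show n - 1 + (Multiset.card z' + 1) + Multiset.card z =
      n + Multiset.card z + Multiset.card z' by ring,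
    show n - 2 + (Multiset.card z + 1) + (Multiset.card z' + 1) =
      n + Multiset.card z + Multiset.card z' by ring, ← map_add, ← map_add, ← map_add]
  congr 1
  ring

/-- The sum over all partitions of `d` with `m` parts. -/
noncomputable def W2s (m d : ℕ) (n : ℤ) (z z' : Multiset Sy) : ℂ :=
  ∑ μ ∈ Pt d, (if Multiset.card μ = m then wg μ * (-1) ^ (d + m) else 0 : ℚ) • T2 g g' μ n z z'

lemma W2s_succ (m d : ℕ) (n : ℤ) (z z' : Multiset Sy) :
    ((m : ℚ) + 1) • W2s g g' (m + 1) d n z z' =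
      ∑ k ∈ range d, ((-1) ^ k * (k + 1) : ℚ) • ed2 (k + 1) (W2s g g' m (d - (k + 1))) n z z' := by
  have e := sum_s1 d fun k ν => (if Multiset.card ν = m then (-1) ^ (d + m + 1) else 0 : ℚ) •
    T2 g g' (k ::ₘ ν) n z z'
  rw [W2s, smul_sum, sum_congr rfl fun μ _ => (?_ : _ = wg μ • s1 μ _), e,
    Nat.sum_antidiagonal_eq_sum_range_succ_mk, sum_range_succ']
  · simp only [Nat.cast_zero, zero_mul, zero_smul, sum_const_zero, add_zero]
    refine sum_congr rfl fun k hk => ?_
    have := mem_range.1 hk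
    unfold W2s
    rw [ed2_sum, smul_sum]
    refine sum_congr rfl fun ν _ => ?_
    rw [T2_cons, smul_smul, smul_smul]
    congr 1
    split_ifs
    · obtain ⟨c, rfl⟩ : ∃ c, d = k + 1 + c := ⟨d - (k + 1), by omega⟩
      rw [Nat.add_sub_cancel_left, show k + 1 + c + m + 1 = k + (c + m) + 2 by ring]
      push_cast
      ring
    · simp
  · rw [s1_congr (G := fun _ _ => (if Multiset.card μ = m + 1 then (-1) ^ (d + m + 1) else 0 : ℚ) •
      T2 g g' μ n z z') fun k ν e => by subst e; simp, s1_fst, Multiset.map_const',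
      Multiset.sum_replicate, ← Nat.cast_smul_eq_nsmul ℚ, smul_smul, smul_smul, smul_smul]
    congr 1
    split_ifs with e
    · rw [e]; push_cast; ring
    · simp

end Vale.Agent.P269.WK
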