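import Vale.Agent.P269.WK.Test

/-! The cut-and-join equation and its rearrangement into stable terms. -/

namespace Vale.Agent.P269.WK

open Finset

/-- The unstable terms: `k^(k-2)/k!` for `(0,1)` and `a^a b^b/(a! b! (a+b))` for `(0,2)`. -/
noncomputable def HU (g : ℕ) (M : Multiset ℕ) : ℚ :=
  if 3 ≤ 2 * g + Multiset.card M then 0
  else if Multiset.card M = 1 then (M.map fun k => uu 0 k / (k : ℚ) ^ 2).prod
  else if Multiset.card M = 2 then (M.map (uu 0)).prod / (M.sum : ℕ) else 0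

/-- The stable terms: `prod (mu^mu/mu!) * sum_a c g a * prod mu^a`. -/
noncomputable def HS (c : ℕ → Multiset ℕ → ℚ) (g : ℕ) (M : Multiset ℕ) : ℚ :=
  if 3 ≤ 2 * g + Multiset.card M then Wf (c g) (M.map (Gam (3 * g + Multiset.card M))).prod else 0

/-- The ELSV expression. -/
noncomputable def HH (c : ℕ → Multiset ℕ → ℚ) (g : ℕ) (M : Multiset ℕ) : ℚ := HS c g M + HU g M

variable {ι : Type*} [Fintype ι] [DecidableEq ι]

/-- The cut-and-join equation at `(g, mu)` for a function `H`. -/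
def CJ (H : ℕ → Multiset ℕ → ℚ) (g : ℕ) (μ : ι → ℕ) : Prop :=
  (2 * (g : ℚ) - 2 + Fintype.card ι + ∑ i, (μ i : ℚ)) * H g (univ.val.map μ) =
    1 / 2 * ∑ i, ∑ j ∈ univ.erase i,
      ((μ i : ℚ) + μ j) * H g ((μ i + μ j) ::ₘ ((univ.erase i).erase j).val.map μ) +
    1 / 2 * ∑ i, ∑ p ∈ antidiagonal (μ i), (p.1 : ℚ) * p.2 *
      ((if g = 0 then 0 else H (g - 1) (p.1 ::ₘ p.2 ::ₘ (univ.erase i).val.map μ)) +
        ∑ h ∈ antidiagonal g, ∑ I ∈ (univ.erase i).powerset,
          H h.1 (p.1 ::ₘ I.val.map μ) * H h.2 (p.2 ::ₘ (univ.erase i \ I).val.map μ))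

variable {c : ℕ → Multiset ℕ → ℚ}

lemma HS_eq (hc : Dim c) {g : ℕ} {M : Multiset ℕ} (h : 3 ≤ 2 * g + Multiset.card M) {A : ℕ}
    (hA : 3 * g + Multiset.card M ≤ A) : HS c g M = Wf (c g) (M.map (Gam A)).prod := by
  have := W_trunc hc g _ A hA M 0 (by simp)
  rw [HS, if_pos h]
  simpa [mon_zero] using this

lemma HU_stable {g : ℕ} {M : Multiset ℕ} (h : 3 ≤ 2 * g + Multiset.card M) : HU g M = 0 := by
  rw [HU, if_pos h]

omit [Fintype ι] in
lemma sumU (μ : ι → ℕ) (s : Finset ι) (g α : ℕ) (F : ℕ → Finset ι → ℚ) :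
    ∑ h ∈ antidiagonal g, ∑ I ∈ s.powerset, HU h.1 (α ::ₘ I.val.map μ) * F h.2 (s \ I) =
      uu 0 α / (α : ℚ) ^ 2 * F g s + ∑ j ∈ s, h2 α (μ j) * F g (s.erase j) := by
  rw [Finset.sum_eq_single (0, g)]
  · have hsub : insert ∅ (s.map ⟨fun j => ({j} : Finset ι), singleton_injective⟩) ⊆ s.powerset := by
      intro I hI
      rcases mem_insert.mp hI with rfl | hI
      · simp
      · obtain ⟨j, hj, rfl⟩ := mem_map.mp hI
        simpa using hj
    rw [← Finset.sum_subset hsub, Finset.sum_insert (by simp), Finset.sum_map]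
    · congr 1
      · simp [HU]
      · refine Finset.sum_congr rfl fun j _ => ?_
        simp [HU, h2, Finset.sdiff_singleton_eq_erase]
    · intro I hI hI'
      have : 2 ≤ I.card := by
        by_contra hlt
        apply hI'
        have : I.card = 0 ∨ I.card = 1 := by omega
        rcases this with h | h
        · simp [Finset.card_eq_zero.mp h]
        · obtain ⟨j, rfl⟩ := Finset.card_eq_one.mp h
          refine mem_insert_of_mem (mem_map.mpr ⟨j, by simpa using hI, rfl⟩)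
      rw [HU_stable (by simp; omega), zero_mul]
  · intro h hh hne
    refine Finset.sum_eq_zero fun I _ => ?_
    have h1 := mem_antidiagonal.mp hh
    have : h.1 ≠ 0 := by
      intro h0; apply hne; ext
      · exact h0
      · simp only; omega
    rw [HU_stable (by simp; omega), zero_mul]
  · intro h; exact absurd (mem_antidiagonal.mpr (by simp)) h

omit [Fintype ι] in
lemma sum_swap_split (s : Finset ι) (g k : ℕ) (F : ℕ → ℕ → Finset ι → ℕ → ℕ → Finset ι → ℚ) :
    ∑ p ∈ antidiagonal k, ∑ h ∈ antidiagonal g, ∑ I ∈ s.powerset, F p.1 h.1 I p.2 h.2 (s \ I) =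
    ∑ p ∈ antidiagonal k, ∑ h ∈ antidiagonal g, ∑ I ∈ s.powerset, F p.2 h.2 (s \ I) p.1 h.1 I := by
  rw [← Finset.Nat.sum_antidiagonal_swap]
  refine Finset.sum_congr rfl fun p _ => ?_
  rw [← Finset.Nat.sum_antidiagonal_swap]
  refine Finset.sum_congr rfl fun h _ => ?_
  refine Finset.sum_nbij' (fun I => s \ I) (fun I => s \ I) ?_ ?_ ?_ ?_ ?_
  · intro I _; simp
  · intro I _; simp
  · intro I hI; exact Finset.sdiff_sdiff_eq_self (by simpa using hI)
  · intro I hI; exact Finset.sdiff_sdiff_eq_self (by simpa using hI)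
  · intro I hI
    simp only [Prod.fst_swap, Prod.snd_swap]
    rw [Finset.sdiff_sdiff_eq_self (by simpa using hI)]

omit [Fintype ι] in
lemma cut_split (μ : ι → ℕ) (s : Finset ι) (g k : ℕ) (hst : 3 ≤ 2 * g + (s.card + 1))
    (hne : ¬(g = 0 ∧ s.card = 2)) :
    ∑ p ∈ antidiagonal k, (p.1 : ℚ) * p.2 * ∑ h ∈ antidiagonal g, ∑ I ∈ s.powerset,
      HH c h.1 (p.1 ::ₘ I.val.map μ) * HH c h.2 (p.2 ::ₘ (s \ I).val.map μ) =
    ∑ p ∈ antidiagonal k, (p.1 : ℚ) * p.2 * ∑ h ∈ antidiagonal g, ∑ I ∈ s.powerset,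
      HS c h.1 (p.1 ::ₘ I.val.map μ) * HS c h.2 (p.2 ::ₘ (s \ I).val.map μ) +
    2 * ∑ p ∈ antidiagonal k, (p.1 : ℚ) * p.2 *
      (uu 0 p.1 / (p.1 : ℚ) ^ 2 * HS c g (p.2 ::ₘ s.val.map μ) +
        ∑ j ∈ s, h2 p.1 (μ j) * HS c g (p.2 ::ₘ (s.erase j).val.map μ)) := by
  have h1 : ∀ p ∈ antidiagonal k, ∀ h ∈ antidiagonal g, ∀ I ∈ s.powerset,
      HH c h.1 (p.1 ::ₘ I.val.map μ) * HH c h.2 (p.2 ::ₘ (s \ I).val.map μ) =
      HS c h.1 (p.1 ::ₘ I.val.map μ) * HS c h.2 (p.2 ::ₘ (s \ I).val.map μ) +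
      HU h.1 (p.1 ::ₘ I.val.map μ) * HS c h.2 (p.2 ::ₘ (s \ I).val.map μ) +
      HU h.2 (p.2 ::ₘ (s \ I).val.map μ) * HS c h.1 (p.1 ::ₘ I.val.map μ) := by
    intro p _ h hh I hI
    have e1 := mem_antidiagonal.mp hh
    have e2 := Finset.card_sdiff_add_card_eq_card (mem_powerset.mp hI)
    have : HU h.1 (p.1 ::ₘ I.val.map μ) * HU h.2 (p.2 ::ₘ (s \ I).val.map μ) = 0 := by
      by_cases h3 : 3 ≤ 2 * h.1 + (I.card + 1)
      · rw [HU_stable (by simpa using h3), zero_mul]
      · rw [HU_stable (M := p.2 ::ₘ (s \ I).val.map μ) (by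
          rw [Multiset.card_cons, Multiset.card_map, Finset.card_val]; omega), mul_zero]
    unfold HH
    linear_combination this
  have h2' := sum_swap_split s g k fun a h I b h' J => (a : ℚ) * b *
    (HU h (a ::ₘ I.val.map μ) * HS c h' (b ::ₘ J.val.map μ))
  have h3 : ∀ p : ℕ × ℕ, ∑ h ∈ antidiagonal g, ∑ I ∈ s.powerset,
      HU h.1 (p.1 ::ₘ I.val.map μ) * HS c h.2 (p.2 ::ₘ (s \ I).val.map μ) = _ :=
    fun p => sumU μ s g p.1 fun h J => HS c h (p.2 ::ₘ J.val.map μ)
  simp only [← Finset.mul_sum] at h2'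
  rw [Finset.sum_congr rfl fun p hp => by
    rw [Finset.sum_congr rfl fun h hh => Finset.sum_congr rfl fun I hI => h1 p hp h hh I hI]]
  simp only [Finset.sum_add_distrib, mul_add]
  simp only [← mul_add, ← Finset.sum_add_distrib]
  simp only [← h3]
  simp only [Finset.sum_add_distrib, mul_add]
  rw [two_mul, add_assoc]
  congr 2
  rw [h2']
  exact Finset.sum_congr rfl fun p _ => by ring

/-- The stable form of the cut-and-join equation. -/
lemma CJ.stable (hc : Dim c) {g : ℕ} {μ : ι → ℕ} (h : CJ (HH c) g μ)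
    (hst : 3 ≤ 2 * g + Fintype.card ι) (hne : ¬(g = 0 ∧ Fintype.card ι = 3)) {A : ℕ}
    (hA : 3 * g + Fintype.card ι + 1 ≤ A) :
    (2 * (g : ℚ) - 2 + Fintype.card ι) * Wf (c g) (∏ i, Gam A (μ i)) +
      ∑ i, Wf (c g) (Lin A (fun a => sq (eta a) (μ i)) * ∏ j ∈ univ.erase i, Gam A (μ j)) =
    1 / 2 * ∑ i, ∑ j ∈ univ.erase i, Wf (c g) (Lin A (fun a => jt (xi (a + 1)) (μ i) (μ j)) *
      ∏ l ∈ (univ.erase i).erase j, Gam A (μ l)) +
    1 / 2 * ∑ i, ∑ p ∈ antidiagonal (μ i), (p.1 : ℚ) * p.2 *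
      ((if g = 0 then 0 else HH c (g - 1) (p.1 ::ₘ p.2 ::ₘ (univ.erase i).val.map μ)) +
        ∑ h ∈ antidiagonal g, ∑ I ∈ (univ.erase i).powerset,
          HS c h.1 (p.1 ::ₘ I.val.map μ) * HS c h.2 (p.2 ::ₘ (univ.erase i \ I).val.map μ)) := by
  have hcard : ∀ i : ι, (univ.erase i).card + 1 = Fintype.card ι := fun i => by
    rw [Finset.card_erase_add_one (mem_univ i), Finset.card_univ]
  have hcard2 : ∀ i : ι, ∀ j ∈ univ.erase i, ((univ.erase i).erase j).card + 2 = Fintype.card ι :=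
    fun i j hj => by rw [← hcard i, ← Finset.card_erase_add_one hj]
  -- values of the stable terms
  have v0 : HH c g (univ.val.map μ) = Wf (c g) (∏ i, Gam A (μ i)) := by
    rw [HH, HU_stable (by simpa using hst), add_zero, HS_eq hc (by simpa using hst)
      (A := A) (by simp; omega), Multiset.map_map]; rfl
  have v1 : ∀ i k, HS c g (k ::ₘ (univ.erase i).val.map μ) =
      Wf (c g) (Gam A k * ∏ j ∈ univ.erase i, Gam A (μ j)) := by
    intro i k
    have := hcard i
    rw [HS_eq hc (by rw [Multiset.card_cons, Multiset.card_map, Finset.card_val]; omega) (A := A)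
      (by rw [Multiset.card_cons, Multiset.card_map, Finset.card_val]; omega),
      Multiset.map_cons, Multiset.prod_cons, Multiset.map_map]; rfl
  have v2 : ∀ i, ∀ j ∈ univ.erase i, ∀ k, HS c g (k ::ₘ ((univ.erase i).erase j).val.map μ) =
      Wf (c g) (Gam A k * ∏ l ∈ (univ.erase i).erase j, Gam A (μ l)) := by
    intro i j hj k
    have := hcard2 i j hj
    rw [HS_eq hc (by rw [Multiset.card_cons, Multiset.card_map, Finset.card_val]; omega) (A := A)
      (by rw [Multiset.card_cons, Multiset.card_map, Finset.card_val]; omega),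
      Multiset.map_cons, Multiset.prod_cons, Multiset.map_map]; rfl
  have v2' : ∀ i, ∀ j ∈ univ.erase i, ∀ k, HH c g (k ::ₘ ((univ.erase i).erase j).val.map μ) =
      Wf (c g) (Gam A k * ∏ l ∈ (univ.erase i).erase j, Gam A (μ l)) := by
    intro i j hj k
    have := hcard2 i j hj
    rw [HH, HU_stable (by rw [Multiset.card_cons, Multiset.card_map, Finset.card_val]; omega),
      add_zero, v2 i j hj]
  have lin : ∀ (f : ℕ → ℚ) (R : SS), Wf (c g) (Lin A f * R) =
      ∑ a ∈ range (A + 1), f a * Wf (c g) (MvPolynomial.X a * R) := by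
    intro f R
    simp only [Lin, Finset.sum_mul, map_sum, smul_mul_assoc, map_smul, smul_eq_mul]
  -- the eta terms
  have t1 : ∀ i, Wf (c g) (Lin A (fun a => sq (eta a) (μ i)) * ∏ j ∈ univ.erase i, Gam A (μ j)) =
      μ i * Wf (c g) (∏ i, Gam A (μ i)) - ∑ p ∈ antidiagonal (μ i), (p.1 : ℚ) * p.2 *
        (uu 0 p.1 / (p.1 : ℚ) ^ 2 * HS c g (p.2 ::ₘ (univ.erase i).val.map μ)) := by
    intro i
    rw [← Finset.mul_prod_erase _ _ (mem_univ i)]
    simp only [v1, Gam, lin, sq_eta, sub_mul, Finset.sum_sub_distrib, Finset.mul_sum,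
      Finset.sum_mul, uu_succ]
    congr 1
    · exact Finset.sum_congr rfl fun a _ => by ring
    · rw [Finset.sum_comm]
      refine Finset.sum_congr rfl fun p _ => Finset.sum_congr rfl fun a _ => ?_
      have : cay p.1 / (p.1.factorial : ℚ) = p.1 * (uu 0 p.1 / (p.1 : ℚ) ^ 2) := by
        by_cases h0 : p.1 = 0
        · simp [h0, cay]
        · have h1 : (p.1 : ℚ) ≠ 0 := by exact_mod_cast h0
          simp only [uu, h0, if_false, add_zero, ← cay_mul p.1 h0]
          field_simp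
      rw [this]; ring
  -- the join terms
  let B : ι → ι → ℚ := fun i j => ∑ p ∈ antidiagonal (μ i), (p.1 : ℚ) * p.2 *
    (h2 p.1 (μ j) * Wf (c g) (Gam A p.2 * ∏ l ∈ (univ.erase i).erase j, Gam A (μ l)))
  have t2 : ∀ i, ∀ j ∈ univ.erase i,
      Wf (c g) (Lin A (fun a => jt (xi (a + 1)) (μ i) (μ j)) *
        ∏ l ∈ (univ.erase i).erase j, Gam A (μ l)) =
      ((μ i : ℚ) + μ j) * HH c g ((μ i + μ j) ::ₘ ((univ.erase i).erase j).val.map μ) +
        B i j + B j i := by
    intro i j hj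
    rw [v2' i j hj]
    simp only [B, Finset.erase_right_comm (a := j) (b := i), Gam, lin, jt, sq_xi, add_mul,
      Finset.sum_add_distrib, Finset.mul_sum, Finset.sum_mul, uu_succ]
    congr 1
    congr 1
    · rw [← Finset.sum_add_distrib]
      exact Finset.sum_congr rfl fun a _ => by push_cast; ring
    · rw [Finset.sum_comm]
      exact Finset.sum_congr rfl fun p _ => Finset.sum_congr rfl fun a _ => by ring
    · rw [Finset.sum_comm]
      exact Finset.sum_congr rfl fun p _ => Finset.sum_congr rfl fun a _ => by ring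
  have hB : ∑ i, ∑ j ∈ univ.erase i, B j i = ∑ i, ∑ j ∈ univ.erase i, B i j := by
    refine Finset.sum_comm' fun x y => ?_
    simp [eq_comm]
  have t3 : ∀ i, ∑ j ∈ univ.erase i, B i j = ∑ p ∈ antidiagonal (μ i), (p.1 : ℚ) * p.2 *
      ∑ j ∈ univ.erase i, h2 p.1 (μ j) * HS c g (p.2 ::ₘ ((univ.erase i).erase j).val.map μ) := by
    intro i
    simp only [B, Finset.mul_sum]
    rw [Finset.sum_comm]
    refine Finset.sum_congr rfl fun p _ => Finset.sum_congr rfl fun j hj => ?_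
    rw [v2 i j hj]
  have t4 := fun i => cut_split (c := c) μ (univ.erase i) g (μ i) (by rw [hcard]; exact hst)
    (by have := hcard i; omega)
  unfold CJ at h
  simp only [mul_add, Finset.sum_add_distrib, t4] at h
  rw [Finset.sum_congr rfl fun i _ => Finset.sum_congr rfl fun j hj => t2 i j hj]
  simp only [t1, mul_add, Finset.sum_add_distrib, Finset.sum_sub_distrib, hB, t3, ← Finset.sum_mul]
  simp only [v0, ← Finset.mul_sum] at h
  linear_combination h

end Vale.Agent.P269.WK
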