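import Vale.Agent.P269.WK.Def

/-! Multilinear extension of functions on multisets, independence of the truncation. -/

namespace Vale.Agent.P269.WK

open Finset PowerSeries

section ext

variable {M : Type*} [AddCommGroup M] [Module ℚ M]

/-- Insertion of a symbol. -/
noncomputable def ins (N : ℕ) (s : Sy) (f : Multiset ℕ → M) (x : Multiset ℕ) : M :=
  Wc f (exS N s * mon x)

lemma ins_inl (N m : ℕ) (f : Multiset ℕ → M) (x : Multiset ℕ) :
    ins N (.inl m) f x = f (m ::ₘ x) := by rw [ins, exS, ← mon_cons, Wc_mon]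

lemma ins_inr (N k : ℕ) (f : Multiset ℕ → M) (x : Multiset ℕ) :
    ins N (.inr k) f x = ∑ r ∈ range (N + 1), uu r k • f (r ::ₘ x) := by
  simp only [ins, exS, Gam, Lin, sum_mul, map_sum, smul_mul_assoc, map_smul, ← mon_cons, Wc_mon]

/-- The multilinear extension. -/
noncomputable def mx (N : ℕ) (f : Multiset ℕ → M) (z : Multiset Sy) : M :=
  Wc f (z.map (exS N)).prod

@[simp] lemma mx_zero (N : ℕ) (f : Multiset ℕ → M) : mx N f 0 = f 0 := by
  rw [mx, Multiset.map_zero, Multiset.prod_zero, ← mon_zero, Wc_mon]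

lemma Wc_ins (N : ℕ) (s : Sy) (f : Multiset ℕ → M) (P : SS) :
    Wc (ins N s f) P = Wc f (exS N s * P) :=
  LinearMap.congr_fun (SS_ext (ψ := Wc f ∘ₗ LinearMap.mulLeft ℚ (exS N s)) fun x => by
    simp [Wc_mon, ins]) P

lemma mx_cons (N : ℕ) (f : Multiset ℕ → M) (s : Sy) (z : Multiset Sy) :
    mx N f (s ::ₘ z) = mx N (ins N s f) z := by
  rw [mx, mx, Wc_ins, Multiset.map_cons, Multiset.prod_cons]

lemma map_mx {M' : Type*} [AddCommGroup M'] [Module ℚ M'] (φ : M →ₗ[ℚ] M') (N : ℕ)
    (f : Multiset ℕ → M) (z : Multiset Sy) : φ (mx N f z) = mx N (fun x => φ (f x)) z :=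
  map_Wc φ f _

/-- Only the values on multisets with the right number of elements matter. -/
lemma mx_congr (N : ℕ) {f g : Multiset ℕ → M} {z : Multiset Sy}
    (h : ∀ x, Multiset.card x = Multiset.card z → f x = g x) : mx N f z = mx N g z := by
  induction z using Multiset.induction_on generalizing f g with
  | empty => rw [mx_zero, mx_zero, h 0 rfl]
  | cons s z ih =>
    rw [mx_cons, mx_cons]
    refine ih fun x hx => ?_
    have e : ∀ r, f (r ::ₘ x) = g (r ::ₘ x) := fun r => h _ (by simp [hx])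
    cases s <;> simp only [ins_inl, ins_inr, e]

lemma mx_add (N : ℕ) (f g : Multiset ℕ → M) (z : Multiset Sy) :
    mx N (fun x => f x + g x) z = mx N f z + mx N g z :=
  LinearMap.congr_fun (SS_ext (φ := Wc fun x => f x + g x) (ψ := Wc f + Wc g) fun x => by
    simp [Wc_mon]) _

lemma mx_zero' (N : ℕ) (z : Multiset Sy) : mx N (fun _ => (0 : M)) z = 0 :=
  LinearMap.congr_fun (SS_ext (φ := Wc fun _ => (0 : M)) (ψ := 0) fun x => by simp [Wc_mon]) _

lemma mx_inl (N : ℕ) (f : Multiset ℕ → M) (x : Multiset ℕ) : mx N f (x.map .inl) = f x := by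
  rw [mx, Multiset.map_map, ← Wc_mon f x]; rfl

/-- Independence of the truncation. -/
lemma mx_trunc {B N N' : ℕ} (hN : B ≤ N) (hN' : B ≤ N') {f : Multiset ℕ → M}
    (hf : ∀ x, B < x.sum → f x = 0) (z : Multiset Sy) : mx N f z = mx N' f z := by
  induction z using Multiset.induction_on generalizing f with
  | empty => simp
  | cons s z ih =>
    have key : ∀ K, B ≤ K → ins K s f = ins B s f := fun K hK => funext fun x => by
      cases s with
      | inl m => rw [ins_inl, ins_inl]
      | inr k =>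
        rw [ins_inr, ins_inr]
        refine (sum_subset (range_mono (by omega)) fun r _ hr => ?_).symm
        rw [hf _ (by simp only [mem_range, Multiset.sum_cons] at hr ⊢; omega), smul_zero]
    rw [mx_cons, mx_cons, key N hN, key N' hN']
    refine ih fun x hx => ?_
    have e : ∀ r, f (r ::ₘ x) = 0 := fun r => hf _ (by rw [Multiset.sum_cons]; omega)
    cases s <;> simp [ins_inl, ins_inr, e]

/-- The extension is multiplicative. -/
lemma mx_cv {A : Type*} [CommRing A] [Algebra ℚ A] (N : ℕ) (f g : Multiset ℕ → A)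
    (z : Multiset Sy) : mx N (cv f g) z = cv (mx N f) (mx N g) z := by
  induction z using Multiset.induction_on generalizing f g with
  | empty => simp
  | cons s z ih =>
    have : ins N s (cv f g) = fun x => cv (ins N s f) g x + cv f (ins N s g) x := funext fun x => by
      cases s with
      | inl m => simp only [ins_inl, cv, s2_cons]
      | inr k =>
        simp only [ins_inr, cv, s2_cons, smul_add, sum_add_distrib, sum_mul, mul_sum, s2_sum,
          smul_s2, smul_mul_assoc, mul_smul_comm]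
    rw [mx_cons, this, mx_add, ih, ih, cv_cons]
    simp only [mx_cons]

end ext

/-- A coefficient as a rational linear map. -/
noncomputable def cq (n : ℕ) : ℂ⟦X⟧ →ₗ[ℚ] ℂ := (coeff n).restrictScalars ℚ

lemma coeff_mx (n N : ℕ) (f : Multiset ℕ → ℂ⟦X⟧) (z : Multiset Sy) :
    coeff n (mx N f z) = mx N (fun x => coeff n (f x)) z := map_mx (cq n) N f z

lemma coeff_ser' (n : ℕ) (f : Multiset ℕ → ℂ⟦X⟧) (z : Multiset Sy) :
    coeff n (ser f z) = mx (3 * n) (fun x => coeff n (f x)) z := by
  rw [ser, coeff_mk, ← coeff_mx]; rfl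

lemma ser_inl (f : Multiset ℕ → ℂ⟦X⟧) (x : Multiset ℕ) : ser f (x.map .inl) = f x := by
  ext n; rw [coeff_ser', mx_inl]

lemma ser_zero (f : Multiset ℕ → ℂ⟦X⟧) : ser f 0 = f 0 := ser_inl f 0

/-- Independence of the truncation. -/
lemma coeff_ser {f : Multiset ℕ → ℂ⟦X⟧} (hf : ∀ x n, coeff n (f x) ≠ 0 → x.sum ≤ 3 * n) {n N : ℕ}
    (hN : 3 * n ≤ N) (z : Multiset Sy) : coeff n (mx N f z) = coeff n (ser f z) := by
  rw [coeff_mx, coeff_ser']
  exact mx_trunc hN le_rfl (fun x hx => by_contra fun h => (hf x n h).not_gt hx) z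

variable {f fc : Multiset ℕ → ℂ⟦X⟧}

lemma Vx.bd (h : Vx f fc) (x : Multiset ℕ) (n : ℕ) (hn : coeff n (f x) ≠ 0) :
    x.sum + 2 * Multiset.card x ≤ 3 * n := by
  induction x using Multiset.strongInductionOn generalizing n with
  | ih x ih =>
    rcases x.empty_or_exists_mem with rfl | ⟨k, hk⟩
    · simp
    obtain ⟨x, rfl⟩ := Multiset.exists_cons_of_mem hk
    by_contra hlt
    refine hn ?_
    rw [h.prod, cv, map_s2]
    refine s2_eq_zero fun y y' e => ?_
    rw [coeff_mul]
    refine sum_eq_zero fun q hq => by_contra fun hne => ?_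
    have h1 := (h.dim _ _ (left_ne_zero_of_mul hne)).2.2
    have h2 := ih y' ((e ▸ Multiset.le_add_left y' y).trans_lt (Multiset.lt_cons_self x k)) _
      (right_ne_zero_of_mul hne)
    have := mem_antidiagonal.1 hq
    subst e
    simp only [Multiset.sum_cons, Multiset.card_cons, Multiset.sum_add, Multiset.card_add] at *
    omega

lemma Vx.bd' (h : Vx f fc) (x : Multiset ℕ) (n : ℕ) (hn : coeff n (f x) ≠ 0) : x.sum ≤ 3 * n :=
  (Nat.le_add_right _ _).trans (h.bd x n hn)

lemma Vx.bdc (h : Vx f fc) (x : Multiset ℕ) (n : ℕ) (hn : coeff n (fc x) ≠ 0) : x.sum ≤ 3 * n :=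
  (Nat.le_add_right _ _).trans (h.dim x n hn).2.2

lemma Vx.ser_prod (h : Vx f fc) (s : Sy) (z : Multiset Sy) :
    ser f (s ::ₘ z) = cv (fun y => ser fc (s ::ₘ y)) (ser f) z := by
  ext n
  have : ins (3 * n) s f = cv (ins (3 * n) s fc) f := funext fun x => by
    cases s with
    | inl m => simp only [ins_inl, h.prod, cv]
    | inr k => simp only [ins_inr, h.prod, cv, sum_mul, s2_sum, smul_s2, smul_mul_assoc]
  rw [← coeff_ser h.bd' le_rfl, mx_cons, this, mx_cv, cv, cv, map_s2, map_s2]
  refine s2_congr fun x y _ => ?_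
  rw [coeff_mul, coeff_mul]
  refine sum_congr rfl fun q hq => ?_
  have := mem_antidiagonal.1 hq
  rw [← mx_cons, coeff_ser h.bdc (by omega), coeff_ser h.bd' (by omega)]

lemma Vx.tp_prod (h : Vx f fc) (k : ℕ) (x : Multiset ℕ) :
    tp f (k ::ₘ x) = cv (fun y => tp fc (k ::ₘ y)) (tp f) x := by
  have key : ∀ y y', y + y' = x → ∀ n, (k ::ₘ x).sum + 2 * Multiset.card (k ::ₘ x) = 3 * n →
      coeff n (fc (k ::ₘ y) * f y') = tp fc (k ::ₘ y) * tp f y' := by
    intro y y' e n hn
    have hb : ∀ q ∈ antidiagonal n, coeff q.1 (fc (k ::ₘ y)) * coeff q.2 (f y') ≠ 0 →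
        (k ::ₘ y).sum + 2 * Multiset.card (k ::ₘ y) = 3 * q.1 ∧
          y'.sum + 2 * Multiset.card y' = 3 * q.2 := fun q hq hne => by
      have h1 := (h.dim _ _ (left_ne_zero_of_mul hne)).2.2
      have h2 := h.bd _ _ (right_ne_zero_of_mul hne)
      have := mem_antidiagonal.1 hq
      subst e
      simp only [Multiset.sum_cons, Multiset.card_cons, Multiset.sum_add, Multiset.card_add] at *
      omega
    rw [coeff_mul]
    by_cases h3 : 3 ∣ y'.sum + 2 * Multiset.card y'
    · obtain ⟨b, hb'⟩ := h3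
      have ha : (k ::ₘ y).sum + 2 * Multiset.card (k ::ₘ y) = 3 * (n - b) ∧ b ≤ n := by
        subst e
        simp only [Multiset.sum_cons, Multiset.card_cons, Multiset.sum_add, Multiset.card_add] at *
        omega
      rw [sum_eq_single (n - b, b) (fun q hq hne => by_contra fun h0 => hne ?_)
        fun h0 => absurd (mem_antidiagonal.2 (by omega)) h0, tp, tp, ha.1, hb']
      · simp
      · obtain ⟨h1, h2⟩ := hb q hq h0
        exact Prod.ext (by simp only; omega) (by simp only; omega)
    · rw [tp.eq_1 f, if_neg h3, mul_zero]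
      exact sum_eq_zero fun q hq => by_contra fun h0 => h3 ⟨_, (hb q hq h0).2⟩
  rw [tp]
  split_ifs with h3
  · obtain ⟨n, hn⟩ := h3
    rw [hn, h.prod, cv, map_s2, cv]
    exact s2_congr fun y y' e => by simpa using key y y' e n hn
  · refine (s2_eq_zero fun y y' e => ?_).symm
    simp only [tp]
    split_ifs with h1 h2 <;> try simp
    refine absurd ?_ h3
    subst e
    simp only [Multiset.sum_cons, Multiset.card_cons, Multiset.sum_add, Multiset.card_add] at *
    omega

end Vale.Agent.P269.WK
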