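import Vale.Agent.P269.WK.Two
import Mathlib.RingTheory.MvPolynomial.Basic
import Mathlib.RingTheory.TensorProduct.Basic

/-! Correlator functionals, leading terms, and test weights in several variables. -/

namespace Vale.Agent.P269.WK

open Finset

/-- The symmetric algebra on the insertions `tau a`. -/
abbrev SS := MvPolynomial ℕ ℚ

/-- The linear functional on `SS` whose value on a monomial is the correlator. -/
noncomputable def Wf (c : Multiset ℕ → ℚ) : SS →ₗ[ℚ] ℚ :=
  (MvPolynomial.basisMonomials ℕ ℚ).constr ℚ fun m => c (Finsupp.toMultiset m)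

/-- The monomial of a multiset. -/
noncomputable def mon (M : Multiset ℕ) : SS := (M.map MvPolynomial.X).prod

lemma mon_eq (M : Multiset ℕ) : mon M = MvPolynomial.monomial (Multiset.toFinsupp M) 1 := by
  induction M using Multiset.induction_on with
  | empty => simp [mon]
  | cons a M ih =>
    unfold mon at ih ⊢
    rw [Multiset.map_cons, Multiset.prod_cons, ih, ← Multiset.singleton_add, map_add,
      Multiset.toFinsupp_singleton, MvPolynomial.X, MvPolynomial.monomial_mul, one_mul]

lemma Wf_mon (c : Multiset ℕ → ℚ) (M : Multiset ℕ) : Wf c (mon M) = c M := by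
  rw [mon_eq, Wf]
  have := (MvPolynomial.basisMonomials ℕ ℚ).constr_basis ℚ
    (fun m => c (Finsupp.toMultiset m)) (Multiset.toFinsupp M)
  simpa using this

lemma mon_cons (a : ℕ) (M : Multiset ℕ) : mon (a ::ₘ M) = MvPolynomial.X a * mon M := by
  simp [mon]

lemma mon_zero : mon 0 = 1 := by simp [mon]

/-- A truncated linear combination of insertions. -/
noncomputable def Lin (A : ℕ) (f : ℕ → ℚ) : SS := ∑ a ∈ range (A + 1), f a • MvPolynomial.X a

/-- The vanishing above the dimension `3g - 3 + n`. -/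
def Dim (c : ℕ → Multiset ℕ → ℚ) : Prop :=
  ∀ g M, 3 * g + Multiset.card M < M.sum + 3 → c g M = 0

/-- `R` behaves as `r` times the monomial `M1` in top degree. -/
def Ld (c : ℕ → Multiset ℕ → ℚ) (g : ℕ) (R : SS) (r : ℚ) (M1 : Multiset ℕ) : Prop :=
  ∀ M0 : Multiset ℕ, 3 * g + Multiset.card M0 + Multiset.card M1 ≤ M0.sum + M1.sum + 3 →
    Wf (c g) (mon M0 * R) = r * c g (M0 + M1)

variable {c : ℕ → Multiset ℕ → ℚ}

lemma Ld_one (g : ℕ) : Ld c g 1 1 0 := fun M0 _ => by simp [Wf_mon]

lemma Ld.lin (hc : Dim c) {g : ℕ} {R : SS} {r : ℚ} {M1 : Multiset ℕ} (h : Ld c g R r M1)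
    {A l : ℕ} {f : ℕ → ℚ} (hl : l ≤ A) (hf : ∀ a < l, f a = 0) :
    Ld c g (Lin A f * R) (f l * r) (l ::ₘ M1) := by
  intro M0 h0
  simp only [Multiset.card_cons, Multiset.sum_cons] at h0
  have e : mon M0 * (Lin A f * R) = ∑ a ∈ range (A + 1), f a • (mon (a ::ₘ M0) * R) := by
    rw [Lin, Finset.sum_mul, Finset.mul_sum]
    refine Finset.sum_congr rfl fun a _ => ?_
    rw [mon_cons, smul_mul_assoc, mul_smul_comm]; congr 1; ring
  rw [e, map_sum, Finset.sum_eq_single l]
  · rw [map_smul, h (l ::ₘ M0) (by simp only [Multiset.card_cons, Multiset.sum_cons]; omega),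
      smul_eq_mul, Multiset.cons_add, Multiset.add_cons, mul_assoc]
  · intro a _ hal
    rcases lt_or_gt_of_ne hal with h1 | h1
    · rw [hf a h1, zero_smul, map_zero]
    · rw [map_smul, h (a ::ₘ M0) (by simp only [Multiset.card_cons, Multiset.sum_cons]; omega),
        hc g _ (by simp only [Multiset.card_add, Multiset.card_cons, Multiset.sum_cons,
          Multiset.sum_add]; omega), mul_zero, smul_zero]
  · intro h1; exact absurd (mem_range.mpr (by omega)) h1

lemma Ld_prod (hc : Dim c) (g : ℕ) {ι : Type*} [DecidableEq ι] (s : Finset ι) {A : ℕ}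
    (f : ι → ℕ → ℚ) (l : ι → ℕ) (hl : ∀ i ∈ s, l i ≤ A) (hf : ∀ i ∈ s, ∀ a < l i, f i a = 0) :
    Ld c g (∏ i ∈ s, Lin A (f i)) (∏ i ∈ s, f i (l i)) (s.val.map l) := by
  induction s using Finset.induction_on with
  | empty => simpa using Ld_one g
  | insert i s hi ih =>
    rw [Finset.prod_insert hi, Finset.prod_insert hi, Finset.insert_val_of_notMem hi,
      Multiset.map_cons]
    exact (ih (fun j hj => hl j (mem_insert_of_mem hj))
      (fun j hj => hf j (mem_insert_of_mem hj))).lin hc (hl i (mem_insert_self _ _))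
      (hf i (mem_insert_self _ _))

/-- The insertion `mu^mu/mu! * 1/(1 - mu psi)`, truncated. -/
noncomputable def Gam (A μ : ℕ) : SS := Lin A fun a => uu a μ

lemma W_van0 (hc : Dim c) (g A : ℕ) (M M0 : Multiset ℕ)
    (h : 3 * g + Multiset.card M0 + Multiset.card M < M0.sum + 3) :
    Wf (c g) (mon M0 * (M.map (Gam A)).prod) = 0 := by
  induction M using Multiset.induction_on generalizing M0 with
  | empty => simpa [Wf_mon] using hc g M0 (by simpa using h)
  | cons μ M ih =>
    simp only [Multiset.map_cons, Multiset.prod_cons, Multiset.card_cons] at h ⊢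
    have e : mon M0 * (Gam A μ * (M.map (Gam A)).prod) =
        ∑ a ∈ range (A + 1), uu a μ • (mon (a ::ₘ M0) * (M.map (Gam A)).prod) := by
      rw [Gam, Lin, Finset.sum_mul, Finset.mul_sum]
      refine Finset.sum_congr rfl fun a _ => ?_
      rw [mon_cons, smul_mul_assoc, mul_smul_comm]; congr 1; ring
    rw [e, map_sum]
    refine Finset.sum_eq_zero fun a _ => ?_
    rw [map_smul, ih (a ::ₘ M0) (by simp only [Multiset.card_cons, Multiset.sum_cons]; omega),
      smul_zero]

lemma W_trunc (hc : Dim c) (g A A' : ℕ) (hA : A ≤ A') (M M0 : Multiset ℕ)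
    (h : 3 * g + Multiset.card M0 + Multiset.card M ≤ A) :
    Wf (c g) (mon M0 * (M.map (Gam A)).prod) = Wf (c g) (mon M0 * (M.map (Gam A')).prod) := by
  induction M using Multiset.induction_on generalizing M0 with
  | empty => simp
  | cons μ M ih =>
    simp only [Multiset.map_cons, Multiset.prod_cons, Multiset.card_cons] at h ⊢
    have e : ∀ B, mon M0 * (Gam B μ * (M.map (Gam B)).prod) =
        ∑ a ∈ range (B + 1), uu a μ • (mon (a ::ₘ M0) * (M.map (Gam B)).prod) := by
      intro B
      rw [Gam, Lin, Finset.sum_mul, Finset.mul_sum]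
      refine Finset.sum_congr rfl fun a _ => ?_
      rw [mon_cons, smul_mul_assoc, mul_smul_comm]; congr 1; ring
    rw [e, e, map_sum, map_sum]
    rw [Finset.sum_congr rfl fun a _ => by
      rw [map_smul, ih (a ::ₘ M0) (by simp only [Multiset.card_cons]; omega), ← map_smul]]
    refine Finset.sum_subset (Finset.range_subset_range.mpr (by omega)) fun a _ ha => ?_
    have : A < a := by simpa using ha
    rw [map_smul, W_van0 hc g A' M (a ::ₘ M0)
      (by simp only [Multiset.card_cons, Multiset.sum_cons]; omega), smul_zero]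

section Test

variable {ι : Type*} [Fintype ι] [DecidableEq ι]

/-- Pairing of a function of `mu` with a product weight. -/
noncomputable def Tst (N : ℕ) (w : ι → ℕ → ℚ) : ((ι → ℕ) → ℚ) →ₗ[ℚ] ℚ where
  toFun F := ∑ μ ∈ Fintype.piFinset fun _ : ι => range (N + 1), (∏ i, w i (μ i)) * F μ
  map_add' F G := by simp [mul_add, Finset.sum_add_distrib]
  map_smul' r F := by simp [Finset.mul_sum, mul_left_comm]

lemma Tst_congr (N : ℕ) (w : ι → ℕ → ℚ) (hw : ∀ i, w i 0 = 0) {F G : (ι → ℕ) → ℚ}
    (h : ∀ μ : ι → ℕ, (∀ i, 0 < μ i) → F μ = G μ) : Tst N w F = Tst N w G := by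
  refine Finset.sum_congr rfl fun μ _ => ?_
  by_cases hμ : ∀ i, 0 < μ i
  · rw [h μ hμ]
  · push Not at hμ
    obtain ⟨i, hi⟩ := hμ
    have : ∏ i, w i (μ i) = 0 :=
      Finset.prod_eq_zero (mem_univ i) (by rw [Nat.le_zero.mp hi, hw])
    rw [this, zero_mul, zero_mul]

variable {A : Type*} [CommRing A] [Algebra ℚ A]

/-- One-variable pairing. -/
noncomputable def av (N : ℕ) (w : ℕ → ℚ) (φ : ℕ → A) : A := ∑ k ∈ range (N + 1), w k • φ k

lemma Tst_prod (N : ℕ) (w : ι → ℕ → ℚ) (L : A →ₗ[ℚ] ℚ) (φ : ι → ℕ → A) :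
    Tst N w (fun μ => L (∏ i, φ i (μ i))) = L (∏ i, av N (w i) (φ i)) := by
  simp only [av, Finset.prod_univ_sum, map_sum]
  refine Finset.sum_congr rfl fun μ _ => ?_
  rw [Finset.prod_smul, map_smul, smul_eq_mul]

lemma Tst_one (N : ℕ) (w : ι → ℕ → ℚ) (L : A →ₗ[ℚ] ℚ) (i : ι) (ψ : ℕ → A) (φ : ι → ℕ → A) :
    Tst N w (fun μ => L (ψ (μ i) * ∏ j ∈ univ.erase i, φ j (μ j))) =
      L (av N (w i) ψ * ∏ j ∈ univ.erase i, av N (w j) (φ j)) := by
  have h := Tst_prod N w L (Function.update φ i ψ)
  have e1 : ∀ μ : ι → ℕ, ∏ j, Function.update φ i ψ j (μ j) =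
      ψ (μ i) * ∏ j ∈ univ.erase i, φ j (μ j) := by
    intro μ
    rw [← Finset.mul_prod_erase _ _ (mem_univ i), Function.update_self]
    congr 1
    exact Finset.prod_congr rfl fun j hj => by rw [Function.update_of_ne (ne_of_mem_erase hj)]
  have e2 : ∏ j, av N (w j) (Function.update φ i ψ j) =
      av N (w i) ψ * ∏ j ∈ univ.erase i, av N (w j) (φ j) := by
    rw [← Finset.mul_prod_erase _ _ (mem_univ i), Function.update_self]
    congr 1
    exact Finset.prod_congr rfl fun j hj => by rw [Function.update_of_ne (ne_of_mem_erase hj)]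
  simp only [e1, e2] at h
  exact h

lemma Tst_two (N : ℕ) (w : ι → ℕ → ℚ) (L : A →ₗ[ℚ] ℚ) (i j : ι) (hij : j ≠ i) (ψ : ℕ → ℕ → A)
    (φ : ι → ℕ → A) :
    Tst N w (fun μ => L (ψ (μ i) (μ j) * ∏ l ∈ (univ.erase i).erase j, φ l (μ l))) =
      L ((∑ p ∈ range (N + 1), ∑ q ∈ range (N + 1), (w i p * w j q) • ψ p q) *
        ∏ l ∈ (univ.erase i).erase j, av N (w l) (φ l)) := by
  have hj : j ∈ univ.erase i := mem_erase.mpr ⟨hij, mem_univ j⟩
  have h1 : ∀ q ∈ range (N + 1), Tst N w (fun μ => L (ψ (μ i) q * ((if μ j = q then 1 else 0) *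
      ∏ l ∈ (univ.erase i).erase j, φ l (μ l)))) =
      L ((∑ p ∈ range (N + 1), (w i p * w j q) • ψ p q) *
        ∏ l ∈ (univ.erase i).erase j, av N (w l) (φ l)) := by
    intro q hq
    have h := Tst_one N w L i (fun p => ψ p q)
      (Function.update φ j fun k => if k = q then 1 else 0)
    have e1 : ∀ μ : ι → ℕ, ∏ l ∈ univ.erase i,
        Function.update φ j (fun k => if k = q then (1 : A) else 0) l (μ l) =
        (if μ j = q then 1 else 0) * ∏ l ∈ (univ.erase i).erase j, φ l (μ l) := by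
      intro μ
      rw [← Finset.mul_prod_erase _ _ hj, Function.update_self]
      congr 1
      exact Finset.prod_congr rfl fun l hl => by rw [Function.update_of_ne (ne_of_mem_erase hl)]
    have e2 : ∏ l ∈ univ.erase i,
        av N (w l) (Function.update φ j (fun k => if k = q then (1 : A) else 0) l) =
        w j q • ∏ l ∈ (univ.erase i).erase j, av N (w l) (φ l) := by
      rw [← Finset.mul_prod_erase _ _ hj, Function.update_self, ← smul_one_mul]
      congr 1
      · simp only [av, smul_ite, smul_zero, Finset.sum_ite_eq', hq, if_true]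
      · exact Finset.prod_congr rfl fun l hl => by rw [Function.update_of_ne (ne_of_mem_erase hl)]
    simp only [e1, e2] at h
    rw [h]
    congr 1
    simp only [av, Finset.sum_mul]
    refine Finset.sum_congr rfl fun p _ => ?_
    rw [smul_mul_smul_comm, smul_mul_assoc]
  rw [Finset.sum_comm, Finset.sum_mul, map_sum, ← Finset.sum_congr rfl h1]
  simp only [Tst, LinearMap.coe_mk, AddHom.coe_mk]
  rw [Finset.sum_comm]
  refine Finset.sum_congr rfl fun μ hμ => ?_
  rw [← Finset.mul_sum, ← map_sum]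
  congr 2
  rw [Finset.sum_eq_single (μ j)]
  · simp
  · intro q _ hq; simp [hq.symm]
  · intro h; exact absurd (Fintype.mem_piFinset.mp hμ j) h

lemma av_lin (N B : ℕ) (w : ℕ → ℚ) (f : ℕ → ℕ → ℚ) :
    av N w (fun k => Lin B fun a => f a k) = Lin B fun a => ∑ k ∈ range (N + 1), w k * f a k := by
  simp only [av, Lin, Finset.smul_sum, Finset.sum_smul, smul_smul]
  exact Finset.sum_comm

end Test

end Vale.Agent.P269.WK
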