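import Mathlib.Algebra.Group.ForwardDiff
import Mathlib.RingTheory.PowerSeries.Derivative
import Mathlib.RingTheory.PowerSeries.NoZeroDivisors
import Mathlib.Data.Nat.Factorial.DoubleFactorial
import Mathlib.Algebra.Polynomial.Taylor
import Mathlib.LinearAlgebra.Dual.Lemmas
import Mathlib.Tactic

/-! The tree function `T = ∑ k^(k-1)/k! x^k`, the series `t = ∑ k^k/k! x^k = 1/(1-T)`, the Euler
operator `D = x d/dx`, and the polynomials `xi a` with `xi a (t) = ∑ k^(k+a)/k! x^k`. -/

namespace Vale.Agent.P269.WK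

open Finset

/-- `j^(j-1)`, with value `0` at `j = 0`. -/
def cay (j : ℕ) : ℚ := if j = 0 then 0 else (j : ℚ) ^ (j - 1)

lemma cay_mul (j : ℕ) (hj : j ≠ 0) : (j : ℚ) * cay j = (j : ℚ) ^ j := by
  obtain ⟨i, rfl⟩ := Nat.exists_eq_succ_of_ne_zero hj
  simp [cay, pow_succ']

noncomputable def abelL (k : ℕ) : Polynomial ℚ :=
  ∑ j ∈ range (k + 1), Polynomial.C ((k.choose j : ℚ) * cay j) *
    (Polynomial.X + Polynomial.C ((k - j : ℕ) : ℚ)) ^ (k - j)

noncomputable def abelR (k : ℕ) : Polynomial ℚ :=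
  Polynomial.C (k : ℚ) * (Polynomial.X + Polynomial.C (k : ℚ)) ^ (k - 1)

lemma abelL_deriv (k : ℕ) : Polynomial.derivative (abelL (k + 1)) =
    Polynomial.C ((k + 1 : ℕ) : ℚ) * (abelL k).comp (Polynomial.X + 1) := by
  unfold abelL
  rw [Finset.sum_range_succ, Polynomial.derivative_add, Polynomial.derivative_sum]
  simp only [Nat.sub_self, pow_zero, mul_one, Polynomial.derivative_C, add_zero]
  rw [Polynomial.sum_comp, Finset.mul_sum]
  refine Finset.sum_congr rfl fun j hj => ?_
  have hj' : j ≤ k := Nat.lt_succ_iff.mp (mem_range.mp hj)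
  have h1 : k + 1 - j = (k - j) + 1 := by omega
  rw [h1]
  simp only [Polynomial.derivative_mul, Polynomial.derivative_C, zero_mul, zero_add,
    Polynomial.derivative_pow, Polynomial.derivative_add, Polynomial.derivative_X, add_zero,
    mul_one, Nat.add_sub_cancel, Polynomial.mul_comp, Polynomial.C_comp, Polynomial.pow_comp,
    Polynomial.add_comp, Polynomial.X_comp]
  have h2 : ((k + 1).choose j : ℚ) * ((k - j + 1 : ℕ) : ℚ) = ((k + 1 : ℕ) : ℚ) * (k.choose j : ℚ) := by
    have := Nat.choose_mul_succ_eq k j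
    rw [← h1]
    exact_mod_cast (by rw [← this]; ring)
  have h3 : (Polynomial.X + Polynomial.C (((k - j + 1 : ℕ)) : ℚ) : Polynomial ℚ) =
      Polynomial.X + 1 + Polynomial.C ((k - j : ℕ) : ℚ) := by
    push_cast; simp only [map_add, map_one]; ring
  rw [h3, ← mul_assoc, ← mul_assoc, ← map_mul, ← map_mul]
  congr 2
  linear_combination (cay j) * h2

lemma abelR_deriv (k : ℕ) : Polynomial.derivative (abelR (k + 1)) =
    Polynomial.C ((k + 1 : ℕ) : ℚ) * (abelR k).comp (Polynomial.X + 1) := by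
  unfold abelR
  simp only [Polynomial.derivative_mul, Polynomial.derivative_C, zero_mul, zero_add,
    Polynomial.derivative_pow, Polynomial.derivative_add, Polynomial.derivative_X, add_zero,
    mul_one, Nat.add_sub_cancel, Polynomial.mul_comp, Polynomial.C_comp, Polynomial.pow_comp,
    Polynomial.add_comp, Polynomial.X_comp]
  have h3 : (Polynomial.X + Polynomial.C (((k + 1 : ℕ)) : ℚ) : Polynomial ℚ) =
      Polynomial.X + 1 + Polynomial.C (k : ℚ) := by
    push_cast; simp only [map_add, map_one]; ring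
  rw [h3]

lemma abel_eval (k : ℕ) : (abelL (k + 1)).eval (-((k + 1 : ℕ) : ℚ)) =
    (abelR (k + 1)).eval (-((k + 1 : ℕ) : ℚ)) := by
  rcases Nat.eq_zero_or_pos k with rfl | hk
  · simp [abelL, abelR, Finset.sum_range_succ, cay]
  have h0 := congrFun (fwdDiff_iter_pow_eq_zero_of_lt (R := ℚ) (j := k) (n := k + 1)
    (Nat.lt_succ_self k)) 0
  rw [fwdDiff_iter_eq_sum_shift] at h0
  unfold abelL abelR
  simp only [Polynomial.eval_finsetSum, Polynomial.eval_mul, Polynomial.eval_C,
    Polynomial.eval_pow, Polynomial.eval_add, Polynomial.eval_X, neg_add_cancel,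
    Nat.add_sub_cancel]
  rw [zero_pow hk.ne', mul_zero]
  simp only [Pi.zero_apply] at h0
  rw [← h0]
  refine Finset.sum_congr rfl fun j hj => ?_
  have hj' : j ≤ k + 1 := Nat.lt_succ_iff.mp (mem_range.mp hj)
  rcases Nat.eq_zero_or_pos j with rfl | hj0
  · simp [cay, hk.ne']
  have h1 : (-((k + 1 : ℕ) : ℚ) + ((k + 1 - j : ℕ) : ℚ)) = -(j : ℚ) := by
    rw [Nat.cast_sub hj']; ring
  rw [h1, neg_pow (j : ℚ)]
  simp only [cay, hj0.ne', if_false, zero_add, mul_one, nsmul_eq_mul, zsmul_eq_mul]
  have h2 : (j : ℚ) ^ k = (j : ℚ) ^ (j - 1) * (j : ℚ) ^ (k + 1 - j) := by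
    rw [← pow_add]; congr 1; omega
  rw [h2]; push_cast; ring

lemma abel (k : ℕ) : abelL k = abelR k := by
  induction k with
  | zero => simp [abelL, abelR, cay]
  | succ k ih =>
    have h : Polynomial.derivative (abelL (k + 1) - abelR (k + 1)) = 0 := by
      rw [Polynomial.derivative_sub, abelL_deriv, abelR_deriv, ih, sub_self]
    have h2 := Polynomial.eq_C_of_derivative_eq_zero h
    have h3 := congrArg (Polynomial.eval (-((k + 1 : ℕ) : ℚ))) h2
    rw [Polynomial.eval_sub, abel_eval, sub_self, Polynomial.eval_C] at h3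
    rw [← h3, map_zero] at h2
    exact sub_eq_zero.mp h2

/-- The series `t`. -/
noncomputable def ts : PowerSeries ℚ := PowerSeries.mk fun k => (k : ℚ) ^ k / k.factorial

/-- The tree function. -/
noncomputable def Ts : PowerSeries ℚ := PowerSeries.mk fun k => cay k / k.factorial

/-- The Euler operator `x d/dx`. -/
noncomputable def eul (f : PowerSeries ℚ) : PowerSeries ℚ :=
  PowerSeries.mk fun k => (k : ℚ) * PowerSeries.coeff k f

@[simp] lemma coeff_eul (f : PowerSeries ℚ) (k : ℕ) :
    PowerSeries.coeff k (eul f) = (k : ℚ) * PowerSeries.coeff k f := by simp [eul]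

lemma eul_mul (f g : PowerSeries ℚ) : eul (f * g) = eul f * g + f * eul g := by
  ext k
  simp only [coeff_eul, PowerSeries.coeff_mul, map_add, Finset.mul_sum, ← Finset.sum_add_distrib]
  refine Finset.sum_congr rfl fun p hp => ?_
  rw [← mem_antidiagonal.mp hp]; push_cast; ring

lemma eul_add (f g : PowerSeries ℚ) : eul (f + g) = eul f + eul g := by
  ext k; simp [mul_add]

lemma eul_sub (f g : PowerSeries ℚ) : eul (f - g) = eul f - eul g := by
  ext k; simp [mul_sub]

lemma eul_C (c : ℚ) : eul (PowerSeries.C c) = 0 := by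
  ext k; rcases k with _ | k <;> simp [PowerSeries.coeff_C]

lemma eul_one : eul 1 = 0 := by simpa using eul_C 1

lemma Ts_mul_ts : Ts * ts = ts - 1 := by
  ext k
  rcases Nat.eq_zero_or_pos k with rfl | hk
  · simp [Ts, ts, cay, PowerSeries.coeff_mul]
  have h := congrArg (Polynomial.eval 0) (abel k)
  unfold abelL abelR at h
  simp only [Polynomial.eval_finsetSum, Polynomial.eval_mul, Polynomial.eval_C,
    Polynomial.eval_pow, Polynomial.eval_add, Polynomial.eval_X, zero_add] at h
  rw [map_sub, PowerSeries.coeff_one, if_neg hk.ne', sub_zero, PowerSeries.coeff_mul,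
    Finset.Nat.sum_antidiagonal_eq_sum_range_succ_mk]
  simp only [Ts, ts, PowerSeries.coeff_mk]
  have hk' : (k : ℚ) ^ k = k * (k : ℚ) ^ (k - 1) := by
    rw [← pow_succ']; congr 1; omega
  rw [hk', ← h, Finset.sum_div]
  refine Finset.sum_congr rfl fun j hj => ?_
  have hj' : j ≤ k := Nat.lt_succ_iff.mp (mem_range.mp hj)
  rw [Nat.cast_choose ℚ hj']
  have := Nat.factorial_ne_zero k
  have := Nat.factorial_ne_zero j
  have := Nat.factorial_ne_zero (k - j)
  field_simp

lemma eul_Ts : eul Ts = ts - 1 := by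
  ext k
  rcases Nat.eq_zero_or_pos k with rfl | hk
  · simp [ts]
  rw [map_sub, PowerSeries.coeff_one, if_neg hk.ne', sub_zero]
  simp only [coeff_eul, Ts, ts, PowerSeries.coeff_mk]
  rw [← cay_mul k hk.ne']; ring

lemma eul_ts : eul ts = ts ^ 2 * (ts - 1) := by
  have h := congrArg eul Ts_mul_ts
  rw [eul_mul, eul_sub, eul_one, eul_Ts] at h
  have h2 := Ts_mul_ts
  linear_combination (-ts) * h + (eul ts) * h2

/-- Evaluation of a polynomial at `t`. -/
noncomputable def ev : Polynomial ℚ →ₐ[ℚ] PowerSeries ℚ := Polynomial.aeval ts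

/-- The operator `t^2 (t-1) d/dt`. -/
noncomputable def dop (f : Polynomial ℚ) : Polynomial ℚ :=
  Polynomial.X ^ 2 * (Polynomial.X - 1) * Polynomial.derivative f

lemma eul_ev (f : Polynomial ℚ) : eul (ev f) = ev (dop f) := by
  induction f using Polynomial.induction_on with
  | C a =>
    have : ev (Polynomial.C a) = PowerSeries.C a := by simp [ev]
    rw [this, eul_C]; simp [dop]
  | add p q hp hq => simp only [map_add, eul_add, hp, hq, dop, mul_add]
  | monomial n a ih =>
    have h1 : Polynomial.C a * Polynomial.X ^ (n + 1) =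
        (Polynomial.C a * Polynomial.X ^ n) * (Polynomial.X : Polynomial ℚ) := by ring
    have h2 : ev Polynomial.X = ts := by simp [ev]
    rw [h1, map_mul ev _ Polynomial.X, eul_mul, ih, h2, eul_ts]
    simp only [dop, Polynomial.derivative_mul, Polynomial.derivative_X, map_mul, map_add, h2,
      map_pow, map_sub, map_one, mul_one]
    ring

/-- The polynomials `xi a`. -/
noncomputable def xi : ℕ → Polynomial ℚ
  | 0 => Polynomial.X - 1
  | a + 1 => dop (xi a)

/-- `xi (a+1) / t`. -/
noncomputable def eta (a : ℕ) : Polynomial ℚ :=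
  Polynomial.X * (Polynomial.X - 1) * Polynomial.derivative (xi a)

/-- The sequence of coefficients of `f(t)`. -/
noncomputable def sq (f : Polynomial ℚ) (k : ℕ) : ℚ := PowerSeries.coeff k (ev f)

/-- `k^(k+a)/k!` for positive `k`, and `0` for `k = 0`. -/
def uu (a k : ℕ) : ℚ := if k = 0 then 0 else (k : ℚ) ^ (k + a) / k.factorial

lemma uu_succ (a k : ℕ) : uu (a + 1) k = k * uu a k := by
  unfold uu; split_ifs
  · simp
  · rw [← add_assoc, pow_succ]; ring

lemma sq_xi (a k : ℕ) : sq (xi a) k = uu a k := by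
  induction a with
  | zero =>
    have h2 : ev Polynomial.X = ts := by simp [ev]
    simp only [sq, xi, map_sub, h2, map_one, uu, ts, PowerSeries.coeff_mk, PowerSeries.coeff_one]
    split_ifs with h
    · simp [h]
    · simp
  | succ a ih =>
    rw [uu_succ, ← ih]
    simp only [sq, xi, ← eul_ev, coeff_eul]

lemma ev_eta (a : ℕ) : ev (eta a) = ev (xi (a + 1)) - Ts * ev (xi (a + 1)) := by
  have h2 : ev Polynomial.X = ts := by simp [ev]
  have h := Ts_mul_ts
  simp only [eta, xi, dop, map_mul, map_pow, map_sub, map_one, h2]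
  linear_combination (ts * (ts - 1) * ev (Polynomial.derivative (xi a))) * h

lemma sq_eta (a k : ℕ) : sq (eta a) k =
    uu (a + 1) k - ∑ p ∈ antidiagonal k, (cay p.1 / p.1.factorial) * uu (a + 1) p.2 := by
  simp only [sq, ev_eta, map_sub, PowerSeries.coeff_mul]
  congr 1
  · exact sq_xi _ _
  · refine Finset.sum_congr rfl fun p _ => ?_
    rw [← sq_xi]; simp [Ts, sq]

lemma sq_mul (f g : Polynomial ℚ) (k : ℕ) :
    sq (f * g) k = ∑ p ∈ antidiagonal k, sq f p.1 * sq g p.2 := by
  simp only [sq, map_mul, PowerSeries.coeff_mul]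

/-- `(2a-1)!!`, the leading coefficient of `xi a`. -/
def dd (a : ℕ) : ℚ := ((2 * a - 1).doubleFactorial : ℕ)

lemma dd_succ (a : ℕ) : dd (a + 1) = (2 * a + 1) * dd a := by
  unfold dd
  have : 2 * (a + 1) - 1 = 2 * a + 1 := by omega
  rw [this, Nat.doubleFactorial_add_one]; push_cast; ring

lemma dd_zero : dd 0 = 1 := by simp [dd]

lemma dd_ne (a : ℕ) : dd a ≠ 0 := by
  unfold dd; exact_mod_cast (Nat.doubleFactorial_pos _).ne'

/-- `f` has degree at most `n` and coefficient `c` in degree `n`. -/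
def Lead (f : Polynomial ℚ) (n : ℕ) (c : ℚ) : Prop := f.natDegree ≤ n ∧ f.coeff n = c

lemma Lead.mul {f g : Polynomial ℚ} {n m : ℕ} {c d : ℚ} (hf : Lead f n c) (hg : Lead g m d) :
    Lead (f * g) (n + m) (c * d) :=
  ⟨Polynomial.natDegree_mul_le.trans (add_le_add hf.1 hg.1), by
    rw [Polynomial.coeff_mul_add_eq_of_natDegree_le hf.1 hg.1, hf.2, hg.2]⟩

lemma Lead.deriv {f : Polynomial ℚ} {n : ℕ} {c : ℚ} (hf : Lead f (n + 1) c) :
    Lead (Polynomial.derivative f) n (c * (n + 1)) :=
  ⟨(Polynomial.natDegree_derivative_le f).trans (by have := hf.1; omega), by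
    rw [Polynomial.coeff_derivative, hf.2]⟩

lemma Lead.zero {f : Polynomial ℚ} {n : ℕ} {c : ℚ} (hf : Lead f n c) {m : ℕ} (h : n < m) :
    f.coeff m = 0 := Polynomial.coeff_eq_zero_of_natDegree_lt (lt_of_le_of_lt hf.1 h)

lemma lead_X : Lead Polynomial.X 1 1 := ⟨by simp, by simp⟩

lemma lead_X_sub : Lead (Polynomial.X - 1) 1 1 :=
  ⟨by simpa using (Polynomial.natDegree_X_sub_C_le (1 : ℚ)), by simp [Polynomial.coeff_one]⟩

lemma lead_xi (a : ℕ) : Lead (xi a) (2 * a + 1) (dd a) := by
  induction a with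
  | zero => rw [dd_zero]; exact lead_X_sub
  | succ a ih =>
    have h := ((lead_X.mul lead_X).mul lead_X_sub).mul ih.deriv
    have e1 : 1 + 1 + 1 + 2 * a = 2 * (a + 1) + 1 := by ring
    rw [e1] at h
    have e2 : (1 : ℚ) * 1 * 1 * (dd a * (((2 * a : ℕ) : ℚ) + 1)) = dd (a + 1) := by
      rw [dd_succ]; push_cast; ring
    rw [e2] at h
    simpa [xi, dop, sq, pow_two] using h

lemma lead_eta (a : ℕ) : Lead (eta a) (2 * a + 2) (dd (a + 1)) := by
  have h := (lead_X.mul lead_X_sub).mul (lead_xi a).deriv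
  have e1 : 1 + 1 + 2 * a = 2 * a + 2 := by ring
  have e2 : (1 : ℚ) * 1 * (dd a * (((2 * a : ℕ) : ℚ) + 1)) = dd (a + 1) := by
    rw [dd_succ]; push_cast; ring
  rw [e1, e2] at h
  exact h

lemma coeff_pow_ts_sub (i j : ℕ) (h : j ≤ i) :
    PowerSeries.coeff j ((ts - 1) ^ i) = if j = i then 1 else 0 := by
  have h1 : ts - 1 = PowerSeries.X * PowerSeries.mk fun k => PowerSeries.coeff (k + 1) ts := by
    ext k
    rcases k with _ | k
    · simp [ts]
    · simp [PowerSeries.coeff_succ_X_mul, PowerSeries.coeff_one]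
  rw [h1, mul_pow, PowerSeries.coeff_X_pow_mul']
  split_ifs with h2 h3 h3
  · subst h3
    simp [ts]
  · omega
  · omega
  · rfl

/-- Test weights: a finitely supported weight on positive integers which reads off the
coefficient of `t^m` of polynomials of degree at most `N`. -/
lemma exists_weight (N m : ℕ) (hm : 1 ≤ m) : ∃ w : ℕ → ℚ, w 0 = 0 ∧
    ∀ f : Polynomial ℚ, f.natDegree ≤ N →
      ∑ k ∈ range (N + 1), w k * sq f k = f.coeff m := by
  let L : Fin N → Polynomial.degreeLT ℚ (N + 1) →ₗ[ℚ] ℚ := fun k =>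
    (PowerSeries.coeff (k + 1)) ∘ₗ ev.toLinearMap ∘ₗ (Polynomial.degreeLT ℚ (N + 1)).subtype
  let K : Polynomial.degreeLT ℚ (N + 1) →ₗ[ℚ] ℚ :=
    (Polynomial.lcoeff ℚ m) ∘ₗ (Polynomial.degreeLT ℚ (N + 1)).subtype
  have hker : ⨅ i, LinearMap.ker (L i) ≤ LinearMap.ker K := by
    intro f hf
    simp only [Submodule.mem_iInf, LinearMap.mem_ker] at hf ⊢
    have hdeg : f.1.natDegree ≤ N := by
      have := Polynomial.mem_degreeLT.mp f.2
      by_cases h0 : f.1 = 0
      · simp [h0]
      · exact Nat.lt_succ_iff.mp ((Polynomial.natDegree_lt_iff_degree_lt h0).mpr this)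
    set g := Polynomial.taylor 1 f.1 with hg
    have hgdeg : g.natDegree ≤ N := by rw [hg, Polynomial.natDegree_taylor]; exact hdeg
    have hev : ev f.1 = ∑ i ∈ range (N + 1), g.coeff i • (ts - 1) ^ i := by
      rw [← Polynomial.aeval_eq_sum_range' (Nat.lt_succ_of_le hgdeg), hg,
        Polynomial.taylor_apply, Polynomial.aeval_comp]
      simp [ev]
    have hz : ∀ j, 1 ≤ j → g.coeff j = 0 := by
      intro j
      induction j using Nat.strong_induction_on with
      | _ j ih =>
        intro hj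
        by_cases hjN : N < j
        · exact Polynomial.coeff_eq_zero_of_natDegree_lt (lt_of_le_of_lt hgdeg hjN)
        have h1 := hf ⟨j - 1, by omega⟩
        simp only [L, LinearMap.comp_apply, Submodule.subtype_apply, AlgHom.toLinearMap_apply,
          hev, map_sum, map_smul, smul_eq_mul] at h1
        have e : j - 1 + 1 = j := by omega
        rw [e, Finset.sum_eq_single j] at h1
        · simpa [coeff_pow_ts_sub j j le_rfl] using h1
        · intro i _ hij
          rcases lt_or_gt_of_ne hij with h | h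
          · rcases Nat.eq_zero_or_pos i with rfl | hi
            · simp [PowerSeries.coeff_one]; omega
            · rw [ih i h hi, zero_mul]
          · rw [coeff_pow_ts_sub i j h.le, if_neg (by omega), mul_zero]
        · intro h; exact absurd (mem_range.mpr (by omega)) h
    have hg0 : g.natDegree = 0 := by
      rw [← Nat.le_zero, Polynomial.natDegree_le_iff_coeff_eq_zero]
      intro j hj; exact hz j hj
    rw [hg, Polynomial.natDegree_taylor] at hg0
    simp only [K, LinearMap.comp_apply, Submodule.subtype_apply, Polynomial.lcoeff_apply]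
    exact Polynomial.coeff_eq_zero_of_natDegree_lt (by omega)
  obtain ⟨c, hc⟩ := (Submodule.mem_span_range_iff_exists_fun ℚ).1
    (mem_span_of_iInf_ker_le_ker hker)
  refine ⟨fun k => if h : 1 ≤ k ∧ k ≤ N then c ⟨k - 1, by omega⟩ else 0, by simp, ?_⟩
  intro f hf
  have hf' : f ∈ Polynomial.degreeLT ℚ (N + 1) := by
    rw [Polynomial.mem_degreeLT]
    exact lt_of_le_of_lt (Polynomial.degree_le_of_natDegree_le hf) (by exact_mod_cast Nat.lt_succ_self N)
  have h := LinearMap.congr_fun hc ⟨f, hf'⟩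
  simp only [L, K, LinearMap.coe_sum, Finset.sum_apply, LinearMap.smul_apply,
    LinearMap.comp_apply, Submodule.subtype_apply, AlgHom.toLinearMap_apply, smul_eq_mul,
    Polynomial.lcoeff_apply] at h
  rw [← h, Finset.sum_range_succ', Finset.sum_range]
  simp only [nonpos_iff_eq_zero, one_ne_zero, dite_false, zero_mul, add_zero,
    zero_le, and_true]
  refine Finset.sum_congr rfl fun i _ => ?_
  rw [dif_pos ⟨by omega, by omega⟩]
  rfl

end Vale.Agent.P269.WK
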