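import Vale.Agent.P269.WK.Tree

/-! The two-variable identity behind the join term of the cut-and-join equation. -/

namespace Vale.Agent.P269.WK

open Finset

/-- Power series in two variables `x` (inner) and `y` (outer). -/
abbrev R2 := PowerSeries (PowerSeries ℚ)

/-- Coefficient of `x^p y^q`. -/
noncomputable def co (F : R2) (p q : ℕ) : ℚ := PowerSeries.coeff p (PowerSeries.coeff q F)

/-- The series with a given array of coefficients. -/
noncomputable def arr (a : ℕ → ℕ → ℚ) : R2 := PowerSeries.mk fun q => PowerSeries.mk fun p => a p q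

@[simp] lemma co_arr (a : ℕ → ℕ → ℚ) (p q : ℕ) : co (arr a) p q = a p q := by simp [co, arr]

lemma co_ext {F G : R2} (h : ∀ p q, co F p q = co G p q) : F = G := by
  ext q p; exact h p q

lemma co_add (F G : R2) (p q : ℕ) : co (F + G) p q = co F p q + co G p q := by simp [co]
lemma co_sub (F G : R2) (p q : ℕ) : co (F - G) p q = co F p q - co G p q := by simp [co]
lemma co_zero (p q : ℕ) : co 0 p q = 0 := by simp [co]

lemma co_sum {α : Type*} (s : Finset α) (F : α → R2) (p q : ℕ) :
    co (∑ i ∈ s, F i) p q = ∑ i ∈ s, co (F i) p q := by simp [co]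

lemma co_mul (F G : R2) (p q : ℕ) : co (F * G) p q =
    ∑ b ∈ antidiagonal q, ∑ a ∈ antidiagonal p, co F a.1 b.1 * co G a.2 b.2 := by
  simp [co, PowerSeries.coeff_mul]

/-- A series in `x`. -/
noncomputable def ix : PowerSeries ℚ →+* R2 := PowerSeries.C

/-- A series in `y`. -/
noncomputable def iy : PowerSeries ℚ →+* R2 := PowerSeries.map PowerSeries.C

lemma co_ix (f : PowerSeries ℚ) (p q : ℕ) :
    co (ix f) p q = if q = 0 then PowerSeries.coeff p f else 0 := by
  simp only [co, ix, PowerSeries.coeff_C]; split_ifs <;> simp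

lemma co_iy (f : PowerSeries ℚ) (p q : ℕ) :
    co (iy f) p q = if p = 0 then PowerSeries.coeff q f else 0 := by
  simp only [co, iy, PowerSeries.coeff_map, PowerSeries.coeff_C]

lemma co_mul_ix (F : R2) (f : PowerSeries ℚ) (p q : ℕ) : co (F * ix f) p q =
    ∑ a ∈ antidiagonal p, co F a.1 q * PowerSeries.coeff a.2 f := by
  simp only [co, ix, PowerSeries.coeff_mul_C]
  rw [PowerSeries.coeff_mul]

lemma co_mul_iy (F : R2) (f : PowerSeries ℚ) (p q : ℕ) : co (F * iy f) p q =
    ∑ b ∈ antidiagonal q, co F p b.1 * PowerSeries.coeff b.2 f := by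
  simp only [co, iy]
  rw [PowerSeries.coeff_mul, map_sum]
  simp only [PowerSeries.coeff_map, PowerSeries.coeff_mul_C]

lemma co_ix_iy (f g : PowerSeries ℚ) (p q : ℕ) :
    co (ix f * iy g) p q = PowerSeries.coeff p f * PowerSeries.coeff q g := by
  simp [co, ix, iy, PowerSeries.coeff_C_mul, PowerSeries.coeff_mul_C]

lemma co_ixC_mul (c : ℚ) (F : R2) (p q : ℕ) :
    co (ix (PowerSeries.C c) * F) p q = c * co F p q := by
  simp [co, ix, PowerSeries.coeff_C_mul]

lemma ixC (c : ℚ) : iy (PowerSeries.C c) = ix (PowerSeries.C c) := by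
  simp [ix, iy]

/-- The total Euler operator. -/
noncomputable def E2 (F : R2) : R2 := arr fun p q => ((p : ℚ) + q) * co F p q

lemma E2_add (F G : R2) : E2 (F + G) = E2 F + E2 G :=
  co_ext fun p q => by simp [E2, co_add, mul_add]

lemma E2_sub (F G : R2) : E2 (F - G) = E2 F - E2 G :=
  co_ext fun p q => by simp [E2, co_sub, mul_sub]

lemma E2_mul (F G : R2) : E2 (F * G) = E2 F * G + F * E2 G :=
  co_ext fun p q => by
    simp only [E2, co_arr, co_add, co_mul, Finset.mul_sum, ← Finset.sum_add_distrib]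
    refine Finset.sum_congr rfl fun b hb => Finset.sum_congr rfl fun a ha => ?_
    rw [← mem_antidiagonal.mp hb, ← mem_antidiagonal.mp ha]; push_cast; ring

lemma E2_ix (f : PowerSeries ℚ) : E2 (ix f) = ix (eul f) :=
  co_ext fun p q => by
    simp only [E2, co_arr, co_ix, coeff_eul]; split_ifs with h <;> simp [h]

lemma E2_iy (f : PowerSeries ℚ) : E2 (iy f) = iy (eul f) :=
  co_ext fun p q => by
    simp only [E2, co_arr, co_iy, coeff_eul]; split_ifs with h <;> simp [h]

lemma eul_X : eul PowerSeries.X = PowerSeries.X := by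
  ext k; simp only [coeff_eul, PowerSeries.coeff_X]; split_ifs with h <;> simp [h]

/-- The unstable term of type `(0,2)`. -/
def h2 (p q : ℕ) : ℚ := uu 0 p * uu 0 q / ((p : ℚ) + q)

lemma h2_comm (p q : ℕ) : h2 p q = h2 q p := by unfold h2; rw [mul_comm, add_comm]

lemma add_mul_h2 (p q : ℕ) : ((p : ℚ) + q) * h2 p q = uu 0 p * uu 0 q := by
  unfold h2
  by_cases h : (p : ℚ) + q = 0
  · have : p = 0 := by
      have h' : p + q = 0 := by exact_mod_cast h
      omega
    simp [this, uu]
  · field_simp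

lemma coeff_ts_sub (k : ℕ) : PowerSeries.coeff k (ts - 1) = uu 0 k := by
  have := sq_xi 0 k
  simpa [sq, xi, ev] using this

noncomputable def G1 : R2 := arr fun p q => p * h2 p q
noncomputable def G2 : R2 := arr fun p q => q * h2 p q

lemma G1_add_G2 : G1 + G2 = (ix ts - 1) * (iy ts - 1) := by
  have : (ix ts - 1) * (iy ts - 1) = ix (ts - 1) * iy (ts - 1) := by simp
  rw [this]
  refine co_ext fun p q => ?_
  rw [co_ix_iy, coeff_ts_sub, coeff_ts_sub, ← add_mul_h2]
  simp [G1, G2, co_add, add_mul]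

lemma E2_G1 : E2 G1 = ix (eul ts) * (iy ts - 1) := by
  have : ix (eul ts) * (iy ts - 1) = ix (eul (ts - 1)) * iy (ts - 1) := by
    simp [eul_sub, eul_one]
  rw [this]
  refine co_ext fun p q => ?_
  rw [co_ix_iy, coeff_eul, coeff_ts_sub, coeff_ts_sub, mul_assoc, ← add_mul_h2]
  simp only [E2, G1, co_arr]; ring

lemma eq_zero_of_E2 (Y L : R2) (hL : co L 0 0 = 0) (h : E2 Y = 2 * Y + L * Y)
    (h2 : ∀ p q, p + q = 2 → co Y p q = 0) : Y = 0 := by
  have key : ∀ d p q, p + q = d → co Y p q = 0 := by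
    intro d
    induction d using Nat.strong_induction_on with
    | _ d ih =>
      intro p q hpq
      by_cases hd : d = 2
      · exact h2 p q (hd ▸ hpq)
      have h1 := congrArg (fun F => co F p q) h
      simp only [E2, co_arr, co_add, two_mul] at h1
      have h3 : co (L * Y) p q = 0 := by
        rw [co_mul]
        refine Finset.sum_eq_zero fun b hb => Finset.sum_eq_zero fun a ha => ?_
        have hb' := mem_antidiagonal.mp hb
        have ha' := mem_antidiagonal.mp ha
        by_cases h0 : a.1 = 0 ∧ b.1 = 0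
        · rw [h0.1, h0.2, hL, zero_mul]
        · rw [ih (a.2 + b.2) (by omega) _ _ rfl, mul_zero]
      rw [h3] at h1
      have h4 : ((p : ℚ) + q - 2) * co Y p q = 0 := by linear_combination h1
      rcases mul_eq_zero.mp h4 with h5 | h5
      · exfalso; apply hd
        have : ((p + q : ℕ) : ℚ) = (2 : ℕ) := by push_cast; linarith
        have := Nat.cast_injective (R := ℚ) this
        omega
      · exact h5
  exact co_ext fun p q => by rw [key _ p q rfl, co_zero]

lemma G1_spec : (ix PowerSeries.X - iy PowerSeries.X) * (ix Ts - iy Ts) * (G1 + ix ts - 1) -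
    (ix PowerSeries.X - iy PowerSeries.X) * (ix ts - 1) + ix PowerSeries.X * (ix Ts - iy Ts) = 0 := by
  have hx := congrArg ix Ts_mul_ts
  have hy := congrArg iy Ts_mul_ts
  simp only [map_mul, map_sub, map_one] at hx hy
  refine eq_zero_of_E2 _ (ix ts * iy ts - 1) ?_ ?_ ?_
  · rw [co_sub, co_ix_iy]; simp [ts, co]
  · have h1 : E2 1 = 0 := by simpa [eul_one] using E2_ix 1
    simp only [E2_add, E2_sub, E2_mul, E2_ix, E2_iy, eul_X, eul_Ts, E2_G1, eul_ts, h1, map_mul,
      map_sub, map_pow, map_one]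
    set x := ix PowerSeries.X
    set y := iy PowerSeries.X
    set s := ix ts
    set r := iy ts
    set S := ix Ts
    set R := iy Ts
    have hd : s - r = s * r * (S - R) := by linear_combination s * hy - r * hx
    linear_combination ((x - y) * (G1 + s - 1) + x - (x - y) * s * (s - 1)) * hd
  · intro p q hpq
    have hT0 : PowerSeries.coeff 0 Ts = 0 := by simp [Ts, cay]
    have hT1 : PowerSeries.coeff 1 Ts = 1 := by simp [Ts, cay]
    have ht0 : PowerSeries.coeff 0 ts = 1 := by simp [ts]
    have ht1 : PowerSeries.coeff 1 ts = 1 := by simp [ts]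
    have hG : co G1 0 0 = 0 := by simp [G1]
    have h1 : ∀ p q, co 1 p q = if p = 0 ∧ q = 0 then 1 else 0 := by
      intro p q
      have := co_ix 1 p q
      rw [map_one] at this
      rw [this, PowerSeries.coeff_one]; by_cases hp : p = 0 <;> by_cases hq : q = 0 <;> simp [hp, hq]
    have hc : (p = 2 ∧ q = 0) ∨ (p = 1 ∧ q = 1) ∨ (p = 0 ∧ q = 2) := by omega
    rcases hc with ⟨rfl, rfl⟩ | ⟨rfl, rfl⟩ | ⟨rfl, rfl⟩ <;>
    simp [co_add, co_sub, co_mul, co_ix, co_iy, h1, Finset.Nat.antidiagonal_succ, hT0, hT1, ht0,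
      ht1, hG, PowerSeries.coeff_X]

/-- Complete homogeneous polynomial in `t(x)`, `t(y)`. -/
noncomputable def hh (r : ℕ) : R2 := ∑ a ∈ antidiagonal r, ix ts ^ a.1 * iy ts ^ a.2

lemma hh_spec (r : ℕ) : (ix ts - iy ts) * hh r = ix ts ^ (r + 1) - iy ts ^ (r + 1) := by
  induction r with
  | zero => simp [hh]
  | succ r ih =>
    have : hh (r + 1) = iy ts ^ (r + 1) + ix ts * hh r := by
      unfold hh
      rw [Finset.Nat.antidiagonal_succ, Finset.sum_cons, Finset.sum_map, Finset.mul_sum]
      simp only [pow_zero, one_mul, Function.Embedding.coe_prodMap, Function.Embedding.coeFn_mk,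
        Prod.map_fst, Prod.map_snd, Function.Embedding.refl_apply, Nat.succ_eq_add_one, pow_succ]
      congr 1
      refine Finset.sum_congr rfl fun a _ => by ring
    rw [this]
    linear_combination (ix ts) * ih

lemma join_series (f : Polynomial ℚ) (hf : sq f 0 = 0) (N : ℕ) (hN : f.natDegree < N) :
    arr (fun p q => if p = 0 ∨ q = 0 then 0 else sq f (p + q)) + G1 * ix (ev f) + G2 * iy (ev f) =
      ∑ r ∈ range N, ix (PowerSeries.C (f.coeff r)) * (ix ts * iy ts * hh r - hh (r + 1)) := by
  have hx := congrArg ix Ts_mul_ts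
  have hy := congrArg iy Ts_mul_ts
  simp only [map_mul, map_sub, map_one] at hx hy
  have hJ : (ix PowerSeries.X - iy PowerSeries.X) *
      arr (fun p q => if p = 0 ∨ q = 0 then 0 else sq f (p + q)) =
      iy PowerSeries.X * ix (ev f) - ix PowerSeries.X * iy (ev f) := by
    refine co_ext fun p q => ?_
    rw [sub_mul, mul_comm (ix _), mul_comm (iy _), mul_comm (iy _), co_sub, co_sub, co_mul_ix,
      co_mul_iy, co_ix_iy, co_ix_iy]
    simp only [co_arr, PowerSeries.coeff_X, mul_ite, mul_one, mul_zero, ite_mul, one_mul, zero_mul]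
    have e1 : ∀ (n : ℕ) (g : ℕ → ℚ), (∑ a ∈ antidiagonal n, if a.2 = 1 then g a.1 else 0) =
        if n = 0 then 0 else g (n - 1) := by
      intro n g
      rcases n with _ | n
      · simp
      · rw [Finset.sum_eq_single (n, 1)]
        · simp
        · intro b hb hne
          rw [if_neg]
          intro h; apply hne
          have := mem_antidiagonal.mp hb
          ext <;> simp <;> omega
        · intro h; exact absurd (mem_antidiagonal.mpr (by simp)) h
    rw [e1 p (fun a => if a = 0 ∨ q = 0 then 0 else sq f (a + q)),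
      e1 q (fun b => if p = 0 ∨ b = 0 then 0 else sq f (p + b))]
    have hf' : PowerSeries.coeff 0 (ev f) = 0 := hf
    rcases p with _ | _ | p <;> rcases q with _ | _ | q <;>
      simp [sq, hf', add_comm, add_left_comm]
    rw [show q + (p + 1 + 2) = p + (q + 1 + 2) by ring, sub_self]
  have hevx : ix (ev f) = ∑ r ∈ range N, ix (PowerSeries.C (f.coeff r)) * ix ts ^ r := by
    rw [ev, Polynomial.aeval_eq_sum_range' hN, map_sum]
    refine Finset.sum_congr rfl fun r _ => ?_
    rw [PowerSeries.smul_eq_C_mul, map_mul, map_pow]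
  have hevy : iy (ev f) = ∑ r ∈ range N, ix (PowerSeries.C (f.coeff r)) * iy ts ^ r := by
    rw [ev, Polynomial.aeval_eq_sum_range' hN, map_sum]
    refine Finset.sum_congr rfl fun r _ => ?_
    rw [PowerSeries.smul_eq_C_mul, map_mul, map_pow, ixC]
  have hR : (ix ts - iy ts) *
      ∑ r ∈ range N, ix (PowerSeries.C (f.coeff r)) * (ix ts * iy ts * hh r - hh (r + 1)) =
      ix ts ^ 2 * (iy ts - 1) * ix (ev f) - iy ts ^ 2 * (ix ts - 1) * iy (ev f) := by
    rw [hevx, hevy, Finset.mul_sum, Finset.mul_sum, Finset.mul_sum, ← Finset.sum_sub_distrib]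
    refine Finset.sum_congr rfl fun r _ => ?_
    have h1 := hh_spec r
    have h2 := hh_spec (r + 1)
    linear_combination (ix (PowerSeries.C (f.coeff r))) * (ix ts * iy ts * h1 - h2)
  have hδ : (ix PowerSeries.X - iy PowerSeries.X : R2) ≠ 0 := by
    intro h
    have := congrArg (fun F => co F 1 0) h
    simp [co_sub, co_ix, co_iy, co_zero] at this
  have hΔ : (ix ts - iy ts : R2) ≠ 0 := by
    intro h
    have := congrArg (fun F => co F 1 0) h
    simp [co_sub, co_ix, co_iy, co_zero, ts] at this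
  refine mul_left_cancel₀ (mul_ne_zero hδ hΔ) ?_
  rw [mul_assoc, mul_assoc, hR]
  have hG := G1_spec
  have hG2 := G1_add_G2
  set x := ix PowerSeries.X
  set y := iy PowerSeries.X
  set s := ix ts
  set r := iy ts
  set S := ix Ts
  set R := iy Ts
  have hd : s - r = s * r * (S - R) := by linear_combination s * hy - r * hx
  have hG' : (x - y) * (s - r) * (G1 + s - 1) - (x - y) * (s - 1) * s * r + x * (s - r) = 0 := by
    linear_combination (s * r) * hG + ((x - y) * (G1 + s - 1) + x) * hd
  linear_combination (s - r) * hJ + (ix (ev f) - iy (ev f)) * hG' +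
    (x - y) * (s - r) * iy (ev f) * hG2

/-- The join term together with the two cut terms containing an unstable `(0,2)` factor. -/
noncomputable def jt (f : Polynomial ℚ) (p q : ℕ) : ℚ :=
  sq f (p + q) + ∑ a ∈ antidiagonal p, a.1 * h2 a.1 q * sq f a.2 +
    ∑ a ∈ antidiagonal q, a.1 * h2 a.1 p * sq f a.2

lemma jt_eq (f : Polynomial ℚ) (hf : sq f 0 = 0) (N : ℕ) (hN : f.natDegree < N) (p q : ℕ)
    (hp : p ≠ 0) (hq : q ≠ 0) : jt f p q = ∑ r ∈ range N, f.coeff r *
      (∑ a ∈ antidiagonal r, sq (Polynomial.X ^ (a.1 + 1)) p * sq (Polynomial.X ^ (a.2 + 1)) q -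
       ∑ a ∈ antidiagonal (r + 1), sq (Polynomial.X ^ a.1) p * sq (Polynomial.X ^ a.2) q) := by
  have h := congrArg (fun F => co F p q) (join_series f hf N hN)
  simp only [co_add, co_arr, co_mul_ix, co_mul_iy, hp, hq, or_self, if_false, G1, G2, co_sum,
    co_ixC_mul, co_sub] at h
  have h2' : ev Polynomial.X = ts := by simp [ev]
  unfold jt
  refine Eq.trans ?_ (h.trans ?_)
  · congr 1
    refine Finset.sum_congr rfl fun a _ => ?_
    rw [h2_comm]; rfl
  · refine Finset.sum_congr rfl fun r _ => ?_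
    symm
    congr 2
    · rw [hh, Finset.mul_sum, co_sum]
      refine Finset.sum_congr rfl fun a _ => ?_
      have : ix ts * iy ts * (ix ts ^ a.1 * iy ts ^ a.2) = ix (ts ^ (a.1 + 1)) * iy (ts ^ (a.2 + 1)) := by
        simp only [map_pow]; ring
      rw [this, co_ix_iy]; simp [sq, h2']
    · rw [hh, co_sum]
      refine Finset.sum_congr rfl fun a _ => ?_
      rw [← map_pow, ← map_pow, co_ix_iy]; simp [sq, h2']

/-- `w` reads off the coefficient of `t^m` for polynomials of degree at most `N`. -/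
def IsW (N m : ℕ) (w : ℕ → ℚ) : Prop := w 0 = 0 ∧
    ∀ f : Polynomial ℚ, f.natDegree ≤ N → ∑ k ∈ range (N + 1), w k * sq f k = f.coeff m

lemma jt_test (f : Polynomial ℚ) (hf : sq f 0 = 0) (N m m' : ℕ) (hN : f.natDegree + 1 ≤ N)
    {w w' : ℕ → ℚ} (hw : IsW N (m + 1) w) (hw' : IsW N (m' + 1) w') :
    ∑ p ∈ range (N + 1), ∑ q ∈ range (N + 1), w p * w' q * jt f p q =
      f.coeff (m + m') - f.coeff (m + m' + 1) := by
  have h1 : ∀ p q, w p * w' q * jt f p q = ∑ r ∈ range (f.natDegree + 1), f.coeff r *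
      (∑ a ∈ antidiagonal r, (w p * sq (Polynomial.X ^ (a.1 + 1)) p) *
          (w' q * sq (Polynomial.X ^ (a.2 + 1)) q) -
       ∑ a ∈ antidiagonal (r + 1), (w p * sq (Polynomial.X ^ a.1) p) *
          (w' q * sq (Polynomial.X ^ a.2) q)) := by
    intro p q
    by_cases hp : p = 0
    · simp [hp, hw.1]
    by_cases hq : q = 0
    · simp [hq, hw'.1]
    rw [jt_eq f hf _ (Nat.lt_succ_self _) p q hp hq, Finset.mul_sum]
    refine Finset.sum_congr rfl fun r _ => ?_
    simp only [mul_sub, Finset.mul_sum]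
    congr 1 <;> refine Finset.sum_congr rfl fun a _ => by ring
  have h2 : ∀ i j, i ≤ N → j ≤ N → ∑ p ∈ range (N + 1), ∑ q ∈ range (N + 1),
      (w p * sq (Polynomial.X ^ i) p) * (w' q * sq (Polynomial.X ^ j) q) =
      if (i, j) = (m + 1, m' + 1) then 1 else 0 := by
    intro i j hi hj
    rw [← Finset.sum_mul_sum, hw.2 _ (by simpa using hi), hw'.2 _ (by simpa using hj)]
    simp only [Polynomial.coeff_X_pow, Prod.mk.injEq]
    split_ifs <;> first | omega | simp
  simp only [h1]
  rw [Finset.sum_congr rfl fun p _ => Finset.sum_comm, Finset.sum_comm]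
  have h3 : ∀ r ∈ range (f.natDegree + 1), ∑ p ∈ range (N + 1), ∑ q ∈ range (N + 1), f.coeff r *
      (∑ a ∈ antidiagonal r, (w p * sq (Polynomial.X ^ (a.1 + 1)) p) *
          (w' q * sq (Polynomial.X ^ (a.2 + 1)) q) -
       ∑ a ∈ antidiagonal (r + 1), (w p * sq (Polynomial.X ^ a.1) p) *
          (w' q * sq (Polynomial.X ^ a.2) q)) =
      (if r = m + m' then f.coeff r else 0) - (if r = m + m' + 1 then f.coeff r else 0) := by
    intro r hr
    have hr' := mem_range.mp hr
    simp only [← Finset.mul_sum, Finset.sum_sub_distrib]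
    rw [Finset.sum_congr rfl fun p _ => Finset.sum_comm, Finset.sum_comm,
      Finset.sum_congr (s₁ := range (N + 1)) rfl fun p _ =>
        Finset.sum_comm (t := antidiagonal (r + 1)), Finset.sum_comm (t := antidiagonal (r + 1))]
    rw [Finset.sum_congr rfl fun a ha => h2 (a.1 + 1) (a.2 + 1)
        (by have := mem_antidiagonal.mp ha; omega) (by have := mem_antidiagonal.mp ha; omega),
      Finset.sum_congr (s₁ := antidiagonal (r + 1)) rfl fun a ha => h2 a.1 a.2
        (by have := mem_antidiagonal.mp ha; omega) (by have := mem_antidiagonal.mp ha; omega)]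
    have e1 : (∑ a ∈ antidiagonal r, if (a.1 + 1, a.2 + 1) = (m + 1, m' + 1) then (1 : ℚ) else 0) =
        if r = m + m' then 1 else 0 := by
      have : ∀ a : ℕ × ℕ, ((a.1 + 1, a.2 + 1) = (m + 1, m' + 1)) = (a = (m, m')) := by
        intro a; simp [Prod.ext_iff]
      simp only [this, Finset.sum_ite_eq', mem_antidiagonal, eq_comm]
    have e2 : (∑ a ∈ antidiagonal (r + 1), if (a.1, a.2) = (m + 1, m' + 1) then (1 : ℚ) else 0) =
        if r = m + m' + 1 then 1 else 0 := by
      simp only [Prod.mk.eta, Finset.sum_ite_eq', mem_antidiagonal]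
      congr 1
      apply propext; omega
    rw [e1, e2]
    split_ifs <;> simp
  rw [Finset.sum_congr rfl h3, Finset.sum_sub_distrib, Finset.sum_ite_eq', Finset.sum_ite_eq']
  congr 1
  · split_ifs with h
    · rfl
    · exact (Polynomial.coeff_eq_zero_of_natDegree_lt (by simpa using h)).symm
  · split_ifs with h
    · rfl
    · exact (Polynomial.coeff_eq_zero_of_natDegree_lt (by simpa using h)).symm

end Vale.Agent.P269.WK
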