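import Vale.Agent.P269.WK.Ser
import Mathlib.Algebra.Module.LinearMap.Rat

/-! Properties of the vertex series. -/

namespace Vale.Agent.P269.WK

open Finset PowerSeries

variable {f fc : Multiset ℕ → ℂ⟦X⟧}

namespace VxP

/-- The number of symbols `inl`. -/
def nt (z : Multiset Sy) : ℕ := (z.map (Sum.elim (fun _ => 1) fun _ => 0)).sum

lemma nt_inl (m : ℕ) (z : Multiset Sy) : nt (.inl m ::ₘ z) = nt z + 1 := by simp [nt, add_comm]

lemma nt_inr (k : ℕ) (z : Multiset Sy) : nt (.inr k ::ₘ z) = nt z := by simp [nt]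

lemma nt_map (x : Multiset ℕ) : nt (x.map .inl) = Multiset.card x := by simp [nt]

lemma nt_cons (s : Sy) (z : Multiset Sy) : nt (s ::ₘ z) ≤ nt z + 1 := by
  cases s <;> simp [nt_inl, nt_inr]

lemma nt_le (z : Multiset Sy) : nt z ≤ Multiset.card z := by
  induction z using Multiset.induction_on with
  | empty => simp [nt]
  | cons s z ih => exact (nt_cons s z).trans (by simpa using ih)

/-- All powers of `psi` are at least two. -/
def Good (z : Multiset Sy) : Prop := ∀ m, .inl m ∈ z → 2 ≤ m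

lemma Good.of_cons {s : Sy} {z : Multiset Sy} (h : Good (s ::ₘ z)) : Good z :=
  fun m hm => h m (Multiset.mem_cons_of_mem hm)

lemma Good.inr {z : Multiset Sy} (h : Good z) (k : ℕ) : Good (.inr k ::ₘ z) :=
  fun m hm => h m (by simpa using hm)

lemma good_map {x : Multiset ℕ} (hx : ∀ m ∈ x, 2 ≤ m) : Good (x.map .inl) :=
  fun m hm => hx m (by simpa using hm)

lemma mx_eq_zero (N : ℕ) {z : Multiset Sy} (hz : Good z) {F : Multiset ℕ → ℂ}
    (h : ∀ x, Multiset.card x = Multiset.card z → 2 * nt z ≤ x.sum → F x = 0) : mx N F z = 0 := by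
  induction z using Multiset.induction_on generalizing F with
  | empty => rw [mx_zero, h 0 rfl (by simp [nt])]
  | cons s z ih =>
    rw [mx_cons]
    refine ih hz.of_cons fun x h1 h2 => ?_
    cases s with
    | inl m =>
      have := hz m (Multiset.mem_cons_self _ _)
      rw [ins_inl, h _ (by simp [h1]) (by rw [nt_inl, Multiset.sum_cons]; omega)]
    | inr k =>
      rw [ins_inr]
      exact sum_eq_zero fun r _ => by
        rw [h _ (by simp [h1]) (by rw [nt_inr, Multiset.sum_cons]; omega), smul_zero]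

lemma coeff_q (n : ℕ) (q : ℚ) (u : ℂ⟦X⟧) : coeff n (q • u) = q * coeff n u := by
  rw [map_rat_smul, Rat.smul_def]

lemma low (h : Vx f fc) (μ : Multiset ℕ) {z : Multiset Sy} (hz : Good z) {n : ℕ} (h1 : n ≤ nt z)
    (h2 : n < Multiset.card z) : coeff n (GG (ser f) μ z) = 0 := by
  induction μ using Multiset.induction_on generalizing z n with
  | empty =>
    rw [GG_zero, coeff_ser']
    refine mx_eq_zero _ hz fun x h3 h4 => by_contra fun h5 => ?_
    have := h.bd x n h5
    have := nt_le z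
    omega
  | cons k μ ih =>
    rw [GG_cons, al, map_add, map_add, ih (hz.inr k) (by rwa [nt_inr])
      (by rw [Multiset.card_cons]; omega), coeff_q, ih hz h1 h2, mul_zero, add_zero, zero_add]
    cases n with
    | zero => exact coeff_zero_X_mul _
    | succ n =>
      rw [coeff_succ_X_mul, map_s1]
      refine s1_eq_zero fun s z' e => ?_
      subst e
      have := nt_cons s z'
      rw [Multiset.card_cons] at h2
      rw [coeff_q, ih hz.of_cons (by omega) (by omega), mul_zero]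

/-- The dilaton operator. -/
noncomputable def dl (c : ℂ) : ℂ⟦X⟧ →+ ℂ⟦X⟧ :=
  AddMonoidHom.mk' (fun u => X * (2 * th u + c • u)) fun u v => by
    simp only [th, map_add, smul_add]; ring

lemma dl_apply (c : ℂ) (u : ℂ⟦X⟧) : dl c u = X * (2 * th u + c • u) := rfl

lemma dl_X (c : ℂ) (u : ℂ⟦X⟧) : dl c (X * u) = X * dl (c + 2) u := by
  simp only [dl_apply, th, Derivation.leibniz, derivative_X, smul_eq_mul, add_smul, two_smul,
    ← mul_smul_comm]
  ring

lemma dl_succ (c : ℂ) (u : ℂ⟦X⟧) : dl (c + 1) u = dl c u + X * u := by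
  simp only [dl_apply, add_smul, one_smul]; ring

lemma coeff_dl (c : ℂ) (u : ℂ⟦X⟧) (n : ℕ) : coeff (n + 1) (dl c u) = (2 * n + c) * coeff n u := by
  rw [dl_apply, coeff_succ_X_mul, two_mul, map_add, map_add, coeff_th, map_smul, smul_eq_mul]
  ring

lemma dil (h : Vx f fc) {κ : ℂ} (hκ : ∀ x, f (1 ::ₘ x) = dl (κ - Multiset.card x) (f x))
    (μ : Multiset ℕ) (z : Multiset Sy) : GG (ser f) μ (.inl 1 ::ₘ z) =
      dl (κ - Multiset.card z - Multiset.card μ) (GG (ser f) μ z) := by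
  induction μ using Multiset.induction_on generalizing z with
  | empty =>
    ext n
    rw [GG_zero, ← coeff_ser h.bd' le_rfl, mx_cons, Multiset.card_zero, Nat.cast_zero, sub_zero,
      mx_congr (g := fun x => (dl (κ - Multiset.card z)).toRatLinearMap (f x)) _
        fun x hx => by rw [ins_inl, hκ, hx]; rfl, ← map_mx]
    cases n with
    | zero => exact (coeff_zero_X_mul _).trans (coeff_zero_X_mul _).symm
    | succ n =>
      rw [AddMonoidHom.coe_toRatLinearMap, coeff_dl, coeff_dl, coeff_ser h.bd' (by omega)]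
  | cons k μ ih =>
    have e1 : ph k (.inl 1) = -c1 k := by simp only [ph, c1]; ring
    have e2 : s1 z (fun s z' => ph k s • GG (ser f) μ (.inl 1 ::ₘ z')) =
        dl (κ - Multiset.card z - (Multiset.card μ + 1) + 2)
          (s1 z fun s z' => ph k s • GG (ser f) μ z') := by
      rw [map_s1]
      refine s1_congr fun s z' e => ?_
      rw [map_rat_smul, ih, ← e, Multiset.card_cons, Nat.cast_succ]
      exact congrArg (fun c => ph k s • dl c _) (by ring)
    have e3 : κ - Multiset.card z - Multiset.card μ =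
      κ - Multiset.card z - (Multiset.card μ + 1) + 1 := by ring
    have e4 : κ - (Multiset.card z + 1) - Multiset.card μ =
      κ - Multiset.card z - (Multiset.card μ + 1) := by ring
    rw [GG_cons, al, al, s1_cons, Multiset.cons_swap, ih, ih, e1, e2, map_add, map_add, dl_X,
      map_rat_smul, Multiset.card_cons, Multiset.card_cons, Nat.cast_succ, Nat.cast_succ, e3, e4,
      dl_succ, smul_add, neg_smul, mul_add, mul_neg, mul_smul_comm]
    abel

end VxP

open VxP

lemma Vx.low (h : Vx f fc) {x : Multiset ℕ} (hx : ∀ m ∈ x, 2 ≤ m) (μ : Multiset ℕ) {n : ℕ}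
    (hn : n < Multiset.card x) : coeff n (hv f x μ) = 0 :=
  VxP.low h μ (good_map hx) (nt_map x ▸ hn.le) (by rwa [Multiset.card_map])

/-- The classical part. -/
noncomputable def clf (f : Multiset ℕ → ℂ⟦X⟧) (x μ : Multiset ℕ) : ℂ :=
  coeff (Multiset.card x) (hv f x μ)

lemma Vx.cl_cons (h : Vx f fc) {x : Multiset ℕ} (hx : ∀ m ∈ x, 2 ≤ m) (k : ℕ) (μ : Multiset ℕ) :
    clf f x (k ::ₘ μ) = c1 k * clf f x μ + s1 x fun m ν => ph k (.inl m) * clf f ν μ := by
  rw [clf, hv, GG_cons, al, map_add, map_add, VxP.low h μ ((good_map hx).inr k)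
    (by rw [nt_inr, nt_map]) (by simp), zero_add, coeff_q, s1_map, mul_s1, map_s1]
  refine congrArg _ (s1_congr fun m ν e => ?_)
  rw [← e, Multiset.card_cons, coeff_succ_X_mul, coeff_q]
  rfl

lemma Vx.cl_nil (h : Vx f fc) {x : Multiset ℕ} (hx : ∀ m ∈ x, 2 ≤ m) (h0 : x ≠ 0) :
    clf f x 0 = 0 := by
  rw [clf, hv, GG_zero, ser_inl]
  by_contra h1
  have h2 := h.bd x _ h1
  have h3 := Multiset.card_nsmul_le_sum hx
  have h4 := Multiset.card_pos.2 h0
  rw [smul_eq_mul] at h3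
  omega

lemma Vx.cl_zero (h : Vx f fc) (μ : Multiset ℕ) : clf f 0 μ = ((μ.map c1).prod : ℚ) := by
  induction μ using Multiset.induction_on with
  | empty => simpa [clf, hv, ser_zero] using h.one
  | cons k μ ih => simp [h.cl_cons, ih]

lemma Vx.cl_op (h : Vx f fc) {x : Multiset ℕ} (hx : ∀ m ∈ x, 2 ≤ m) {a : ℕ} (ha : 1 ≤ a)
    (μ : Multiset ℕ) : (((μ.map fun k : ℕ => (k : ℚ)⁻¹ ^ a).sum : ℚ) : ℂ) * clf f x μ =
      (-1) ^ (a + 1) * (clf f ((a + 1) ::ₘ x) μ - s1 x fun m ν => clf f ((a + m) ::ₘ ν) μ) := by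
  have g1 : ∀ {x : Multiset ℕ}, (∀ m ∈ x, 2 ≤ m) → ∀ m ∈ (a + 1) ::ₘ x, 2 ≤ m := fun hx =>
    Multiset.forall_mem_cons.2 ⟨by omega, hx⟩
  have g2 : ∀ {x ν : Multiset ℕ} {m}, (∀ m ∈ x, 2 ≤ m) → m ::ₘ ν = x →
      (∀ m ∈ ν, 2 ≤ m) ∧ ∀ m' ∈ (a + m) ::ₘ ν, 2 ≤ m' := fun hx e => by
    subst e
    have := Multiset.forall_mem_cons.1 hx
    exact ⟨this.2, Multiset.forall_mem_cons.2 ⟨by omega, this.2⟩⟩
  induction μ using Multiset.induction_on generalizing x with
  | empty =>
    rw [h.cl_nil (g1 hx) (Multiset.cons_ne_zero), s1_eq_zero fun m ν e =>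
      h.cl_nil (g2 hx e).2 Multiset.cons_ne_zero]
    simp
  | cons k μ ih =>
    set E : ℂ := (((μ.map fun k : ℕ => (k : ℚ)⁻¹ ^ a).sum : ℚ) : ℂ)
    set ε : ℂ := (-1) ^ (a + 1)
    have hε : ε * ε = 1 := by rw [← mul_pow]; simp
    have p1 : (ph k (.inl (a + 1)) : ℂ) = ε * ((k : ℂ)⁻¹ ^ a * c1 k) := by
      simp only [ph, c1, ε]
      push_cast
      rw [neg_div, neg_pow]
      ring
    have p2 : ∀ m, (ph k (.inl (a + m)) : ℂ) = -(ε * ((k : ℂ)⁻¹ ^ a * ph k (.inl m))) := fun m => by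
      simp only [ph, ε]
      push_cast
      rw [pow_add, neg_div, neg_pow _ a]
      ring
    have q1 : E * s1 x (fun m ν => ph k (.inl m) * clf f ν μ) =
        ε * (s1 x (fun m ν => ph k (.inl m) * clf f ((a + 1) ::ₘ ν) μ) -
          s1 x fun m ν => s1 ν fun m' ν' => ph k (.inl m') * clf f ((a + m) ::ₘ ν') μ) := by
      rw [s1_comm, mul_sub, eq_sub_iff_add_eq, mul_s1, mul_s1, mul_s1, ← s1_add]
      refine s1_congr fun m ν e => ?_
      rw [← mul_s1]
      linear_combination (ph k (.inl m) : ℂ) * ih (g2 hx e).1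
    have q2 : s1 x (fun m ν => clf f ((a + m) ::ₘ ν) (k ::ₘ μ)) =
        c1 k * s1 x (fun m ν => clf f ((a + m) ::ₘ ν) μ) +
          (-(ε * (k : ℂ)⁻¹ ^ a) * s1 x (fun m ν => ph k (.inl m) * clf f ν μ) +
          s1 x fun m ν => s1 ν fun m' ν' => ph k (.inl m') * clf f ((a + m) ::ₘ ν') μ) := by
      rw [mul_s1, mul_s1, ← s1_add, ← s1_add]
      refine s1_congr fun m ν e => ?_
      rw [h.cl_cons (g2 hx e).2, s1_cons, p2]
      ring
    rw [q2, h.cl_cons hx, h.cl_cons (g1 hx), s1_cons, p1, Multiset.map_cons, Multiset.sum_cons,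
      Rat.cast_add, Rat.cast_pow, Rat.cast_inv, Rat.cast_natCast]
    linear_combination (c1 k : ℂ) * ih hx + q1 - ((k : ℂ)⁻¹ ^ a * (c1 k * clf f x μ +
      s1 x fun m ν => ph k (.inl m) * clf f ν μ)) * hε

lemma Vx.hv_dil (h : Vx f fc) : ∃ κ : ℂ, ∀ x μ, hv f (1 ::ₘ x) μ =
    X * (2 * th (hv f x μ) + (κ - Multiset.card x - Multiset.card μ) • hv f x μ) := by
  obtain ⟨κ, hκ⟩ := h.dil
  refine ⟨κ, fun x μ => ?_⟩
  rw [hv, Multiset.map_cons, VxP.dil h hκ, Multiset.card_map]
  rfl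

end Vale.Agent.P269.WK
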